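import Mathlib

/-!
# ROW 285, PK-FACE, file 2: abstract exponential decay and locality for least squares problems (Combes-Thomas)      (helper251)   PROVED, 0 sorry

PAPER-FREE, Mathlib only.  `L : Matrix ι V ℝ` (rows = bonds and cells), energy form `bf L u w = ⟨L u, L w⟩`, forcing `pr L ρ ζ = ⟨ρ, L ζ⟩`, `Sol L ρ ξ`: `⟨L ξ, L ζ⟩ = ⟨ρ, L ζ⟩` for all `ζ`.
**Multiplier calculus.**  `t r` = scale of the row `r` (`1/s` for bonds, `1` for cells); `kk L t φ r = t_r ∑_x |L_{rx}| |φ_x|`; `Coer`: `∑_r kk² ≤ CP ‖L φ‖²` (cell Poincaré).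
If `|m_x - mr_r| ≤ ω t_r` on the stencil of `r` (`Slow`) then `|(L (m φ))_r - mr_r (L φ)_r| ≤ ω kk_r (φ)` (`comm_le`).
* `ct_weight`: `g = e^{λ h}`, `h` slow: `⟨L (g⁻¹ φ), L (g φ)⟩ = ∑_r ((Lφ)_r + E_r) ((Lφ)_r + E'_r)`, `|E_r|, |E'_r| ≤ ε kk_r`, hence `≥ ½ ‖L φ‖²` when `20 ε² CP ≤ 1` (`2 ε |a| k ≤ a²/4 + 4 ε² k²`).
* `ct_energy`: `φ = g ξ`: `‖L (g ξ)‖² ≤ 2 ⟨L ξ, L (g² ξ)⟩ = 2 ⟨ρ, L (g² ξ)⟩ = 2 ⟨ρ, L ξ⟩ = 2 ‖L ξ‖²` if `g = 1` where `ρ` lives.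
* `ct_decay`: `⟨L ξ₁, L ξ₂⟩ = ⟨ρ₂, L ξ₁⟩ = γ⁻¹ ⟨ρ₂, L (g ξ₁)⟩` if `g = γ` where `ρ₂` lives.
* `ct_local`: two operators which agree on the rows meeting `{ϱ < R0 + D1 + 4}`; `θ = clamp (R0 + D1 + 3 - ϱ)`;
  `X - X' = [⟨Lξ₂, L(θξ₁)⟩ - ⟨L(θξ₂), Lξ₁⟩] - [⟨Lξ₂, L(θξ₁')⟩ - ⟨L(θξ₂), Lξ₁'⟩]`; each bracket is a commutator supported on the rows `S` where `θ` is not constant; there `g = γ` and `L = L'`.
-/

set_option autoImplicit false
namespace Claimed.Agent.R285.F4a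
open scoped BigOperators
noncomputable section
variable {ι V : Type} [Fintype ι] [Fintype V]
/-- the energy form `⟨L u, L w⟩` -/
def bf (L : Matrix ι V ℝ) (u w : V → ℝ) : ℝ := ∑ r, L.mulVec u r * L.mulVec w r
/-- the pairing `⟨ρ, L ζ⟩` -/
def pr (L : Matrix ι V ℝ) (ρ : ι → ℝ) (ζ : V → ℝ) : ℝ := ∑ r, ρ r * L.mulVec ζ r
/-- the local size of `φ` seen from the row `r` -/
def kk (L : Matrix ι V ℝ) (t : ι → ℝ) (φ : V → ℝ) (r : ι) : ℝ := t r * ∑ x, |L r x| * |φ x|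
/-- coercivity -/
def Coer (L : Matrix ι V ℝ) (t : ι → ℝ) (CP : ℝ) : Prop := ∀ φ : V → ℝ, ∑ r, kk L t φ r ^ 2 ≤ CP * bf L φ φ
/-- `m` varies slowly; `mr` = reference values on the rows -/
def Slow (L : Matrix ι V ℝ) (t : ι → ℝ) (m : V → ℝ) (mr : ι → ℝ) (ω : ℝ) : Prop :=
  ∀ r x, L r x ≠ 0 → |m x - mr r| ≤ ω * t r
/-- the stencils of the rows charged by `ρ` lie in `A` -/
def Lives (L : Matrix ι V ℝ) (ρ : ι → ℝ) (A : V → Prop) : Prop := ∀ r x, ρ r ≠ 0 → L r x ≠ 0 → A x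
/-- squared dual norm `≤ N` -/
def DualB (L : Matrix ι V ℝ) (ρ : ι → ℝ) (N : ℝ) : Prop := ∀ ζ : V → ℝ, pr L ρ ζ ^ 2 ≤ N * bf L ζ ζ
/-- the normal equations -/
def Sol (L : Matrix ι V ℝ) (ρ : ι → ℝ) (ξ : V → ℝ) : Prop := ∀ ζ : V → ℝ, bf L ξ ζ = pr L ρ ζ
/-- an admissible weight -/
structure Wgt (L : Matrix ι V ℝ) (t : ι → ℝ) (g : V → ℝ) (gr : ι → ℝ) (ε : ℝ) : Prop where
  pos : ∀ x, 0 < g x
  rpos : ∀ r, 0 < gr r
  close : ∀ r x, L r x ≠ 0 → |g x / gr r - 1| ≤ ε * t r ∧ |gr r / g x - 1| ≤ ε * t r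

variable (L L' : Matrix ι V ℝ) (t : ι → ℝ)

theorem bf_comm (u w : V → ℝ) : bf L u w = bf L w u := by
  unfold bf
  exact Finset.sum_congr rfl fun r _ => mul_comm _ _

theorem bf_self_nonneg (u : V → ℝ) : 0 ≤ bf L u u := by
  unfold bf
  exact Finset.sum_nonneg fun r _ => mul_self_nonneg _

theorem bf_self_eq (u : V → ℝ) : bf L u u = ∑ r, L.mulVec u r ^ 2 := by
  unfold bf
  exact Finset.sum_congr rfl fun r _ => (sq _).symm

theorem bf_cs (u w : V → ℝ) : bf L u w ^ 2 ≤ bf L u u * bf L w w := by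
  rw [bf_self_eq, bf_self_eq]
  exact Finset.sum_mul_sq_le_sq_mul_sq _ _ _

theorem kk_nonneg (ht : ∀ r, 0 ≤ t r) (φ : V → ℝ) (r : ι) : 0 ≤ kk L t φ r := by
  unfold kk
  exact mul_nonneg (ht r) (Finset.sum_nonneg fun x _ => mul_nonneg (abs_nonneg _) (abs_nonneg _))

theorem mulVec_mul_sub (m : V → ℝ) (κ : ℝ) (φ : V → ℝ) (r : ι) :
    L.mulVec (m * φ) r - κ * L.mulVec φ r = ∑ x, L r x * (m x - κ) * φ x := by
  simp only [Matrix.mulVec, dotProduct, Pi.mul_apply, Finset.mul_sum]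
  rw [← Finset.sum_sub_distrib]
  exact Finset.sum_congr rfl fun x _ => by ring

theorem comm_le (m : V → ℝ) (mr : ι → ℝ) (ω : ℝ) (h : Slow L t m mr ω) (φ : V → ℝ) (r : ι) :
    |L.mulVec (m * φ) r - mr r * L.mulVec φ r| ≤ ω * kk L t φ r := by
  rw [mulVec_mul_sub]
  refine (Finset.abs_sum_le_sum_abs _ _).trans ?_
  unfold kk
  rw [← mul_assoc, Finset.mul_sum]
  refine Finset.sum_le_sum fun x _ => ?_
  by_cases hx : L r x = 0
  · simp [hx]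
  · rw [abs_mul, abs_mul]
    have := h r x hx
    calc |L r x| * |m x - mr r| * |φ x| ≤ |L r x| * (ω * t r) * |φ x| := by gcongr
      _ = ω * t r * (|L r x| * |φ x|) := by ring

theorem pr_mul_const (ρ : ι → ℝ) (A : V → Prop) (h : Lives L ρ A) (m : V → ℝ) (κ : ℝ) (hm : ∀ x, A x → m x = κ) (ζ : V → ℝ) :
    pr L ρ (m * ζ) = κ * pr L ρ ζ := by
  unfold pr
  rw [Finset.mul_sum]
  refine Finset.sum_congr rfl fun r _ => ?_
  by_cases hr : ρ r = 0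
  · simp [hr]
  · have : L.mulVec (m * ζ) r - κ * L.mulVec ζ r = 0 := by
      rw [mulVec_mul_sub]
      refine Finset.sum_eq_zero fun x _ => ?_
      by_cases hx : L r x = 0
      · simp [hx]
      · rw [hm x (h r x hr hx)]; ring
    have h2 : L.mulVec (m * ζ) r = κ * L.mulVec ζ r := by linarith
    rw [h2]; ring

theorem sol_energy (ρ : ι → ℝ) (ξ : V → ℝ) (N : ℝ) (hN : 0 ≤ N) (hs : Sol L ρ ξ) (hd : DualB L ρ N) : bf L ξ ξ ≤ N := by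
  have h1 := hd ξ
  rw [← hs ξ] at h1
  have h0 := bf_self_nonneg L ξ
  by_contra hlt
  have hlt' : N < bf L ξ ξ := not_le.mp hlt
  nlinarith

theorem dual_of_sq (ρ : ι → ℝ) : DualB L ρ (∑ r, ρ r ^ 2) := by
  intro ζ
  rw [bf_self_eq]
  exact Finset.sum_mul_sq_le_sq_mul_sq _ _ _

theorem pr_add (ρ ρ' : ι → ℝ) (ζ : V → ℝ) : pr L (ρ + ρ') ζ = pr L ρ ζ + pr L ρ' ζ := by
  unfold pr
  rw [← Finset.sum_add_distrib]
  exact Finset.sum_congr rfl fun r _ => by simp only [Pi.add_apply]; ring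

theorem pr_smul (κ : ℝ) (ρ : ι → ℝ) (ζ : V → ℝ) : pr L (κ • ρ) ζ = κ * pr L ρ ζ := by
  unfold pr
  rw [Finset.mul_sum]
  exact Finset.sum_congr rfl fun r _ => by simp only [Pi.smul_apply, smul_eq_mul]; ring

theorem dual_add (ρ ρ' : ι → ℝ) (N N' : ℝ) (h : DualB L ρ N) (h' : DualB L ρ' N') : DualB L (ρ + ρ') (2 * N + 2 * N') := by
  intro ζ
  rw [pr_add]
  have h1 := h ζ
  have h2 := h' ζ
  nlinarith [sq_nonneg (pr L ρ ζ - pr L ρ' ζ)]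

theorem dual_smul (ρ : ι → ℝ) (N κ : ℝ) (h : DualB L ρ N) : DualB L (κ • ρ) (κ ^ 2 * N) := by
  intro ζ
  rw [pr_smul, mul_pow, mul_assoc]
  exact mul_le_mul_of_nonneg_left (h ζ) (sq_nonneg _)

theorem slow_comp (m : V → ℝ) (mr : ι → ℝ) (ω : ℝ) (h : Slow L t m mr ω) (F : ℝ → ℝ) (hF : ∀ a b, |F a - F b| ≤ |a - b|) :
    Slow L t (fun x => F (m x)) (fun r => F (mr r)) ω := by
  intro r x hx
  exact (hF _ _).trans (h r x hx)


/-! CT2 -/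

theorem comm_le_row (m : V → ℝ) (κ ω : ℝ) (r : ι) (h : ∀ x, L r x ≠ 0 → |m x - κ| ≤ ω * t r) (φ : V → ℝ) :
    |L.mulVec (m * φ) r - κ * L.mulVec φ r| ≤ ω * kk L t φ r := by
  rw [mulVec_mul_sub]
  refine (Finset.abs_sum_le_sum_abs _ _).trans ?_
  unfold kk
  rw [← mul_assoc, Finset.mul_sum]
  refine Finset.sum_le_sum fun x _ => ?_
  by_cases hx : L r x = 0
  · simp [hx]
  · rw [abs_mul, abs_mul]
    have := h x hx
    calc |L r x| * |m x - κ| * |φ x| ≤ |L r x| * (ω * t r) * |φ x| := by gcongr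
      _ = ω * t r * (|L r x| * |φ x|) := by ring

theorem wt_exp (ht : ∀ r, 0 ≤ t r ∧ t r ≤ 1) (h : V → ℝ) (hr : ι → ℝ) (hs : Slow L t h hr 1) (lam : ℝ) (h0 : 0 ≤ lam) (h1 : lam ≤ 1) :
    Wgt L t (fun x => Real.exp (lam * h x)) (fun r => Real.exp (lam * hr r)) (2 * lam) := by
  refine ⟨fun x => Real.exp_pos _, fun r => Real.exp_pos _, fun r x hx => ?_⟩
  have hd := hs r x hx
  rw [one_mul] at hd
  have hb : |lam * (h x - hr r)| ≤ lam * t r := by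
    rw [abs_mul, abs_of_nonneg h0]
    exact mul_le_mul_of_nonneg_left hd h0
  have hb1 : lam * t r ≤ 1 := by
    have := (ht r).2
    have := (ht r).1
    nlinarith
  constructor
  · rw [← Real.exp_sub, ← mul_sub]
    have := Real.abs_exp_sub_one_le (hb.trans hb1)
    linarith
  · rw [← Real.exp_sub, ← mul_sub]
    have hb' : |lam * (hr r - h x)| ≤ lam * t r := by
      have : lam * (hr r - h x) = -(lam * (h x - hr r)) := by ring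
      rw [this, abs_neg]; exact hb
    have := Real.abs_exp_sub_one_le (hb'.trans hb1)
    linarith

theorem ct_row_ineq (a E E' b : ℝ) (hE : |E| ≤ b) (hE' : |E'| ≤ b) : 3 / 4 * a ^ 2 - 5 * b ^ 2 ≤ (a + E') * (a + E) := by
  have hb : 0 ≤ b := (abs_nonneg _).trans hE
  have h1 := abs_le.mp hE
  have h2 := abs_le.mp hE'
  have h3 : -(b ^ 2) ≤ E' * E := by
    have : |E' * E| ≤ b * b := by rw [abs_mul]; exact mul_le_mul hE' hE (abs_nonneg _) hb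
    have := (abs_le.mp this).1
    nlinarith
  have h4 : -(2 * b * |a|) ≤ a * (E + E') := by
    have : |a * (E + E')| ≤ |a| * (2 * b) := by
      rw [abs_mul]
      refine mul_le_mul_of_nonneg_left ?_ (abs_nonneg _)
      exact (abs_add_le _ _).trans (by linarith)
    have := (abs_le.mp this).1
    nlinarith
  have h5 : 2 * b * |a| ≤ a ^ 2 / 4 + 4 * b ^ 2 := by
    have := sq_nonneg (|a| / 2 - 2 * b)
    have h6 : |a| ^ 2 = a ^ 2 := sq_abs a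
    nlinarith
  nlinarith

theorem ct_weight (ht : ∀ r, 0 ≤ t r) (CP : ℝ) (hC : Coer L t CP) (g : V → ℝ) (gr : ι → ℝ) (ε : ℝ) (hg : Wgt L t g gr ε)
    (hε : 20 * ε ^ 2 * CP ≤ 1) (φ : V → ℝ) : bf L φ φ ≤ 2 * bf L (g⁻¹ * φ) (g * φ) := by
  have hrow : ∀ r, 3 / 4 * L.mulVec φ r ^ 2 - 5 * (ε * kk L t φ r) ^ 2 ≤ L.mulVec (g⁻¹ * φ) r * L.mulVec (g * φ) r := by
    intro r
    have hgr := hg.rpos r
    have h1 : |L.mulVec (g * φ) r - gr r * L.mulVec φ r| ≤ (gr r * ε) * kk L t φ r := by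
      refine comm_le_row L t g (gr r) (gr r * ε) r (fun x hx => ?_) φ
      have := (hg.close r x hx).1
      have e : g x - gr r = gr r * (g x / gr r - 1) := by field_simp
      rw [e, abs_mul, abs_of_pos hgr, mul_assoc]
      exact mul_le_mul_of_nonneg_left this hgr.le
    have h2 : |L.mulVec (g⁻¹ * φ) r - (gr r)⁻¹ * L.mulVec φ r| ≤ ((gr r)⁻¹ * ε) * kk L t φ r := by
      refine comm_le_row L t g⁻¹ (gr r)⁻¹ ((gr r)⁻¹ * ε) r (fun x hx => ?_) φ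
      have := (hg.close r x hx).2
      have hgx := hg.pos x
      have e : g⁻¹ x - (gr r)⁻¹ = (gr r)⁻¹ * (gr r / g x - 1) := by
        rw [Pi.inv_apply]; field_simp
      rw [e, abs_mul, abs_of_pos (inv_pos.mpr hgr), mul_assoc]
      exact mul_le_mul_of_nonneg_left this (inv_pos.mpr hgr).le
    set a := L.mulVec φ r with ha
    set E := L.mulVec (g * φ) r / gr r - a with hE
    set E' := gr r * L.mulVec (g⁻¹ * φ) r - a with hE'
    have hEb : |E| ≤ ε * kk L t φ r := by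
      have e : E = (gr r)⁻¹ * (L.mulVec (g * φ) r - gr r * a) := by rw [hE]; field_simp
      rw [e, abs_mul, abs_of_pos (inv_pos.mpr hgr)]
      calc (gr r)⁻¹ * |L.mulVec (g * φ) r - gr r * a| ≤ (gr r)⁻¹ * ((gr r * ε) * kk L t φ r) :=
            mul_le_mul_of_nonneg_left h1 (inv_pos.mpr hgr).le
        _ = ε * kk L t φ r := by field_simp
    have hEb' : |E'| ≤ ε * kk L t φ r := by
      have e : E' = gr r * (L.mulVec (g⁻¹ * φ) r - (gr r)⁻¹ * a) := by rw [hE']; field_simp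
      rw [e, abs_mul, abs_of_pos hgr]
      calc gr r * |L.mulVec (g⁻¹ * φ) r - (gr r)⁻¹ * a| ≤ gr r * (((gr r)⁻¹ * ε) * kk L t φ r) :=
            mul_le_mul_of_nonneg_left h2 hgr.le
        _ = ε * kk L t φ r := by field_simp
    have := ct_row_ineq a E E' _ hEb hEb'
    have e : (a + E') * (a + E) = L.mulVec (g⁻¹ * φ) r * L.mulVec (g * φ) r := by
      rw [hE, hE']; field_simp; ring
    rw [e] at this
    exact this
  have hsum : ∑ r, (3 / 4 * L.mulVec φ r ^ 2 - 5 * (ε * kk L t φ r) ^ 2) ≤ bf L (g⁻¹ * φ) (g * φ) :=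
    Finset.sum_le_sum fun r _ => hrow r
  rw [Finset.sum_sub_distrib, ← Finset.mul_sum, ← Finset.mul_sum, ← bf_self_eq] at hsum
  have hk : ∑ r, (ε * kk L t φ r) ^ 2 = ε ^ 2 * ∑ r, kk L t φ r ^ 2 := by
    rw [Finset.mul_sum]; exact Finset.sum_congr rfl fun r _ => by ring
  rw [hk] at hsum
  have hc := hC φ
  have h0 := bf_self_nonneg L φ
  have h3 : ε ^ 2 * ∑ r, kk L t φ r ^ 2 ≤ ε ^ 2 * (CP * bf L φ φ) := mul_le_mul_of_nonneg_left hc (sq_nonneg _)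
  have h4 : 20 * ε ^ 2 * CP * bf L φ φ ≤ 1 * bf L φ φ := mul_le_mul_of_nonneg_right hε h0
  nlinarith

theorem ct_energy (ht : ∀ r, 0 ≤ t r) (CP : ℝ) (hC : Coer L t CP) (g : V → ℝ) (gr : ι → ℝ) (ε : ℝ) (hg : Wgt L t g gr ε)
    (hε : 20 * ε ^ 2 * CP ≤ 1) (ρ : ι → ℝ) (ξ : V → ℝ) (hs : Sol L ρ ξ) (A : V → Prop) (hl : Lives L ρ A) (hA : ∀ x, A x → g x = 1) :
    bf L (g * ξ) (g * ξ) ≤ 2 * bf L ξ ξ := by
  have h1 := ct_weight L t ht CP hC g gr ε hg hε (g * ξ)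
  have e1 : g⁻¹ * (g * ξ) = ξ := by
    funext x
    have := (hg.pos x).ne'
    simp only [Pi.mul_apply, Pi.inv_apply]
    field_simp
  have e2 : g * (g * ξ) = (g * g) * ξ := by rw [mul_assoc]
  rw [e1, e2, hs, pr_mul_const L ρ A hl (g * g) 1 (fun x hx => by simp [hA x hx]), one_mul, ← hs] at h1
  exact h1


/-! CT3 -/

theorem ct_clamp_lip (lo hi c a b : ℝ) : |max lo (min hi (a - c)) - max lo (min hi (b - c))| ≤ |a - b| := by
  have h1 := abs_max_sub_max_le_max lo (min hi (a - c)) lo (min hi (b - c))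
  have h2 := abs_min_sub_min_le_max hi (a - c) hi (b - c)
  simp only [sub_self, abs_zero] at h1 h2
  have h3 : a - c - (b - c) = a - b := by ring
  rw [h3] at h2
  have h4 : max 0 |a - b| = |a - b| := max_eq_right (abs_nonneg _)
  have h5 : max 0 |min hi (a - c) - min hi (b - c)| = |min hi (a - c) - min hi (b - c)| := max_eq_right (abs_nonneg _)
  rw [h4] at h2
  rw [h5] at h1
  exact h1.trans h2

/-- **exponential decay** of `⟨L ξ₁, L ξ₂⟩` in the `ϱ`-distance of the forcings -/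
theorem ct_decay (ht : ∀ r, 0 ≤ t r ∧ t r ≤ 1) (CP : ℝ) (hC : Coer L t CP) (ϱ : V → ℝ) (ϱr : ι → ℝ) (hϱ : Slow L t ϱ ϱr 1)
    (lam : ℝ) (h0 : 0 ≤ lam) (h1 : lam ≤ 1) (h2 : 80 * lam ^ 2 * CP ≤ 1) (R0 D1 : ℝ) (hD : 0 ≤ D1)
    (ρ₁ ρ₂ : ι → ℝ) (ξ₁ ξ₂ : V → ℝ) (N₁ N₂ : ℝ) (hN₁ : 0 ≤ N₁) (hN₂ : 0 ≤ N₂)
    (hl₁ : Lives L ρ₁ fun x => ϱ x ≤ R0) (hl₂ : Lives L ρ₂ fun x => R0 + D1 ≤ ϱ x)
    (hd₁ : DualB L ρ₁ N₁) (hd₂ : DualB L ρ₂ N₂) (hs₁ : Sol L ρ₁ ξ₁) (hs₂ : Sol L ρ₂ ξ₂) :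
    bf L ξ₁ ξ₂ ^ 2 ≤ 2 * N₁ * N₂ * Real.exp (-(2 * lam * D1)) := by
  set F : ℝ → ℝ := fun a => max 0 (min D1 (a - R0)) with hF
  have hslow : Slow L t (fun x => F (ϱ x)) (fun r => F (ϱr r)) 1 :=
    slow_comp L t ϱ ϱr 1 hϱ F (fun a b => ct_clamp_lip 0 D1 R0 a b)
  set g : V → ℝ := fun x => Real.exp (lam * F (ϱ x)) with hg
  have hw := wt_exp L t ht _ _ hslow lam h0 h1
  have hε : 20 * (2 * lam) ^ 2 * CP ≤ 1 := by nlinarith
  have hen := ct_energy L t (fun r => (ht r).1) CP hC g _ _ hw hε ρ₁ ξ₁ hs₁ _ hl₁ (fun x hx => by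
    have : F (ϱ x) = 0 := by
      simp only [hF]
      have h3 : ϱ x - R0 ≤ 0 := by linarith
      rw [min_eq_right (h3.trans hD), max_eq_left h3]
    simp only [hg, this, mul_zero, Real.exp_zero])
  have hγ := pr_mul_const L ρ₂ _ hl₂ g (Real.exp (lam * D1)) (fun x hx => by
    have : F (ϱ x) = D1 := by
      simp only [hF]
      have h3 : D1 ≤ ϱ x - R0 := by linarith
      rw [min_eq_left h3, max_eq_right hD]
    simp only [hg, this]) ξ₁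
  have e1 : bf L ξ₁ ξ₂ = pr L ρ₂ ξ₁ := by rw [bf_comm, hs₂]
  have h3 := hd₂ (g * ξ₁)
  rw [hγ] at h3
  have h4 := sol_energy L ρ₁ ξ₁ N₁ hN₁ hs₁ hd₁
  have h5 : N₂ * bf L (g * ξ₁) (g * ξ₁) ≤ N₂ * (2 * N₁) := mul_le_mul_of_nonneg_left (by linarith) hN₂
  rw [e1]
  have hexp : Real.exp (-(2 * lam * D1)) * Real.exp (lam * D1) ^ 2 = 1 := by
    rw [← Real.exp_nat_mul, ← Real.exp_add]
    have : -(2 * lam * D1) + ((2 : ℕ) : ℝ) * (lam * D1) = 0 := by push_cast; ring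
    rw [this, Real.exp_zero]
  have hpos := Real.exp_pos (-(2 * lam * D1))
  calc pr L ρ₂ ξ₁ ^ 2 = (Real.exp (lam * D1) * pr L ρ₂ ξ₁) ^ 2 * Real.exp (-(2 * lam * D1)) := by
        rw [mul_pow]
        calc pr L ρ₂ ξ₁ ^ 2 = pr L ρ₂ ξ₁ ^ 2 * (Real.exp (-(2 * lam * D1)) * Real.exp (lam * D1) ^ 2) := by rw [hexp, mul_one]
          _ = _ := by ring
    _ ≤ (N₂ * (2 * N₁)) * Real.exp (-(2 * lam * D1)) := mul_le_mul_of_nonneg_right (h3.trans h5) hpos.le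
    _ = _ := by ring


/-! CT4 -/

theorem comm_bound (ht : ∀ r, 0 ≤ t r) (θ : V → ℝ) (θr : ι → ℝ) (hθ : Slow L t θ θr 1) (S : Finset ι)
    (hS : ∀ r, r ∉ S → ∀ x, L r x ≠ 0 → θ x = θr r) (u w : V → ℝ) (Au Ku Aw Kw : ℝ)
    (hAu : ∑ r ∈ S, L.mulVec u r ^ 2 ≤ Au) (hKu : ∑ r ∈ S, kk L t u r ^ 2 ≤ Ku)
    (hAw : ∑ r ∈ S, L.mulVec w r ^ 2 ≤ Aw) (hKw : ∑ r ∈ S, kk L t w r ^ 2 ≤ Kw) :
    (bf L u (θ * w) - bf L (θ * u) w) ^ 2 ≤ 2 * (Au * Kw + Ku * Aw) := by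
  have hzero : ∀ (φ : V → ℝ) r, r ∉ S → L.mulVec (θ * φ) r - θr r * L.mulVec φ r = 0 := by
    intro φ r hr
    rw [mulVec_mul_sub]
    refine Finset.sum_eq_zero fun x _ => ?_
    by_cases hx : L r x = 0
    · simp [hx]
    · rw [hS r hr x hx]; ring
  have hsq : ∀ (φ : V → ℝ) r, (L.mulVec (θ * φ) r - θr r * L.mulVec φ r) ^ 2 ≤ kk L t φ r ^ 2 := by
    intro φ r
    have := comm_le L t θ θr 1 hθ φ r
    rw [one_mul] at this
    exact sq_le_sq' (by have := (abs_le.mp this).1; linarith) (abs_le.mp this).2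
  have hdiff : bf L u (θ * w) - bf L (θ * u) w
      = ∑ r ∈ S, L.mulVec u r * (L.mulVec (θ * w) r - θr r * L.mulVec w r)
        - ∑ r ∈ S, (L.mulVec (θ * u) r - θr r * L.mulVec u r) * L.mulVec w r := by
    unfold bf
    rw [← Finset.sum_sub_distrib, ← Finset.sum_sub_distrib]
    symm
    rw [← Finset.sum_subset (Finset.subset_univ S)]
    · exact Finset.sum_congr rfl fun r _ => by ring
    · intro r _ hr
      have h1 := hzero w r hr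
      have h2 := hzero u r hr
      have e : L.mulVec u r * L.mulVec (θ * w) r - L.mulVec (θ * u) r * L.mulVec w r
          = L.mulVec u r * (L.mulVec (θ * w) r - θr r * L.mulVec w r)
            - (L.mulVec (θ * u) r - θr r * L.mulVec u r) * L.mulVec w r := by ring
      rw [e, h1, h2]; ring
  rw [hdiff]
  set X := ∑ r ∈ S, L.mulVec u r * (L.mulVec (θ * w) r - θr r * L.mulVec w r)
  set Y := ∑ r ∈ S, (L.mulVec (θ * u) r - θr r * L.mulVec u r) * L.mulVec w r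
  have hX : X ^ 2 ≤ Au * Kw := by
    refine (Finset.sum_mul_sq_le_sq_mul_sq _ _ _).trans ?_
    refine mul_le_mul hAu ((Finset.sum_le_sum fun r _ => hsq w r).trans hKw) (Finset.sum_nonneg fun r _ => sq_nonneg _) ?_
    exact (Finset.sum_nonneg fun r _ => sq_nonneg _).trans hAu
  have hY : Y ^ 2 ≤ Ku * Aw := by
    refine (Finset.sum_mul_sq_le_sq_mul_sq _ _ _).trans ?_
    refine mul_le_mul ((Finset.sum_le_sum fun r _ => hsq u r).trans hKu) hAw (Finset.sum_nonneg fun r _ => sq_nonneg _) ?_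
    exact (Finset.sum_nonneg fun r _ => sq_nonneg _).trans hKu
  nlinarith [sq_nonneg (X + Y)]

theorem bf_agree (θ : V → ℝ) (h : ∀ r x, (L r x ≠ 0 ∨ L' r x ≠ 0) → θ x ≠ 0 → L r = L' r) (u w : V → ℝ) :
    bf L (θ * u) w = bf L' (θ * u) w := by
  unfold bf
  refine Finset.sum_congr rfl fun r _ => ?_
  by_cases hr : L r = L' r
  · have e : ∀ φ : V → ℝ, L.mulVec φ r = L'.mulVec φ r := by
      intro φ; simp only [Matrix.mulVec, hr]
    rw [e, e]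
  · have z1 : L.mulVec (θ * u) r = 0 := by
      simp only [Matrix.mulVec, dotProduct, Pi.mul_apply]
      refine Finset.sum_eq_zero fun x _ => ?_
      by_cases hx : L r x = 0
      · simp [hx]
      · by_cases hθ : θ x = 0
        · simp [hθ]
        · exact absurd (h r x (Or.inl hx) hθ) hr
    have z2 : L'.mulVec (θ * u) r = 0 := by
      simp only [Matrix.mulVec, dotProduct, Pi.mul_apply]
      refine Finset.sum_eq_zero fun x _ => ?_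
      by_cases hx : L' r x = 0
      · simp [hx]
      · by_cases hθ : θ x = 0
        · simp [hθ]
        · exact absurd (h r x (Or.inr hx) hθ) hr
    rw [z1, z2]; ring

theorem pr_agree (ρ : ι → ℝ) (h : ∀ r, ρ r ≠ 0 → L r = L' r) (ζ : V → ℝ) : pr L ρ ζ = pr L' ρ ζ := by
  unfold pr
  refine Finset.sum_congr rfl fun r _ => ?_
  by_cases hr : ρ r = 0
  · simp [hr]
  · simp only [Matrix.mulVec, h r hr]

theorem ct_clamp_lip' (lo hi c a b : ℝ) : |max lo (min hi (c - a)) - max lo (min hi (c - b))| ≤ |a - b| := by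
  have := ct_clamp_lip lo hi (-c) (-a) (-b)
  have e1 : -a - -c = c - a := by ring
  have e2 : -b - -c = c - b := by ring
  have e3 : |(-a) - (-b)| = |a - b| := by
    have : -a - -b = -(a - b) := by ring
    rw [this, abs_neg]
  rw [e1, e2, e3] at this
  exact this

open Classical in
/-- **locality**: changing the operator at `ϱ`-distance `≥ R0 + D1 + 4` from the second forcing changes `⟨L ξ₁, L ξ₂⟩` by `O (e^{-λ D1})` -/
theorem ct_local (ht : ∀ r, 0 ≤ t r ∧ t r ≤ 1) (CP : ℝ) (hCP : 0 ≤ CP) (hC : Coer L t CP) (hC' : Coer L' t CP)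
    (ϱ : V → ℝ) (ϱr : ι → ℝ) (hϱ : Slow L t ϱ ϱr 1)
    (lam : ℝ) (h0 : 0 ≤ lam) (h1 : lam ≤ 1) (h2 : 80 * lam ^ 2 * CP ≤ 1) (R0 D1 : ℝ) (hD : 0 ≤ D1)
    (hag : ∀ r x, (L r x ≠ 0 ∨ L' r x ≠ 0) → ϱ x < R0 + D1 + 4 → L r = L' r)
    (ρ₁ ρ₂ : ι → ℝ) (ξ₁ ξ₂ ξ₁' ξ₂' : V → ℝ) (N₁ N₂ : ℝ) (hN₁ : 0 ≤ N₁) (hN₂ : 0 ≤ N₂)
    (hl₂ : Lives L ρ₂ fun x => ϱ x ≤ R0) (he₁ : ∀ r, ρ₁ r ≠ 0 → L r = L' r) (he₂ : ∀ r, ρ₂ r ≠ 0 → L r = L' r)
    (hd₁ : DualB L ρ₁ N₁) (hd₁' : DualB L' ρ₁ N₁) (hd₂ : DualB L ρ₂ N₂)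
    (hs₁ : Sol L ρ₁ ξ₁) (hs₂ : Sol L ρ₂ ξ₂) (hs₁' : Sol L' ρ₁ ξ₁') (hs₂' : Sol L' ρ₂ ξ₂') :
    (bf L ξ₁ ξ₂ - bf L' ξ₁' ξ₂') ^ 2 ≤ 64 * CP * N₁ * N₂ * Real.exp (-(2 * lam * D1)) := by
  have ht0 : ∀ r, 0 ≤ t r := fun r => (ht r).1
  -- the weight
  set F : ℝ → ℝ := fun a => max 0 (min D1 (a - R0)) with hF
  have hslow : Slow L t (fun x => F (ϱ x)) (fun r => F (ϱr r)) 1 :=
    slow_comp L t ϱ ϱr 1 hϱ F (fun a b => ct_clamp_lip 0 D1 R0 a b)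
  set g : V → ℝ := fun x => Real.exp (lam * F (ϱ x)) with hg
  set γ : ℝ := Real.exp (lam * D1) with hγ
  have hγpos : 0 < γ := Real.exp_pos _
  have hw := wt_exp L t ht _ _ hslow lam h0 h1
  have hε : 20 * (2 * lam) ^ 2 * CP ≤ 1 := by nlinarith
  have hen := ct_energy L t ht0 CP hC g _ _ hw hε ρ₂ ξ₂ hs₂ _ hl₂ (fun x hx => by
    have : F (ϱ x) = 0 := by
      simp only [hF]
      have h3 : ϱ x - R0 ≤ 0 := by linarith
      rw [min_eq_right (h3.trans hD), max_eq_left h3]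
    simp only [hg, this, mul_zero, Real.exp_zero])
  have hE2 := sol_energy L ρ₂ ξ₂ N₂ hN₂ hs₂ hd₂
  have hE1 := sol_energy L ρ₁ ξ₁ N₁ hN₁ hs₁ hd₁
  have hE1' := sol_energy L' ρ₁ ξ₁' N₁ hN₁ hs₁' hd₁'
  have hgE : bf L (g * ξ₂) (g * ξ₂) ≤ 2 * N₂ := by linarith
  -- the cutoff
  set Θ : ℝ → ℝ := fun a => max 0 (min 1 (R0 + D1 + 3 - a)) with hΘ
  set θ : V → ℝ := fun x => Θ (ϱ x) with hθdef
  set θr : ι → ℝ := fun r => Θ (ϱr r) with hθrdef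
  have hθ : Slow L t θ θr 1 := slow_comp L t ϱ ϱr 1 hϱ Θ (fun a b => ct_clamp_lip' 0 1 (R0 + D1 + 3) a b)
  have hΘ1 : ∀ a, a ≤ R0 + D1 + 2 → Θ a = 1 := by
    intro a ha
    simp only [hΘ]
    rw [min_eq_left (by linarith), max_eq_right zero_le_one]
  have hΘ0 : ∀ a, R0 + D1 + 3 ≤ a → Θ a = 0 := by
    intro a ha
    simp only [hΘ]
    have h3 : R0 + D1 + 3 - a ≤ 0 := by linarith
    rw [min_eq_right (h3.trans zero_le_one), max_eq_left h3]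
  set S : Finset ι := Finset.univ.filter fun r => ∃ x, L r x ≠ 0 ∧ θ x ≠ θr r with hSdef
  have hS : ∀ r, r ∉ S → ∀ x, L r x ≠ 0 → θ x = θr r := by
    intro r hr x hx
    by_contra hne
    exact hr (Finset.mem_filter.mpr ⟨Finset.mem_univ _, x, hx, hne⟩)
  have hSfacts : ∀ r ∈ S, R0 + D1 + 1 < ϱr r ∧ L r = L' r := by
    intro r hr
    obtain ⟨x, hx, hne⟩ := (Finset.mem_filter.mp hr).2
    have hd := hϱ r x hx
    rw [one_mul] at hd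
    have hd' := abs_le.mp hd
    have htr := (ht r).2
    constructor
    · by_contra hle
      have hle' : ϱr r ≤ R0 + D1 + 1 := not_lt.mp hle
      exact hne (by simp only [hθdef, hθrdef]; rw [hΘ1 _ (by linarith), hΘ1 _ (by linarith)])
    · refine hag r x (Or.inl hx) ?_
      by_contra hle
      have hle' : R0 + D1 + 4 ≤ ϱ x := not_lt.mp hle
      exact hne (by simp only [hθdef, hθrdef]; rw [hΘ0 _ (by linarith), hΘ0 _ (by linarith)])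
  have hgS : ∀ r ∈ S, ∀ y, L r y ≠ 0 → g y = γ := by
    intro r hr y hy
    have h3 := (hSfacts r hr).1
    have hd := hϱ r y hy
    rw [one_mul] at hd
    have hd' := abs_le.mp hd
    have htr := (ht r).2
    have : F (ϱ y) = D1 := by
      simp only [hF]
      rw [min_eq_left (by linarith), max_eq_right hD]
    simp only [hg, this, hγ]
  -- smallness of ξ₂ on S
  have hmulS : ∀ r ∈ S, L.mulVec (g * ξ₂) r = γ * L.mulVec ξ₂ r := by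
    intro r hr
    have : L.mulVec (g * ξ₂) r - γ * L.mulVec ξ₂ r = 0 := by
      rw [mulVec_mul_sub]
      refine Finset.sum_eq_zero fun x _ => ?_
      by_cases hx : L r x = 0
      · simp [hx]
      · rw [hgS r hr x hx]; ring
    linarith
  have hkkS : ∀ r ∈ S, kk L t (g * ξ₂) r = γ * kk L t ξ₂ r := by
    intro r hr
    unfold kk
    have e : ∑ x, |L r x| * |(g * ξ₂) x| = γ * ∑ x, |L r x| * |ξ₂ x| := by
      rw [Finset.mul_sum]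
      refine Finset.sum_congr rfl fun x _ => ?_
      by_cases hx : L r x = 0
      · simp [hx]
      · rw [Pi.mul_apply, hgS r hr x hx, abs_mul, abs_of_pos hγpos]; ring
    rw [e]; ring
  have hAu : ∑ r ∈ S, L.mulVec ξ₂ r ^ 2 ≤ 2 * N₂ / γ ^ 2 := by
    rw [le_div_iff₀ (by positivity), Finset.sum_mul]
    calc ∑ r ∈ S, L.mulVec ξ₂ r ^ 2 * γ ^ 2 = ∑ r ∈ S, L.mulVec (g * ξ₂) r ^ 2 :=
          Finset.sum_congr rfl fun r hr => by rw [hmulS r hr]; ring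
      _ ≤ ∑ r, L.mulVec (g * ξ₂) r ^ 2 :=
          Finset.sum_le_sum_of_subset_of_nonneg (Finset.subset_univ _) fun r _ _ => sq_nonneg _
      _ = bf L (g * ξ₂) (g * ξ₂) := (bf_self_eq L _).symm
      _ ≤ 2 * N₂ := hgE
  have hKu : ∑ r ∈ S, kk L t ξ₂ r ^ 2 ≤ CP * (2 * N₂) / γ ^ 2 := by
    rw [le_div_iff₀ (by positivity), Finset.sum_mul]
    calc ∑ r ∈ S, kk L t ξ₂ r ^ 2 * γ ^ 2 = ∑ r ∈ S, kk L t (g * ξ₂) r ^ 2 :=
          Finset.sum_congr rfl fun r hr => by rw [hkkS r hr]; ring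
      _ ≤ ∑ r, kk L t (g * ξ₂) r ^ 2 :=
          Finset.sum_le_sum_of_subset_of_nonneg (Finset.subset_univ _) fun r _ _ => sq_nonneg _
      _ ≤ CP * bf L (g * ξ₂) (g * ξ₂) := hC _
      _ ≤ CP * (2 * N₂) := mul_le_mul_of_nonneg_left hgE hCP
  -- the partners
  have hAw : ∑ r ∈ S, L.mulVec ξ₁ r ^ 2 ≤ N₁ :=
    calc ∑ r ∈ S, L.mulVec ξ₁ r ^ 2 ≤ ∑ r, L.mulVec ξ₁ r ^ 2 :=
          Finset.sum_le_sum_of_subset_of_nonneg (Finset.subset_univ _) fun r _ _ => sq_nonneg _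
      _ = bf L ξ₁ ξ₁ := (bf_self_eq L _).symm
      _ ≤ N₁ := hE1
  have hKw : ∑ r ∈ S, kk L t ξ₁ r ^ 2 ≤ CP * N₁ :=
    calc ∑ r ∈ S, kk L t ξ₁ r ^ 2 ≤ ∑ r, kk L t ξ₁ r ^ 2 :=
          Finset.sum_le_sum_of_subset_of_nonneg (Finset.subset_univ _) fun r _ _ => sq_nonneg _
      _ ≤ CP * bf L ξ₁ ξ₁ := hC _
      _ ≤ CP * N₁ := mul_le_mul_of_nonneg_left hE1 hCP
  have hAw' : ∑ r ∈ S, L.mulVec ξ₁' r ^ 2 ≤ N₁ :=
    calc ∑ r ∈ S, L.mulVec ξ₁' r ^ 2 = ∑ r ∈ S, L'.mulVec ξ₁' r ^ 2 :=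
          Finset.sum_congr rfl fun r hr => by simp only [Matrix.mulVec, (hSfacts r hr).2]
      _ ≤ ∑ r, L'.mulVec ξ₁' r ^ 2 :=
          Finset.sum_le_sum_of_subset_of_nonneg (Finset.subset_univ _) fun r _ _ => sq_nonneg _
      _ = bf L' ξ₁' ξ₁' := (bf_self_eq L' _).symm
      _ ≤ N₁ := hE1'
  have hKw' : ∑ r ∈ S, kk L t ξ₁' r ^ 2 ≤ CP * N₁ :=
    calc ∑ r ∈ S, kk L t ξ₁' r ^ 2 = ∑ r ∈ S, kk L' t ξ₁' r ^ 2 :=
          Finset.sum_congr rfl fun r hr => by simp only [kk, (hSfacts r hr).2]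
      _ ≤ ∑ r, kk L' t ξ₁' r ^ 2 :=
          Finset.sum_le_sum_of_subset_of_nonneg (Finset.subset_univ _) fun r _ _ => sq_nonneg _
      _ ≤ CP * bf L' ξ₁' ξ₁' := hC' _
      _ ≤ CP * N₁ := mul_le_mul_of_nonneg_left hE1' hCP
  have hc1 := comm_bound L t ht0 θ θr hθ S hS ξ₂ ξ₁ _ _ _ _ hAu hKu hAw hKw
  have hc2 := comm_bound L t ht0 θ θr hθ S hS ξ₂ ξ₁' _ _ _ _ hAu hKu hAw' hKw'
  -- the identity
  have hθ1 : ∀ ζ, pr L ρ₂ (θ * ζ) = pr L ρ₂ ζ := by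
    intro ζ
    rw [pr_mul_const L ρ₂ _ hl₂ θ 1 (fun x hx => hΘ1 _ (by linarith)), one_mul]
  have hagθ : ∀ r x, (L r x ≠ 0 ∨ L' r x ≠ 0) → θ x ≠ 0 → L r = L' r := by
    intro r x hx hne
    refine hag r x hx ?_
    by_contra hle
    have hle' : R0 + D1 + 4 ≤ ϱ x := not_lt.mp hle
    exact hne (hΘ0 _ (by linarith))
  have eX : bf L ξ₁ ξ₂ = bf L ξ₂ (θ * ξ₁) := by rw [bf_comm, hs₂, hs₂, hθ1]
  have eX' : bf L' ξ₁' ξ₂' = bf L ξ₂ (θ * ξ₁') := by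
    rw [bf_comm, hs₂', hs₂, hθ1, pr_agree L L' ρ₂ he₂]
  have eY : bf L (θ * ξ₂) ξ₁ = bf L (θ * ξ₂) ξ₁' := by
    rw [bf_agree L L' θ hagθ ξ₂ ξ₁', bf_comm L, bf_comm L', hs₁, hs₁', pr_agree L L' ρ₁ he₁]
  have eD : bf L ξ₁ ξ₂ - bf L' ξ₁' ξ₂'
      = (bf L ξ₂ (θ * ξ₁) - bf L (θ * ξ₂) ξ₁) - (bf L ξ₂ (θ * ξ₁') - bf L (θ * ξ₂) ξ₁') := by
    rw [eX, eX', eY]; ring
  rw [eD]
  set c1 := bf L ξ₂ (θ * ξ₁) - bf L (θ * ξ₂) ξ₁
  set c2 := bf L ξ₂ (θ * ξ₁') - bf L (θ * ξ₂) ξ₁'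
  have hexp : Real.exp (-(2 * lam * D1)) = 1 / γ ^ 2 := by
    rw [hγ, ← Real.exp_nat_mul, one_div, ← Real.exp_neg]
    congr 1; push_cast; ring
  have hval : 2 * (2 * N₂ / γ ^ 2 * (CP * N₁) + CP * (2 * N₂) / γ ^ 2 * N₁) = 8 * CP * N₁ * N₂ * (1 / γ ^ 2) := by
    field_simp; ring
  rw [hval] at hc1 hc2
  rw [hexp]
  have hnn : 0 ≤ CP * N₁ * N₂ * (1 / γ ^ 2) := by positivity
  nlinarith [sq_nonneg (c1 + c2)]

end
end Claimed.Agent.R285.F4a
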