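import Claimed.Agent.R285.F4a.Defs

/-!
# ROW 285, PK-FACE ([F] Lemma 4.5), file 1: the angular field, its four branches, cutoffs, the plane trial field      (architect helper251)

## The proof of L4.5 used here (NOT the one of the paper: no triangulation, no list of junction masks, no Caccioppoli iteration, no plane limit)
`ang = η/2π` = a co-closed field of circulation one around the plaquette `{-1,0}²`, on the box of radius `8 s` only (`BoxField`; it may depend on `s`; constructed in `box_field` (`Face/Main.lean`) from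
the killed Green function, with `F4a/UnitA.lean`).  Only `|v| ≤ C`, `|η(e)| ≤ C/(1+|e|)` and co-closure are used.
It has four single-valued branches `vbr β` (`β = 0,1,2,3` = E, N, W, S): `∇ vbr β + tbr β = ang`, `tbr β` supported on the bonds crossing the ray from the centre in the direction `β`; they differ by indicators of quadrants.
**Trial field of a face** `f` with ends `z₁, z₂` (chart: `z₁ = 0`, `z₂ = P2 = s e`): `u = ± (vbr β (X) - vbr β (X - P2))`, `β` = direction of the face seen from `z₁`.  The two rays cancel beyond `z₂`, so EXACTLY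
`∇ u + δ_f = ± (ang (X) - ang (X - P2))` on all plane bonds.  Summing over the retained faces at a junction `z`, the coefficient of `ang (· - z)` is `σ_z (w)` at a full junction.
At a junction which is NOT full the singular part is removed by subtracting `± χ_z vbr β'`, `β'` = direction of a MISSING face at `z`: the bonds crossing that ray near `z` are not in the graph.
Cutoffs: `chiF` (`1` up to `2s`, `0` from `4s`), `chiZ` (`1` up to `s/8`, `0` from `s/4`; identically `0` if `s < 8`).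
Result (`rreg_bound`): compensated gradient of the trial = `∑_{full ends} ± chiZ · ang  +  O(1/s)`.
-/

set_option autoImplicit false

namespace Claimed.Agent.R285.F4a

open scoped BigOperators
open Claimed.Agent.R285 Claimed.Agent.R285.RG

noncomputable section

/-- sup norm on `ℤ²` -/
def nrm (x : ℤ × ℤ) : ℝ := max |(x.1 : ℝ)| |(x.2 : ℝ)|

/-- what L4.5 uses of L4.2: a bounded potential whose connection `etaP v` is co-closed and decays, in the box of radius `R` -/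
structure BoxField (Cv : ℝ) (R : ℕ) (v : ℤ × ℤ → ℝ) : Prop where
  bdd : ∀ x, |v x| ≤ Cv
  coclosed : ∀ x, nrm x + 2 ≤ R →
    etaP v x true + etaP v x false - etaP v (x - bdir true) true - etaP v (x - bdir false) false = 0
  decay : ∀ x d, nrm x + 2 ≤ R → |etaP v x d| ≤ Cv * (1 + nrm x)⁻¹

/-- the field of circulation one -/
def ang (v : ℤ × ℤ → ℝ) (x : ℤ × ℤ) (d : Bool) : ℝ := etaP v x d / (2 * Real.pi)

/-- accumulated quadrant indicators: NE for `β ≥ 1`, NW for `β ≥ 2`, SW for `β = 3` -/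
def qind (β : Fin 4) (x : ℤ × ℤ) : ℝ :=
  (if 1 ≤ β.1 ∧ 0 ≤ x.1 ∧ 0 ≤ x.2 then 1 else 0) + (if 2 ≤ β.1 ∧ x.1 < 0 ∧ 0 ≤ x.2 then 1 else 0)
    + (if 3 ≤ β.1 ∧ x.1 < 0 ∧ x.2 < 0 then 1 else 0)

/-- the branch with its cut along the ray `β` (`0` = E, `1` = N, `2` = W, `3` = S) -/
def vbr (v : ℤ × ℤ → ℝ) (β : Fin 4) (x : ℤ × ℤ) : ℝ := v x / (2 * Real.pi) + qind β x

/-- the connection of the branch `β` -/
def tbr (β : Fin 4) (x : ℤ × ℤ) (d : Bool) : ℝ :=
  if β = 0 then (if d = false ∧ x.2 = -1 ∧ 0 ≤ x.1 then 1 else 0)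
  else if β = 1 then (if d = true ∧ x.1 = -1 ∧ 0 ≤ x.2 then -1 else 0)
  else if β = 2 then (if d = false ∧ x.2 = -1 ∧ x.1 < 0 then -1 else 0)
  else (if d = true ∧ x.1 = -1 ∧ x.2 < 0 then 1 else 0)

/-- `max 0 (min 1 t)` -/
def clamp01 (t : ℝ) : ℝ := max 0 (min 1 t)

/-- the cutoff of a face (centred at its first end) -/
def chiF (s : ℕ) (x : ℤ × ℤ) : ℝ := clamp01 (2 - nrm x / (2 * s))

/-- the cutoff of a junction -/
def chiZ (s : ℕ) (x : ℤ × ℤ) : ℝ := if 8 ≤ s then clamp01 (2 - 8 * nrm x / s) else 0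

/-- the second end of a face of type `t` in the chart of its first end (`t = false`: horizontal segment, ends W, E; `t = true`: vertical segment, ends S, N) -/
def P2 (s : ℕ) (t : Bool) : ℤ × ℤ := if t then (0, (s : ℤ)) else ((s : ℤ), 0)

/-- the branch used along a face of type `t` -/
def bt (t : Bool) : Fin 4 := if t then 1 else 0

/-- the sign of the first end (`= ` the sign of the face in `σ` at its first end); the second end has the opposite sign -/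
def sg (t : Bool) : ℝ := if t then -1 else 1

/-- the unit connection of the face in the chart -/
def dpl (s : ℕ) (t : Bool) (x : ℤ × ℤ) (d : Bool) : ℝ :=
  if d = t ∧ (if t then x.1 = -1 ∧ 0 ≤ x.2 ∧ x.2 < s else x.2 = -1 ∧ 0 ≤ x.1 ∧ x.1 < s) then 1 else 0

/-- the correction at an end: `none` = nothing to remove (full junction), `some β` = the face in the direction `β` is missing -/
def corr (v : ℤ × ℤ → ℝ) (s : ℕ) (m : Option (Fin 4)) (x : ℤ × ℤ) : ℝ :=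
  match m with
  | none => 0
  | some β => chiZ s x * vbr v β x

/-- the part of the gradient of `corr` which survives -/
def corrG (v : ℤ × ℤ → ℝ) (s : ℕ) (m : Option (Fin 4)) (x : ℤ × ℤ) (d : Bool) : ℝ :=
  match m with
  | none => 0
  | some β => (chiZ s (x + bdir d) - chiZ s x) * vbr v β (x + bdir d)

/-- **the plane trial field** of a face of type `t` with end masks `m₁, m₂` -/
def utr (v : ℤ × ℤ → ℝ) (s : ℕ) (t : Bool) (m₁ m₂ : Option (Fin 4)) (x : ℤ × ℤ) : ℝ :=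
  sg t * (chiF s x * (vbr v (bt t) x - vbr v (bt t) (x - P2 s t)) - corr v s m₁ x + corr v s m₂ (x - P2 s t))

/-- the singular part of the residual at an end -/
def sing (v : ℤ × ℤ → ℝ) (s : ℕ) (m : Option (Fin 4)) (x : ℤ × ℤ) (d : Bool) : ℝ :=
  match m with
  | none => chiZ s x * ang v x d
  | some _ => 0

/-- a bond is allowed at an end if it does not cross the cut of the correction inside its support -/
def allowed (s : ℕ) (m : Option (Fin 4)) (x : ℤ × ℤ) (d : Bool) : Prop :=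
  match m with
  | none => True
  | some β => chiZ s x = 0 ∨ tbr β x d = 0

/-- the regular part of the residual, DEFINED as the difference -/
def rreg (v : ℤ × ℤ → ℝ) (s : ℕ) (t : Bool) (m₁ m₂ : Option (Fin 4)) (x : ℤ × ℤ) (d : Bool) : ℝ :=
  utr v s t m₁ m₂ (x + bdir d) - utr v s t m₁ m₂ x + dpl s t x d
    - sg t * (sing v s m₁ x d - sing v s m₂ (x - P2 s t) d)

/-- the box `[-s, s)²` = the four cells around a junction -/
def bx (s : ℕ) : Finset (ℤ × ℤ) := Finset.Ico (-(s : ℤ)) s ×ˢ Finset.Ico (-(s : ℤ)) s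

/-- `a D_s`: the energy of the cut-off angular field -/
def angE (v : ℤ × ℤ → ℝ) (s : ℕ) : ℝ := ∑ x ∈ bx s, ∑ d : Bool, (chiZ s x * ang v x d) ^ 2

/-! ### LEAF L-FACE-PL1: branches (pure case analysis) -/

theorem vbr_grad_aux (β : Fin 4) (x : ℤ × ℤ) (d : Bool) :
    qind β (x + bdir d) - qind β x + tbr β x d = (if d = false ∧ x.2 + 1 = 0 ∧ 0 ≤ x.1 then 1 else 0) := by
  obtain ⟨a, b⟩ := x
  unfold qind tbr bdir
  fin_cases β <;> cases d <;> simp <;> split_ifs <;> first | (exfalso; omega) | norm_num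

theorem vbr_grad (v : ℤ × ℤ → ℝ) (β : Fin 4) (x : ℤ × ℤ) (d : Bool) :
    vbr v β (x + bdir d) - vbr v β x + tbr β x d = ang v x d := by
  have h := vbr_grad_aux β x d
  have hpi : (2 * Real.pi) ≠ 0 := by positivity
  unfold vbr ang etaP
  rw [← h]
  field_simp
  ring

theorem qind_bdd (β : Fin 4) (x : ℤ × ℤ) : |qind β x| ≤ 3 := by
  unfold qind
  split_ifs <;> norm_num

theorem vbr_bdd {Cv : ℝ} {R : ℕ} {v : ℤ × ℤ → ℝ} (h : BoxField Cv R v) (β : Fin 4) (x : ℤ × ℤ) : |vbr v β x| ≤ Cv + 3 := by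
  unfold vbr
  have h1 := h.bdd x
  have h2 := qind_bdd β x
  have hpi : (1 : ℝ) ≤ 2 * Real.pi := by have := Real.pi_gt_three; linarith
  have h3 : |v x / (2 * Real.pi)| ≤ Cv := by
    rw [abs_div, abs_of_pos (by linarith : (0 : ℝ) < 2 * Real.pi)]
    exact (div_le_self (abs_nonneg _) hpi).trans h1
  exact (abs_add_le _ _).trans (add_le_add h3 h2)

theorem tbr_face (s : ℕ) (t : Bool) (x : ℤ × ℤ) (d : Bool) :
    sg t * (tbr (bt t) x d - tbr (bt t) (x - P2 s t) d) = dpl s t x d := by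
  obtain ⟨a, b⟩ := x
  unfold sg tbr bt P2 dpl
  cases t <;> cases d <;> simp <;> split_ifs <;> first | (exfalso; omega) | norm_num

theorem ang_decay {Cv : ℝ} {R : ℕ} {v : ℤ × ℤ → ℝ} (h : BoxField Cv R v) (x : ℤ × ℤ) (d : Bool) (hx : nrm x + 2 ≤ R) :
    |ang v x d| ≤ Cv * (1 + nrm x)⁻¹ := by
  unfold ang
  have hpi : (1 : ℝ) ≤ 2 * Real.pi := by have := Real.pi_gt_three; linarith
  rw [abs_div, abs_of_pos (by linarith : (0 : ℝ) < 2 * Real.pi)]
  exact (div_le_self (abs_nonneg _) hpi).trans (h.decay x d hx)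

/-! ### LEAF L-FACE-PL2: cutoffs -/

theorem clamp01_mem (t : ℝ) : 0 ≤ clamp01 t ∧ clamp01 t ≤ 1 :=
  ⟨le_max_left _ _, max_le zero_le_one (min_le_left _ _)⟩

theorem clamp01_lip (t t' : ℝ) : |clamp01 t - clamp01 t'| ≤ |t - t'| := by
  have h1 := le_abs_self (t - t')
  have h2 := neg_abs_le (t - t')
  unfold clamp01
  rw [abs_le]
  simp only [max_def, min_def]
  split_ifs <;> constructor <;> linarith

theorem clamp01_one {t : ℝ} (h : 1 ≤ t) : clamp01 t = 1 := by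
  unfold clamp01
  rw [min_eq_left h, max_eq_right zero_le_one]

theorem clamp01_zero {t : ℝ} (h : t ≤ 0) : clamp01 t = 0 := by
  unfold clamp01
  rw [min_eq_right (h.trans zero_le_one), max_eq_left h]

theorem nrm_step (x : ℤ × ℤ) (d : Bool) : |nrm (x + bdir d) - nrm x| ≤ 1 := by
  obtain ⟨a, b⟩ := x
  unfold nrm bdir
  refine (abs_max_sub_max_le_max _ _ _ _).trans (max_le ?_ ?_)
  · refine (abs_abs_sub_abs_le_abs_sub _ _).trans ?_
    cases d <;> simp
  · refine (abs_abs_sub_abs_le_abs_sub _ _).trans ?_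
    cases d <;> simp

theorem nrm_sub_le (x y : ℤ × ℤ) : nrm (x - y) ≤ nrm x + nrm y := by
  unfold nrm
  refine max_le ?_ ?_
  · simp only [Prod.fst_sub, Int.cast_sub]
    exact (abs_sub _ _).trans (add_le_add (le_max_left _ _) (le_max_left _ _))
  · simp only [Prod.snd_sub, Int.cast_sub]
    exact (abs_sub _ _).trans (add_le_add (le_max_right _ _) (le_max_right _ _))

theorem chiF_facts (s : ℕ) (hs : 1 ≤ s) (x : ℤ × ℤ) :
    0 ≤ chiF s x ∧ chiF s x ≤ 1 ∧ (nrm x ≤ 2 * s → chiF s x = 1) ∧ (4 * s ≤ nrm x → chiF s x = 0) ∧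
    ∀ d, |chiF s (x + bdir d) - chiF s x| ≤ 1 / (2 * s) := by
  have hs' : (0 : ℝ) < 2 * s := by
    have : (1 : ℝ) ≤ s := by exact_mod_cast hs
    linarith
  refine ⟨(clamp01_mem _).1, (clamp01_mem _).2, fun h => clamp01_one ?_, fun h => clamp01_zero ?_, fun d => ?_⟩
  · have : nrm x / (2 * s) ≤ 1 := (div_le_one hs').2 h
    linarith
  · have : 2 ≤ nrm x / (2 * s) := (le_div_iff₀ hs').2 (by linarith)
    linarith
  · unfold chiF
    refine (clamp01_lip _ _).trans ?_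
    have e : (2 - nrm (x + bdir d) / (2 * s)) - (2 - nrm x / (2 * s)) = -((nrm (x + bdir d) - nrm x) / (2 * s)) := by ring
    rw [e, abs_neg, abs_div, abs_of_pos hs']
    exact div_le_div_of_nonneg_right (nrm_step x d) hs'.le

theorem chiZ_facts (s : ℕ) (hs : 1 ≤ s) (x : ℤ × ℤ) :
    0 ≤ chiZ s x ∧ chiZ s x ≤ 1 ∧ (8 ≤ s → 8 * nrm x ≤ s → chiZ s x = 1) ∧ ((s : ℝ) ≤ 4 * nrm x → chiZ s x = 0) ∧
    (s < 8 → chiZ s x = 0) ∧ ∀ d, |chiZ s (x + bdir d) - chiZ s x| ≤ 8 / s := by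
  have hs' : (0 : ℝ) < s := by
    have : (1 : ℝ) ≤ s := by exact_mod_cast hs
    linarith
  unfold chiZ
  by_cases h8 : 8 ≤ s
  · simp only [if_pos h8]
    refine ⟨(clamp01_mem _).1, (clamp01_mem _).2, fun _ h => clamp01_one ?_, fun h => clamp01_zero ?_,
      fun h => absurd h8 (by omega), fun d => ?_⟩
    · have : 8 * nrm x / s ≤ 1 := (div_le_one hs').2 h
      linarith
    · have : 2 ≤ 8 * nrm x / s := (le_div_iff₀ hs').2 (by linarith)
      linarith
    · refine (clamp01_lip _ _).trans ?_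
      have e : (2 - 8 * nrm (x + bdir d) / s) - (2 - 8 * nrm x / s) = -(8 * (nrm (x + bdir d) - nrm x) / s) := by ring
      rw [e, abs_neg, abs_div, abs_of_pos hs', abs_mul]
      refine div_le_div_of_nonneg_right ?_ hs'.le
      have := nrm_step x d
      norm_num
      linarith
  · simp only [if_neg h8]
    refine ⟨le_rfl, zero_le_one, fun h => absurd h h8, fun _ => trivial, fun _ => trivial, fun d => ?_⟩
    simp
    positivity

/-! ### LEAF L-FACE-PL3: the residual of the plane trial field -/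

theorem pl3_corr_step (v : ℤ × ℤ → ℝ) (s : ℕ) (m : Option (Fin 4)) (x : ℤ × ℤ) (d : Bool) (h : allowed s m x d) :
    corr v s m (x + bdir d) - corr v s m x + sing v s m x d = corrG v s m x d + chiZ s x * ang v x d := by
  cases m with
  | none => simp [corr, sing, corrG]
  | some β =>
    have g := vbr_grad v β x d
    have hz : chiZ s x * tbr β x d = 0 := by
      rcases h with h | h <;> rw [h] <;> simp
    simp only [corr, sing, corrG]
    linear_combination (chiZ s x) * g - hz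

theorem pl3_nrm_nonneg (x : ℤ × ℤ) : 0 ≤ nrm x := le_max_of_le_left (abs_nonneg _)

theorem pl3_nrm_P2 (s : ℕ) (t : Bool) : nrm (P2 s t) = s := by
  unfold nrm P2
  cases t <;> simp

theorem pl3_nrm_le (x y : ℤ × ℤ) : nrm x ≤ nrm (x - y) + nrm y := by
  have h := nrm_sub_le (x - y) (-y)
  have e : x - y - -y = x := by abel
  have e2 : nrm (-y) = nrm y := by unfold nrm; simp
  rwa [e, e2] at h

theorem pl3_dpl_supp (s : ℕ) (t : Bool) (x : ℤ × ℤ) (d : Bool) (h : (s : ℝ) < nrm x) : dpl s t x d = 0 := by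
  obtain ⟨a, b⟩ := x
  unfold dpl
  rw [if_neg]
  rintro ⟨-, h2⟩
  unfold nrm at h
  have hs0 : (0 : ℝ) ≤ s := Nat.cast_nonneg s
  cases t
  · simp only [Bool.false_eq_true, if_false] at h2
    obtain ⟨h3, h4, h5⟩ := h2
    have h3' : (b : ℝ) = -1 := by exact_mod_cast h3
    have h4' : (0 : ℝ) ≤ a := by exact_mod_cast h4
    have h5' : (a : ℝ) + 1 ≤ s := by exact_mod_cast h5
    simp only at h
    rw [h3', abs_of_nonneg h4'] at h
    have : max (a : ℝ) |(-1 : ℝ)| ≤ s := max_le (by linarith) (by norm_num; linarith)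
    linarith
  · simp only [if_true] at h2
    obtain ⟨h3, h4, h5⟩ := h2
    have h3' : (a : ℝ) = -1 := by exact_mod_cast h3
    have h4' : (0 : ℝ) ≤ b := by exact_mod_cast h4
    have h5' : (b : ℝ) + 1 ≤ s := by exact_mod_cast h5
    simp only at h
    rw [h3', abs_of_nonneg h4'] at h
    have : max |(-1 : ℝ)| (b : ℝ) ≤ s := max_le (by norm_num; linarith) (by linarith)
    linarith

theorem pl3_dpl_chiF (s : ℕ) (hs : 1 ≤ s) (t : Bool) (x : ℤ × ℤ) (d : Bool) :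
    dpl s t x d - chiF s x * dpl s t x d = 0 := by
  by_cases h : (s : ℝ) < nrm x
  · rw [pl3_dpl_supp s t x d h]; ring
  · have hs0 : (0 : ℝ) ≤ s := Nat.cast_nonneg s
    rw [(chiF_facts s hs x).2.2.1 (by linarith)]; ring

/-- the exact formula for the regular part on allowed bonds (product rule + `vbr_grad` + `tbr_face`) -/
theorem rreg_formula (v : ℤ × ℤ → ℝ) (s : ℕ) (hs : 1 ≤ s) (t : Bool) (m₁ m₂ : Option (Fin 4)) (x : ℤ × ℤ) (d : Bool)
    (h₁ : allowed s m₁ x d) (h₂ : allowed s m₂ (x - P2 s t) d) :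
    rreg v s t m₁ m₂ x d = sg t * (
      (chiF s x - chiZ s x) * ang v x d - (chiF s x - chiZ s (x - P2 s t)) * ang v (x - P2 s t) d
      + (chiF s (x + bdir d) - chiF s x) * (vbr v (bt t) (x + bdir d) - vbr v (bt t) (x + bdir d - P2 s t))
      - corrG v s m₁ x d + corrG v s m₂ (x - P2 s t) d) := by
  have hy : x + bdir d - P2 s t = x - P2 s t + bdir d := by abel
  have g1 := vbr_grad v (bt t) x d
  have g2 := vbr_grad v (bt t) (x - P2 s t) d
  have f := tbr_face s t x d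
  have a1 := pl3_corr_step v s m₁ x d h₁
  have a2 := pl3_corr_step v s m₂ (x - P2 s t) d h₂
  have b := pl3_dpl_chiF s hs t x d
  unfold rreg utr
  rw [hy]
  linear_combination (sg t * chiF s x) * g1 - (sg t * chiF s x) * g2 - (chiF s x) * f - (sg t) * a1 + (sg t) * a2 + b

theorem pl3_Cv_nonneg {Cv : ℝ} {R : ℕ} {v : ℤ × ℤ → ℝ} (h : BoxField Cv R v) : 0 ≤ Cv :=
  (abs_nonneg _).trans (h.bdd 0)

theorem pl3_abs_sg (t : Bool) : |sg t| = 1 := by
  unfold sg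
  cases t <;> simp

/-- a coefficient which vanishes near the centre and far away, times the angular field -/

theorem pl3_ang_cut {Cv : ℝ} {v : ℤ × ℤ → ℝ} (s : ℕ) (hs : 1 ≤ s) (h : BoxField Cv (8 * s) v) (c : ℝ) (y : ℤ × ℤ) (d : Bool)
    (hc : |c| ≤ 1) (h0 : 8 ≤ s → 8 * nrm y ≤ s → c = 0) (h1 : 8 * (s : ℝ) < nrm y + 2 → c = 0) :
    |c * ang v y d| ≤ 8 * Cv / s := by
  have hs' : (1 : ℝ) ≤ s := by exact_mod_cast hs
  have hC := pl3_Cv_nonneg h
  have hpos : 0 ≤ 8 * Cv / s := by positivity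
  have hn := pl3_nrm_nonneg y
  by_cases hfar : 8 * (s : ℝ) < nrm y + 2
  · rw [h1 hfar]; simpa using hpos
  have hdec := ang_decay h y d (by push_cast; linarith)
  have hle : |c * ang v y d| ≤ Cv * (1 + nrm y)⁻¹ := by
    rw [abs_mul]
    calc |c| * |ang v y d| ≤ 1 * |ang v y d| := mul_le_mul_of_nonneg_right hc (abs_nonneg _)
      _ = |ang v y d| := one_mul _
      _ ≤ _ := hdec
  by_cases hnear : 8 * nrm y ≤ s
  · by_cases h8 : 8 ≤ s
    · rw [h0 h8 hnear]; simpa using hpos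
    · have h8' : (s : ℝ) ≤ 8 := by
        have : s ≤ 8 := by omega
        exact_mod_cast this
      refine hle.trans ?_
      have e1 : (1 + nrm y)⁻¹ ≤ 1 := inv_le_one_of_one_le₀ (by linarith)
      have e2 : (1 : ℝ) ≤ 8 / s := (le_div_iff₀ (by linarith)).2 (by linarith)
      calc Cv * (1 + nrm y)⁻¹ ≤ Cv * (8 / s) := mul_le_mul_of_nonneg_left (e1.trans e2) hC
        _ = 8 * Cv / s := by ring
  · refine hle.trans ?_
    have e1 : (1 + nrm y)⁻¹ ≤ 8 / s := by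
      rw [inv_eq_one_div, div_le_div_iff₀ (by linarith) (by linarith)]
      rw [not_le] at hnear
      linarith
    calc Cv * (1 + nrm y)⁻¹ ≤ Cv * (8 / s) := mul_le_mul_of_nonneg_left e1 hC
      _ = 8 * Cv / s := by ring

theorem pl3_corrG_bdd {Cv : ℝ} {R : ℕ} {v : ℤ × ℤ → ℝ} (h : BoxField Cv R v) (s : ℕ) (hs : 1 ≤ s) (m : Option (Fin 4))
    (x : ℤ × ℤ) (d : Bool) : |corrG v s m x d| ≤ 8 * (Cv + 3) / s := by
  have hs' : (1 : ℝ) ≤ s := by exact_mod_cast hs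
  have hC := pl3_Cv_nonneg h
  cases m with
  | none => simp only [corrG, abs_zero]; positivity
  | some β =>
    simp only [corrG]
    rw [abs_mul]
    calc |chiZ s (x + bdir d) - chiZ s x| * |vbr v β (x + bdir d)| ≤ (8 / s) * (Cv + 3) :=
          mul_le_mul ((chiZ_facts s hs x).2.2.2.2.2 d) (vbr_bdd h β _) (abs_nonneg _) (by positivity)
      _ = 8 * (Cv + 3) / s := by ring

theorem pl3_abs_sub_le_one {a b : ℝ} (ha : 0 ≤ a ∧ a ≤ 1) (hb : 0 ≤ b ∧ b ≤ 1) : |a - b| ≤ 1 := by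
  rw [abs_le]; constructor <;> linarith [ha.1, ha.2, hb.1, hb.2]

/-- **the regular part is `O(1/s)`** -/
theorem rreg_bound {Cv : ℝ} {v : ℤ × ℤ → ℝ} (s : ℕ) (hs : 1 ≤ s) (h : BoxField Cv (8 * s) v) (t : Bool) (m₁ m₂ : Option (Fin 4))
    (x : ℤ × ℤ) (d : Bool) (h₁ : allowed s m₁ x d) (h₂ : allowed s m₂ (x - P2 s t) d) :
    |rreg v s t m₁ m₂ x d| ≤ 40 * (Cv + 3) / s := by
  have hs' : (1 : ℝ) ≤ s := by exact_mod_cast hs
  have hC := pl3_Cv_nonneg h
  have F := chiF_facts s hs x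
  have Z := chiZ_facts s hs x
  have Zy := chiZ_facts s hs (x - P2 s t)
  have hP := pl3_nrm_P2 s t
  have hxy := pl3_nrm_le x (P2 s t)
  have hyx := nrm_sub_le x (P2 s t)
  rw [hP] at hxy hyx
  have T1 : |(chiF s x - chiZ s x) * ang v x d| ≤ 8 * Cv / s := by
    refine pl3_ang_cut s hs h _ x d (pl3_abs_sub_le_one ⟨F.1, F.2.1⟩ ⟨Z.1, Z.2.1⟩) ?_ ?_
    · intro h8 hn
      rw [F.2.2.1 (by linarith), Z.2.2.1 h8 hn]; ring
    · intro hn
      rw [F.2.2.2.1 (by linarith), Z.2.2.2.1 (by linarith)]; ring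
  have T2 : |(chiF s x - chiZ s (x - P2 s t)) * ang v (x - P2 s t) d| ≤ 8 * Cv / s := by
    refine pl3_ang_cut s hs h _ _ d (pl3_abs_sub_le_one ⟨F.1, F.2.1⟩ ⟨Zy.1, Zy.2.1⟩) ?_ ?_
    · intro h8 hn
      rw [F.2.2.1 (by linarith), Zy.2.2.1 h8 hn]; ring
    · intro hn
      rw [F.2.2.2.1 (by linarith), Zy.2.2.2.1 (by linarith)]; ring
  have T3 : |(chiF s (x + bdir d) - chiF s x) * (vbr v (bt t) (x + bdir d) - vbr v (bt t) (x + bdir d - P2 s t))|
      ≤ (Cv + 3) / s := by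
    rw [abs_mul]
    have e1 : |vbr v (bt t) (x + bdir d) - vbr v (bt t) (x + bdir d - P2 s t)| ≤ 2 * (Cv + 3) :=
      (abs_sub _ _).trans (by linarith [vbr_bdd h (bt t) (x + bdir d), vbr_bdd h (bt t) (x + bdir d - P2 s t)])
    calc _ ≤ (1 / (2 * s)) * (2 * (Cv + 3)) := mul_le_mul (F.2.2.2.2 d) e1 (abs_nonneg _) (by positivity)
      _ = (Cv + 3) / s := by field_simp
  have T4 := pl3_corrG_bdd h s hs m₁ x d
  have T5 := pl3_corrG_bdd h s hs m₂ (x - P2 s t) d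
  rw [rreg_formula v s hs t m₁ m₂ x d h₁ h₂, abs_mul, pl3_abs_sg, one_mul]
  have tri : ∀ a b c e f : ℝ, |a - b + c - e + f| ≤ |a| + |b| + |c| + |e| + |f| := by
    intro a b c e f
    calc |a - b + c - e + f| ≤ |a - b + c - e| + |f| := abs_add_le _ _
      _ ≤ |a - b + c| + |e| + |f| := by gcongr; exact abs_sub _ _
      _ ≤ |a - b| + |c| + |e| + |f| := by gcongr; exact abs_add_le _ _
      _ ≤ |a| + |b| + |c| + |e| + |f| := by gcongr; exact abs_sub _ _
  refine (tri _ _ _ _ _).trans ?_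
  have e : 8 * Cv / s + 8 * Cv / s + (Cv + 3) / s + 8 * (Cv + 3) / s + 8 * (Cv + 3) / s ≤ 40 * (Cv + 3) / s := by
    rw [← add_div, ← add_div, ← add_div, ← add_div]
    exact div_le_div_of_nonneg_right (by linarith) (by linarith)
  linarith

theorem pl3_corr_supp (v : ℤ × ℤ → ℝ) (s : ℕ) (hs : 1 ≤ s) (m : Option (Fin 4)) (x : ℤ × ℤ) (hx : (s : ℝ) ≤ 4 * nrm x) :
    corr v s m x = 0 := by
  cases m with
  | none => rfl
  | some β => simp only [corr]; rw [(chiZ_facts s hs x).2.2.2.1 hx]; ring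

theorem pl3_sing_supp (v : ℤ × ℤ → ℝ) (s : ℕ) (hs : 1 ≤ s) (m : Option (Fin 4)) (x : ℤ × ℤ) (d : Bool)
    (hx : (s : ℝ) ≤ 4 * nrm x) : sing v s m x d = 0 := by
  cases m with
  | none => simp only [sing]; rw [(chiZ_facts s hs x).2.2.2.1 hx]; ring
  | some β => rfl

theorem pl3_utr_supp (v : ℤ × ℤ → ℝ) (s : ℕ) (hs : 1 ≤ s) (t : Bool) (m₁ m₂ : Option (Fin 4)) (x : ℤ × ℤ)
    (hx : 4 * (s : ℝ) ≤ nrm x) : utr v s t m₁ m₂ x = 0 := by
  have hs' : (1 : ℝ) ≤ s := by exact_mod_cast hs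
  have hxy := pl3_nrm_le x (P2 s t)
  rw [pl3_nrm_P2] at hxy
  unfold utr
  rw [(chiF_facts s hs x).2.2.2.1 hx, pl3_corr_supp v s hs m₁ x (by linarith),
    pl3_corr_supp v s hs m₂ (x - P2 s t) (by linarith)]
  ring

/-- support -/
theorem rreg_supp (v : ℤ × ℤ → ℝ) (s : ℕ) (hs : 1 ≤ s) (t : Bool) (m₁ m₂ : Option (Fin 4)) (x : ℤ × ℤ) (d : Bool)
    (hx : 4 * (s : ℝ) + 1 ≤ nrm x) : rreg v s t m₁ m₂ x d = 0 := by
  have hs' : (1 : ℝ) ≤ s := by exact_mod_cast hs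
  have hxy := pl3_nrm_le x (P2 s t)
  rw [pl3_nrm_P2] at hxy
  have hst := abs_le.1 (nrm_step x d)
  unfold rreg
  rw [pl3_utr_supp v s hs t m₁ m₂ x (by linarith), pl3_utr_supp v s hs t m₁ m₂ (x + bdir d) (by linarith),
    pl3_dpl_supp s t x d (by linarith), pl3_sing_supp v s hs m₁ x d (by linarith),
    pl3_sing_supp v s hs m₂ (x - P2 s t) d (by linarith)]
  ring

theorem pl3_corr_bdd {Cv : ℝ} {R : ℕ} {v : ℤ × ℤ → ℝ} (h : BoxField Cv R v) (s : ℕ) (hs : 1 ≤ s) (m : Option (Fin 4))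
    (x : ℤ × ℤ) : |corr v s m x| ≤ Cv + 3 := by
  have hC := pl3_Cv_nonneg h
  cases m with
  | none => simp only [corr, abs_zero]; linarith
  | some β =>
    simp only [corr]
    have Z := chiZ_facts s hs x
    rw [abs_mul, abs_of_nonneg Z.1]
    calc chiZ s x * |vbr v β x| ≤ 1 * (Cv + 3) := mul_le_mul Z.2.1 (vbr_bdd h β x) (abs_nonneg _) zero_le_one
      _ = Cv + 3 := one_mul _

theorem utr_bdd {Cv : ℝ} {R : ℕ} {v : ℤ × ℤ → ℝ} (h : BoxField Cv R v) (s : ℕ) (hs : 1 ≤ s) (t : Bool) (m₁ m₂ : Option (Fin 4))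
    (x : ℤ × ℤ) : |utr v s t m₁ m₂ x| ≤ 4 * (Cv + 3) := by
  have hC := pl3_Cv_nonneg h
  have F := chiF_facts s hs x
  unfold utr
  rw [abs_mul, pl3_abs_sg, one_mul]
  have e1 : |vbr v (bt t) x - vbr v (bt t) (x - P2 s t)| ≤ 2 * (Cv + 3) :=
    (abs_sub _ _).trans (by linarith [vbr_bdd h (bt t) x, vbr_bdd h (bt t) (x - P2 s t)])
  have e2 : |chiF s x * (vbr v (bt t) x - vbr v (bt t) (x - P2 s t))| ≤ 2 * (Cv + 3) := by
    rw [abs_mul, abs_of_nonneg F.1]
    calc _ ≤ 1 * (2 * (Cv + 3)) := mul_le_mul F.2.1 e1 (abs_nonneg _) zero_le_one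
      _ = _ := one_mul _
  have e3 := pl3_corr_bdd h s hs m₁ x
  have e4 := pl3_corr_bdd h s hs m₂ (x - P2 s t)
  calc _ ≤ |chiF s x * (vbr v (bt t) x - vbr v (bt t) (x - P2 s t)) - corr v s m₁ x| + |corr v s m₂ (x - P2 s t)| :=
        abs_add_le _ _
    _ ≤ |chiF s x * (vbr v (bt t) x - vbr v (bt t) (x - P2 s t))| + |corr v s m₁ x| + |corr v s m₂ (x - P2 s t)| := by
        gcongr; exact abs_sub _ _
    _ ≤ 4 * (Cv + 3) := by linarith

theorem utr_supp (v : ℤ × ℤ → ℝ) (s : ℕ) (hs : 1 ≤ s) (t : Bool) (m₁ m₂ : Option (Fin 4)) (x : ℤ × ℤ)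
    (hx : 4 * (s : ℝ) ≤ nrm x) : utr v s t m₁ m₂ x = 0 := by
  exact pl3_utr_supp v s hs t m₁ m₂ x hx

/-! ### LEAF L-FACE-PL4: sums of the angular field -/

theorem pl4_sum_sym (f : ℤ → ℝ) (s : ℕ) :
    ∑ a ∈ Finset.Ico (-(s : ℤ)) s, f a = ∑ k ∈ Finset.range s, (f k + f (-(k : ℤ) - 1)) := by
  induction s with
  | zero => simp
  | succ n ih =>
    have e : Finset.Ico (-((n + 1 : ℕ) : ℤ)) ((n + 1 : ℕ) : ℤ)
        = insert (-(n : ℤ) - 1) (insert (n : ℤ) (Finset.Ico (-(n : ℤ)) n)) := by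
      ext a
      simp only [Finset.mem_Ico, Finset.mem_insert]
      push_cast
      omega
    rw [e, Finset.sum_insert, Finset.sum_insert, ih, Finset.sum_range_succ]
    · ring
    · simp
    · simp only [Finset.mem_insert, Finset.mem_Ico]
      omega

/-- one row of the comparison -/

theorem pl4_row (s : ℕ) (a : ℤ) (c : ℝ) (hc : 0 ≤ c) :
    ∑ b ∈ Finset.Ico (-(s : ℤ)) s, (if |b| ≤ |a| then c else 0) ≤ (2 * |(a : ℝ)| + 1) * c := by
  rw [← Finset.sum_filter, Finset.sum_const, nsmul_eq_mul]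
  refine mul_le_mul_of_nonneg_right ?_ hc
  have h1 : (Finset.filter (fun b : ℤ => |b| ≤ |a|) (Finset.Ico (-(s : ℤ)) s)).card ≤ (Finset.Icc (-|a|) |a|).card := by
    refine Finset.card_le_card fun b hb => ?_
    rw [Finset.mem_filter] at hb
    rw [Finset.mem_Icc]
    exact abs_le.1 hb.2
  rw [Int.card_Icc] at h1
  have h2 : ((|a| + 1 - -|a|).toNat : ℤ) = 2 * |a| + 1 := by
    rw [Int.toNat_of_nonneg (by have := abs_nonneg a; omega)]
    ring
  have h3 : (((Finset.filter (fun b : ℤ => |b| ≤ |a|) (Finset.Ico (-(s : ℤ)) s)).card : ℤ) : ℝ) ≤ ((2 * |a| + 1 : ℤ) : ℝ) := by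
    rw [← h2]
    exact_mod_cast h1
  push_cast at h3
  exact h3

/-- **comparison of a sum over the box with a sum over one axis** -/

theorem pl4_split (s : ℕ) (F : ℤ × ℤ → ℝ) (φ : ℤ → ℝ) (hφ : ∀ a, 0 ≤ φ a)
    (hF : ∀ x : ℤ × ℤ, F x ≤ (if |x.2| ≤ |x.1| then φ x.1 else 0) + (if |x.1| ≤ |x.2| then φ x.2 else 0)) :
    ∑ x ∈ bx s, F x ≤ 2 * ∑ a ∈ Finset.Ico (-(s : ℤ)) s, (2 * |(a : ℝ)| + 1) * φ a := by
  unfold bx
  refine (Finset.sum_le_sum fun x _ => hF x).trans ?_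
  rw [Finset.sum_add_distrib, two_mul]
  refine add_le_add ?_ ?_
  · rw [Finset.sum_product]
    exact Finset.sum_le_sum fun a _ => pl4_row s a (φ a) (hφ a)
  · rw [Finset.sum_product_right]
    exact Finset.sum_le_sum fun b _ => pl4_row s b (φ b) (hφ b)

theorem pl4_cmp (p : ℕ) (x : ℤ × ℤ) :
    ((1 + nrm x)⁻¹) ^ p ≤ (if |x.2| ≤ |x.1| then ((1 + |(x.1 : ℝ)|)⁻¹) ^ p else 0)
      + (if |x.1| ≤ |x.2| then ((1 + |(x.2 : ℝ)|)⁻¹) ^ p else 0) := by
  unfold nrm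
  rcases le_total |x.2| |x.1| with h | h
  · have h' : |(x.2 : ℝ)| ≤ |(x.1 : ℝ)| := by exact_mod_cast h
    rw [if_pos h, max_eq_left h']
    have : (0 : ℝ) ≤ (if |x.1| ≤ |x.2| then ((1 + |(x.2 : ℝ)|)⁻¹) ^ p else 0) := by
      split_ifs <;> positivity
    linarith
  · have h' : |(x.1 : ℝ)| ≤ |(x.2 : ℝ)| := by exact_mod_cast h
    rw [if_pos h, max_eq_right h']
    have : (0 : ℝ) ≤ (if |x.2| ≤ |x.1| then ((1 + |(x.1 : ℝ)|)⁻¹) ^ p else 0) := by
      split_ifs <;> positivity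
    linarith

/-- `∑ 1/(1+|x|) ≤ 8 s` -/

theorem pl4_sum1 (s : ℕ) : ∑ x ∈ bx s, (1 + nrm x)⁻¹ ≤ 8 * s := by
  have h := pl4_split s (fun x => ((1 + nrm x)⁻¹) ^ 1) (fun a => ((1 + |(a : ℝ)|)⁻¹) ^ 1) (fun a => by positivity)
    (pl4_cmp 1)
  simp only [pow_one] at h
  refine h.trans ?_
  have h2 : ∑ a ∈ Finset.Ico (-(s : ℤ)) s, (2 * |(a : ℝ)| + 1) * (1 + |(a : ℝ)|)⁻¹
      ≤ ∑ a ∈ Finset.Ico (-(s : ℤ)) s, (2 : ℝ) := by
    refine Finset.sum_le_sum fun a _ => ?_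
    have := abs_nonneg (a : ℝ)
    rw [← div_eq_mul_inv, div_le_iff₀ (by linarith)]
    linarith
  rw [Finset.sum_const, Int.card_Ico, nsmul_eq_mul] at h2
  have h3 : (((s : ℤ) - -(s : ℤ)).toNat : ℝ) = 2 * s := by
    have : ((s : ℤ) - -(s : ℤ)).toNat = 2 * s := by omega
    rw [this]; push_cast; ring
  rw [h3] at h2
  linarith

/-- `∑ 1/(1+|x|)² ≤ 8 (1 + log s)` -/

theorem pl4_sum2 (s : ℕ) : ∑ x ∈ bx s, ((1 + nrm x)⁻¹) ^ 2 ≤ 8 * (1 + Real.log s) := by
  have h := pl4_split s (fun x => ((1 + nrm x)⁻¹) ^ 2) (fun a => ((1 + |(a : ℝ)|)⁻¹) ^ 2) (fun a => by positivity)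
    (pl4_cmp 2)
  refine h.trans ?_
  have h2 : ∑ a ∈ Finset.Ico (-(s : ℤ)) s, (2 * |(a : ℝ)| + 1) * ((1 + |(a : ℝ)|)⁻¹) ^ 2
      ≤ ∑ a ∈ Finset.Ico (-(s : ℤ)) s, 2 * (1 + |(a : ℝ)|)⁻¹ := by
    refine Finset.sum_le_sum fun a _ => ?_
    have h0 := abs_nonneg (a : ℝ)
    have h1 : 0 < (1 + |(a : ℝ)|)⁻¹ := by positivity
    have h3 : (2 * |(a : ℝ)| + 1) * (1 + |(a : ℝ)|)⁻¹ ≤ 2 := by
      rw [← div_eq_mul_inv, div_le_iff₀ (by linarith)]
      linarith
    calc (2 * |(a : ℝ)| + 1) * ((1 + |(a : ℝ)|)⁻¹) ^ 2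
        = ((2 * |(a : ℝ)| + 1) * (1 + |(a : ℝ)|)⁻¹) * (1 + |(a : ℝ)|)⁻¹ := by ring
      _ ≤ 2 * (1 + |(a : ℝ)|)⁻¹ := mul_le_mul_of_nonneg_right h3 h1.le
  rw [pl4_sum_sym (fun a : ℤ => 2 * (1 + |(a : ℝ)|)⁻¹)] at h2
  have h3 : ∑ k ∈ Finset.range s, (2 * (1 + |((k : ℤ) : ℝ)|)⁻¹ + 2 * (1 + |((-(k : ℤ) - 1 : ℤ) : ℝ)|)⁻¹)
      ≤ ∑ k ∈ Finset.range s, 4 * ((k : ℝ) + 1)⁻¹ := by
    refine Finset.sum_le_sum fun k _ => ?_
    have hk : (0 : ℝ) ≤ k := Nat.cast_nonneg k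
    have e1 : |((k : ℤ) : ℝ)| = k := by simp
    have e2 : |((-(k : ℤ) - 1 : ℤ) : ℝ)| = k + 1 := by
      push_cast
      rw [abs_of_nonpos (by linarith)]
      ring
    rw [e1, e2]
    have e3 : (1 + ((k : ℝ) + 1))⁻¹ ≤ ((k : ℝ) + 1)⁻¹ := inv_anti₀ (by linarith) (by linarith)
    rw [add_comm (1 : ℝ) (k : ℝ)]
    linarith
  have h4 : ∑ k ∈ Finset.range s, ((k : ℝ) + 1)⁻¹ ≤ 1 + Real.log s := by
    have := harmonic_le_one_add_log s
    unfold harmonic at this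
    push_cast at this
    exact this
  rw [← Finset.mul_sum] at h3
  linarith

theorem pl4_nrm_bx {s : ℕ} {x : ℤ × ℤ} (hx : x ∈ bx s) : nrm x ≤ s := by
  unfold bx at hx
  rw [Finset.mem_product, Finset.mem_Ico, Finset.mem_Ico] at hx
  obtain ⟨⟨h1, h2⟩, ⟨h3, h4⟩⟩ := hx
  have h1' : -(s : ℝ) ≤ x.1 := by exact_mod_cast h1
  have h2' : (x.1 : ℝ) ≤ s := by exact_mod_cast h2.le
  have h3' : -(s : ℝ) ≤ x.2 := by exact_mod_cast h3
  have h4' : (x.2 : ℝ) ≤ s := by exact_mod_cast h4.le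
  exact max_le (abs_le.2 ⟨h1', h2'⟩) (abs_le.2 ⟨h3', h4'⟩)

theorem pl4_term {Cv : ℝ} {v : ℤ × ℤ → ℝ} (s : ℕ) (hs : 1 ≤ s) (h : BoxField Cv (8 * s) v) {x : ℤ × ℤ} (hx : x ∈ bx s)
    (d : Bool) : chiZ s x * |ang v x d| ≤ Cv * (1 + nrm x)⁻¹ := by
  have hs' : (1 : ℝ) ≤ s := by exact_mod_cast hs
  have Z := chiZ_facts s hs x
  have hn := pl4_nrm_bx hx
  have hd := ang_decay h x d (by push_cast; linarith)
  calc chiZ s x * |ang v x d| ≤ 1 * |ang v x d| := mul_le_mul_of_nonneg_right Z.2.1 (abs_nonneg _)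
    _ = |ang v x d| := one_mul _
    _ ≤ _ := hd

/-- `0 ≤ a D_s ≤ C log (2 + s)` -/
theorem angE_bound {Cv : ℝ} {v : ℤ × ℤ → ℝ} (s : ℕ) (hs : 1 ≤ s) (h : BoxField Cv (8 * s) v) :
    0 ≤ angE v s ∧ angE v s ≤ 64 * Cv ^ 2 * Real.log (2 + s) := by
  have hs' : (1 : ℝ) ≤ s := by exact_mod_cast hs
  refine ⟨Finset.sum_nonneg fun x _ => Finset.sum_nonneg fun d _ => sq_nonneg _, ?_⟩
  have h1 : angE v s ≤ ∑ x ∈ bx s, 2 * Cv ^ 2 * ((1 + nrm x)⁻¹) ^ 2 := by
    refine Finset.sum_le_sum fun x hx => ?_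
    have Z := chiZ_facts s hs x
    have key : ∀ d : Bool, (chiZ s x * ang v x d) ^ 2 ≤ Cv ^ 2 * ((1 + nrm x)⁻¹) ^ 2 := by
      intro d
      have h2 := pl4_term s hs h hx d
      have h3 : |chiZ s x * ang v x d| ≤ Cv * (1 + nrm x)⁻¹ := by
        rw [abs_mul, abs_of_nonneg Z.1]; exact h2
      rw [← mul_pow, ← sq_abs (chiZ s x * ang v x d)]
      exact pow_le_pow_left₀ (abs_nonneg _) h3 2
    rw [Fintype.sum_bool]
    linarith [key true, key false]
  rw [← Finset.mul_sum] at h1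
  have h2 := pl4_sum2 s
  have h3 : (1 : ℝ) ≤ Real.log (2 + s) := by
    rw [Real.le_log_iff_exp_le (by linarith)]
    have := Real.exp_one_lt_d9
    linarith
  have h4 : Real.log s ≤ Real.log (2 + s) := Real.log_le_log (by linarith) (by linarith)
  have h5 : 0 ≤ Cv ^ 2 := sq_nonneg _
  calc angE v s ≤ 2 * Cv ^ 2 * ∑ x ∈ bx s, ((1 + nrm x)⁻¹) ^ 2 := h1
    _ ≤ 2 * Cv ^ 2 * (8 * (1 + Real.log s)) := mul_le_mul_of_nonneg_left h2 (by positivity)
    _ ≤ 2 * Cv ^ 2 * (8 * (4 * Real.log (2 + s))) := by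
        refine mul_le_mul_of_nonneg_left ?_ (by positivity)
        linarith
    _ = 64 * Cv ^ 2 * Real.log (2 + s) := by ring

/-- `∑_{|x| < s/4} |ang| ≤ C s` -/
theorem ang_l1 {Cv : ℝ} {v : ℤ × ℤ → ℝ} (s : ℕ) (hs : 1 ≤ s) (h : BoxField Cv (8 * s) v) :
    ∑ x ∈ bx s, ∑ d : Bool, chiZ s x * |ang v x d| ≤ 16 * Cv * s := by
  have hC : 0 ≤ Cv := (abs_nonneg _).trans (h.bdd 0)
  have h1 : ∑ x ∈ bx s, ∑ d : Bool, chiZ s x * |ang v x d| ≤ ∑ x ∈ bx s, 2 * Cv * (1 + nrm x)⁻¹ := by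
    refine Finset.sum_le_sum fun x hx => ?_
    rw [Fintype.sum_bool]
    linarith [pl4_term s hs h hx true, pl4_term s hs h hx false]
  rw [← Finset.mul_sum] at h1
  calc _ ≤ 2 * Cv * ∑ x ∈ bx s, (1 + nrm x)⁻¹ := h1
    _ ≤ 2 * Cv * (8 * s) := mul_le_mul_of_nonneg_left (pl4_sum1 s) (by positivity)
    _ = 16 * Cv * s := by ring

theorem pl4_small_mem {s : ℕ} (hs : 1 ≤ s) {y : ℤ × ℤ} (h : 4 * nrm y < s) (d : Bool) :
    y ∈ bx s ∧ y - bdir d ∈ bx s := by
  obtain ⟨a, b⟩ := y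
  have h1 : 4 * |(a : ℝ)| < s := by
    have := le_max_left |(a : ℝ)| |(b : ℝ)|
    unfold nrm at h
    simp only at h
    linarith
  have h2 : 4 * |(b : ℝ)| < s := by
    have := le_max_right |(a : ℝ)| |(b : ℝ)|
    unfold nrm at h
    simp only at h
    linarith
  have h1' : 4 * |a| < (s : ℤ) := by exact_mod_cast h1
  have h2' : 4 * |b| < (s : ℤ) := by exact_mod_cast h2
  have a1 := le_abs_self a
  have a2 := neg_abs_le a
  have b1 := le_abs_self b
  have b2 := neg_abs_le b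
  unfold bx bdir
  cases d <;> simp [Finset.mem_product, Finset.mem_Ico] <;> omega

theorem pl4_shift {s : ℕ} (hs : 1 ≤ s) (F φ : ℤ × ℤ → ℝ) (hφ : ∀ x, (s : ℝ) ≤ 4 * nrm x → φ x = 0) (d : Bool) :
    ∑ x ∈ bx s, F x * φ (x + bdir d) = ∑ y ∈ bx s, F (y - bdir d) * φ y := by
  have key : ∀ y, φ y ≠ 0 → 4 * nrm y < s := by
    intro y hy
    by_contra hc
    exact hy (hφ y (not_lt.1 hc))
  refine Finset.sum_bij_ne_zero (fun a _ _ => a + bdir d) ?_ ?_ ?_ ?_
  · intro a _ h2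
    exact (pl4_small_mem hs (key _ (right_ne_zero_of_mul h2)) d).1
  · intro a₁ _ _ a₂ _ _ h
    exact add_right_cancel h
  · intro b _ h2
    refine ⟨b - bdir d, (pl4_small_mem hs (key _ (right_ne_zero_of_mul h2)) d).2, ?_, ?_⟩
    · rwa [sub_add_cancel]
    · exact sub_add_cancel _ _
  · intro a _ _
    rw [add_sub_cancel_right]

/-- co-closure against a test function supported well inside the four cells -/
theorem ang_test {Cv : ℝ} {v : ℤ × ℤ → ℝ} (s : ℕ) (hs : 1 ≤ s) (h : BoxField Cv (8 * s) v) (φ : ℤ × ℤ → ℝ)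
    (hφ : ∀ x, (s : ℝ) ≤ 4 * nrm x → φ x = 0) :
    ∑ x ∈ bx s, ∑ d : Bool, ang v x d * (φ (x + bdir d) - φ x) = 0 := by
  have hs' : (1 : ℝ) ≤ s := by exact_mod_cast hs
  have e1 := pl4_shift hs (fun x => ang v x true) φ hφ true
  have e2 := pl4_shift hs (fun x => ang v x false) φ hφ false
  have e3 : ∑ x ∈ bx s, ∑ d : Bool, ang v x d * (φ (x + bdir d) - φ x)
      = ∑ x ∈ bx s, ang v x true * φ (x + bdir true) + ∑ x ∈ bx s, ang v x false * φ (x + bdir false)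
        - ∑ x ∈ bx s, (ang v x true + ang v x false) * φ x := by
    rw [← Finset.sum_add_distrib, ← Finset.sum_sub_distrib]
    refine Finset.sum_congr rfl fun x _ => ?_
    rw [Fintype.sum_bool]
    ring
  rw [e3, e1, e2, ← Finset.sum_add_distrib, ← Finset.sum_sub_distrib]
  refine Finset.sum_eq_zero fun y hy => ?_
  have hn := pl4_nrm_bx hy
  have hc := h.coclosed y (by push_cast; linarith)
  have hpi : (2 * Real.pi) ≠ 0 := by positivity
  have : ang v y true + ang v y false - ang v (y - bdir true) true - ang v (y - bdir false) false = 0 := by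
    unfold ang
    rw [← add_div, ← sub_div, ← sub_div, hc, zero_div]
  linear_combination (-φ y) * this

theorem pl4_card_bx (m : ℕ) : ((bx m).card : ℝ) = (2 * (m : ℝ)) ^ 2 := by
  unfold bx
  rw [Finset.card_product, Int.card_Ico]
  have : ((m : ℤ) - -(m : ℤ)).toNat = 2 * m := by omega
  rw [this]
  push_cast
  ring

theorem pl4_not_mem {m : ℕ} {x : ℤ × ℤ} (hx : x ∉ bx m) : (m : ℝ) ≤ nrm x := by
  obtain ⟨a, b⟩ := x
  unfold bx at hx
  rw [Finset.mem_product, Finset.mem_Ico, Finset.mem_Ico] at hx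
  simp only at hx
  have a1 := le_abs_self a
  have a2 := neg_abs_le a
  have b1 := le_abs_self b
  have b2 := neg_abs_le b
  have : (m : ℤ) ≤ |a| ∨ (m : ℤ) ≤ |b| := by
    by_contra hc
    push Not at hc
    exact hx ⟨⟨by omega, by omega⟩, ⟨by omega, by omega⟩⟩
  unfold nrm
  rcases this with h | h
  · have h' : (m : ℝ) ≤ |(a : ℝ)| := by exact_mod_cast h
    exact le_max_of_le_left h'
  · have h' : (m : ℝ) ≤ |(b : ℝ)| := by exact_mod_cast h
    exact le_max_of_le_right h'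

theorem pl4_shift_le {m s : ℕ} (hms : m + 1 ≤ s) (f : ℤ × ℤ → ℝ) (hf : ∀ x, 0 ≤ f x) (d : Bool) :
    ∑ x ∈ bx m, f (x + bdir d) ≤ ∑ y ∈ bx s, f y := by
  have e : ∑ x ∈ bx m, f (x + bdir d) = ∑ y ∈ (bx m).map (addRightEmbedding (bdir d)), f y := by
    rw [Finset.sum_map]
    rfl
  rw [e]
  refine Finset.sum_le_sum_of_subset_of_nonneg ?_ fun y _ _ => hf y
  intro y hy
  rw [Finset.mem_map] at hy
  obtain ⟨⟨a, b⟩, hx, rfl⟩ := hy
  unfold bx at hx ⊢
  rw [Finset.mem_product, Finset.mem_Ico, Finset.mem_Ico] at hx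
  simp only at hx
  unfold bdir
  cases d <;> simp [Finset.mem_product, Finset.mem_Ico] <;> omega

theorem pl4_c_bound {Cv : ℝ} {v : ℤ × ℤ → ℝ} (s : ℕ) (h8 : 8 ≤ s) (h : BoxField Cv (8 * s) v) {x : ℤ × ℤ} (hx : x ∈ bx s)
    (d : Bool) : |ang v x d * (chiZ s (x + bdir d) - chiZ s x)| ≤ 64 * Cv / (s : ℝ) ^ 2 := by
  have hs : 1 ≤ s := by omega
  have hs' : (8 : ℝ) ≤ s := by exact_mod_cast h8
  have hC := pl3_Cv_nonneg h
  have hn := pl4_nrm_bx hx
  have hn0 := pl3_nrm_nonneg x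
  have hst := abs_le.1 (nrm_step x d)
  by_cases hnear : 8 * (nrm x + 1) ≤ s
  · rw [(chiZ_facts s hs x).2.2.1 h8 (by linarith), (chiZ_facts s hs (x + bdir d)).2.2.1 h8 (by linarith)]
    simp only [sub_self, mul_zero, abs_zero]
    positivity
  · rw [not_le] at hnear
    have hd := ang_decay h x d (by push_cast; linarith)
    have e1 : (1 + nrm x)⁻¹ ≤ 8 / s := by
      rw [inv_eq_one_div, div_le_div_iff₀ (by linarith) (by linarith)]
      linarith
    have e2 : |ang v x d| ≤ 8 * Cv / s := by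
      calc |ang v x d| ≤ Cv * (1 + nrm x)⁻¹ := hd
        _ ≤ Cv * (8 / s) := mul_le_mul_of_nonneg_left e1 hC
        _ = 8 * Cv / s := by ring
    rw [abs_mul]
    calc _ ≤ (8 * Cv / s) * (8 / s) := mul_le_mul e2 ((chiZ_facts s hs x).2.2.2.2.2 d) (abs_nonneg _) (by positivity)
      _ = 64 * Cv / (s : ℝ) ^ 2 := by ring

/-- **the logarithm leaves no trace in the dual norm**: pairing of the cut-off angular field with a gradient
(`ang_test` with `φ = chiZ ζ`; what remains is `- ∑ ang (e) ζ (x + e) ∇ chiZ (e)`, supported in `s/8 - 1 ≤ |x| ≤ s/4`, where `|ang| ≤ 8 C/s`, `|∇ chiZ| ≤ 8/s`) -/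
theorem sing_pairing {Cv : ℝ} {v : ℤ × ℤ → ℝ} (s : ℕ) (hs : 1 ≤ s) (h : BoxField Cv (8 * s) v) (ζ : ℤ × ℤ → ℝ) :
    (∑ x ∈ bx s, ∑ d : Bool, chiZ s x * ang v x d * (ζ (x + bdir d) - ζ x)) ^ 2
      ≤ (200 * Cv) ^ 2 / (s : ℝ) ^ 2 * ∑ x ∈ bx s, ζ x ^ 2 := by
  have hZ : 0 ≤ ∑ x ∈ bx s, ζ x ^ 2 := Finset.sum_nonneg fun x _ => sq_nonneg _
  have hC := pl3_Cv_nonneg h
  by_cases h8 : 8 ≤ s
  swap
  · have : ∑ x ∈ bx s, ∑ d : Bool, chiZ s x * ang v x d * (ζ (x + bdir d) - ζ x) = 0 := by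
      refine Finset.sum_eq_zero fun x _ => Finset.sum_eq_zero fun d _ => ?_
      rw [(chiZ_facts s hs x).2.2.2.2.1 (by omega)]
      ring
    rw [this]
    have : (0 : ℝ) ≤ (200 * Cv) ^ 2 / (s : ℝ) ^ 2 := by positivity
    simpa using mul_nonneg this hZ
  have hs' : (8 : ℝ) ≤ s := by exact_mod_cast h8
  set m : ℕ := s / 4 + 2 with hm
  have hm1 : (s : ℝ) + 4 ≤ 4 * m := by
    have : s + 4 ≤ 4 * m := by omega
    exact_mod_cast this
  have hm2 : 2 * (m : ℝ) ≤ s := by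
    have : 2 * m ≤ s := by omega
    exact_mod_cast this
  have hsub : bx m ⊆ bx s := by
    intro x hx
    unfold bx at hx ⊢
    rw [Finset.mem_product, Finset.mem_Ico, Finset.mem_Ico] at hx ⊢
    omega
  set c : ℤ × ℤ → Bool → ℝ := fun x d => ang v x d * (chiZ s (x + bdir d) - chiZ s x) with hc
  have T := ang_test s hs h (fun x => chiZ s x * ζ x) (fun x hx => by
    rw [(chiZ_facts s hs x).2.2.2.1 hx]; ring)
  have E1 : ∑ x ∈ bx s, ∑ d : Bool, chiZ s x * ang v x d * (ζ (x + bdir d) - ζ x)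
      = - ∑ x ∈ bx s, ∑ d : Bool, c x d * ζ (x + bdir d) := by
    rw [eq_neg_iff_add_eq_zero, ← T, ← Finset.sum_add_distrib]
    refine Finset.sum_congr rfl fun x _ => ?_
    rw [← Finset.sum_add_distrib]
    refine Finset.sum_congr rfl fun d _ => ?_
    simp only [hc]
    ring
  have E2 : ∑ x ∈ bx s, ∑ d : Bool, c x d * ζ (x + bdir d) = ∑ x ∈ bx m, ∑ d : Bool, c x d * ζ (x + bdir d) := by
    symm
    refine Finset.sum_subset hsub fun x _ hx => Finset.sum_eq_zero fun d _ => ?_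
    have hn := pl4_not_mem hx
    have hst := abs_le.1 (nrm_step x d)
    simp only [hc]
    rw [(chiZ_facts s hs x).2.2.2.1 (by linarith), (chiZ_facts s hs (x + bdir d)).2.2.2.1 (by linarith)]
    ring
  have E3 : ∑ x ∈ bx m, ∑ d : Bool, c x d * ζ (x + bdir d)
      = ∑ p ∈ bx m ×ˢ (Finset.univ : Finset Bool), c p.1 p.2 * ζ (p.1 + bdir p.2) := by
    rw [Finset.sum_product]
  rw [E1, neg_sq, E2, E3]
  refine (Finset.sum_mul_sq_le_sq_mul_sq _ _ _).trans ?_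
  rw [Finset.sum_product, Finset.sum_product]
  set K : ℝ := 64 * Cv / (s : ℝ) ^ 2 with hK
  have hK0 : 0 ≤ K := by positivity
  have B1 : ∑ x ∈ bx m, ∑ d : Bool, c x d ^ 2 ≤ 2 * (s : ℝ) ^ 2 * K ^ 2 := by
    have b1 : ∑ x ∈ bx m, ∑ d : Bool, c x d ^ 2 ≤ ∑ x ∈ bx m, 2 * K ^ 2 := by
      refine Finset.sum_le_sum fun x hx => ?_
      have key : ∀ d : Bool, c x d ^ 2 ≤ K ^ 2 := by
        intro d
        rw [← sq_abs (c x d)]
        exact pow_le_pow_left₀ (abs_nonneg _) (pl4_c_bound s h8 h (hsub hx) d) 2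
      rw [Fintype.sum_bool]
      linarith [key true, key false]
    rw [Finset.sum_const, nsmul_eq_mul, pl4_card_bx] at b1
    have b2 : (2 * (m : ℝ)) ^ 2 ≤ (s : ℝ) ^ 2 := pow_le_pow_left₀ (by positivity) hm2 2
    calc _ ≤ (2 * (m : ℝ)) ^ 2 * (2 * K ^ 2) := b1
      _ ≤ (s : ℝ) ^ 2 * (2 * K ^ 2) := mul_le_mul_of_nonneg_right b2 (by positivity)
      _ = _ := by ring
  have B2 : ∑ x ∈ bx m, ∑ d : Bool, ζ (x + bdir d) ^ 2 ≤ 2 * ∑ x ∈ bx s, ζ x ^ 2 := by
    have hms : m + 1 ≤ s := by omega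
    have b1 := pl4_shift_le hms (fun x => ζ x ^ 2) (fun x => sq_nonneg _) true
    have b2 := pl4_shift_le hms (fun x => ζ x ^ 2) (fun x => sq_nonneg _) false
    simp only [Fintype.sum_bool]
    rw [Finset.sum_add_distrib]
    linarith
  have B3 : 0 ≤ ∑ x ∈ bx m, ∑ d : Bool, ζ (x + bdir d) ^ 2 :=
    Finset.sum_nonneg fun x _ => Finset.sum_nonneg fun d _ => sq_nonneg _
  calc _ ≤ (2 * (s : ℝ) ^ 2 * K ^ 2) * (2 * ∑ x ∈ bx s, ζ x ^ 2) := mul_le_mul B1 B2 B3 (by positivity)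
    _ = (128 * Cv) ^ 2 / (s : ℝ) ^ 2 * ∑ x ∈ bx s, ζ x ^ 2 := by
        rw [hK]
        field_simp
        ring
    _ ≤ _ := by
        refine mul_le_mul_of_nonneg_right ?_ hZ
        refine div_le_div_of_nonneg_right ?_ (by positivity)
        exact pow_le_pow_left₀ (by positivity) (by linarith) 2

end

end Claimed.Agent.R285.F4a
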