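import Claimed.Agent.R285.F4a.Defs
import Claimed.Agent.R285.F4a.LeastSq
import Claimed.Agent.R285.F4a.EnA
import Claimed.Agent.R285.F4a.EnC
import Claimed.Agent.R285.F4a.UnitB
import Claimed.Agent.R285.Alg.Comps
import Claimed.Agent.R285.Face.CT
import Claimed.Agent.R285.Face.Plane

/-!
# ROW 285, PK-FACE, file 3 (Geo.lean = ROWS + CHART + JUNCTION), part ROWS: all topologies as masked operators on ONE row type; coercivity      (architect helper251)

Rows `CRow c = (G.V × Bool) ⊕ c.I` (all oriented bonds, all cells), the same type for every topology: `T.Lc a` = `(a^{-1/2} ∇, B_s)` masked by `T.IsEdge`, `· ∈ T.cells`.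
So two topologies can be compared row by row (`Lc_agree`), which is what `ct_local` needs.
-/

set_option autoImplicit false

namespace Claimed.Agent.R285.F4a

open scoped BigOperators
open Claimed.Agent.R285 Claimed.Agent.R285.RG

noncomputable section

variable {G : Geom}

/-- the common rows -/
abbrev CRow (c : Grid G) : Type := (G.V × Bool) ⊕ c.I

open Classical in
/-- `u ↦ (a^{-1/2} ∇ u, B_s u)`, masked -/
def Top.Lc {c : Grid G} (T : Top c) (a : ℝ) : Matrix (CRow c) G.V ℝ := fun r x =>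
  match r with
  | Sum.inl e => if T.IsEdge e then (Real.sqrt a)⁻¹ * ((if x = stp e.1 e.2 then 1 else 0) - (if x = e.1 then 1 else 0)) else 0
  | Sum.inr i => if i ∈ T.cells ∧ c.blk x = i then ((c.sites {i}).card : ℝ)⁻¹ else 0

open Classical in
/-- the datum `a^{-1/2} w` on the crossing bonds -/
def Top.dc {c : Grid G} (T : Top c) (a : ℝ) (w : Face c → ℝ) : CRow c → ℝ := fun r =>
  match r with
  | Sum.inl e => if T.IsEdge e ∧ c.blk (stp e.1 e.2) ≠ c.blk e.1 then (Real.sqrt a)⁻¹ * w (c.blk e.1, e.2) else 0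
  | Sum.inr _ => 0

/-- the scales of the rows -/
def tsc (c : Grid G) : CRow c → ℝ := fun r =>
  match r with
  | Sum.inl _ => (c.m : ℝ)⁻¹
  | Sum.inr _ => 1

/-- the largest possible stencil of a row -/
def Sten (c : Grid G) (r : CRow c) (x : G.V) : Prop :=
  match r with
  | Sum.inl e => x = e.1 ∨ x = stp e.1 e.2
  | Sum.inr i => c.blk x = i

/-! ### LEAF L-FACE-ROWS-A: the dictionary (unfolding; sums over the subtype `T.graph.E` = masked sums, `Finset.sum_subtype` / `Fintype.sum_sum_type`) -/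

open Classical in
theorem Lc_inl {c : Grid G} (T : Top c) (a : ℝ) (u : G.V → ℝ) (e : G.V × Bool) :
    (T.Lc a).mulVec u (Sum.inl e) = if T.IsEdge e then (Real.sqrt a)⁻¹ * (u (stp e.1 e.2) - u e.1) else 0 := by
  simp only [Matrix.mulVec, dotProduct, Top.Lc]
  split_ifs with h
  · simp only [mul_assoc, sub_mul, ite_mul, one_mul, zero_mul, ← Finset.mul_sum, Finset.sum_sub_distrib,
      Finset.sum_ite_eq', Finset.mem_univ, if_true]
  · simp

open Classical in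
theorem Lc_inr {c : Grid G} (T : Top c) (a : ℝ) (u : G.V → ℝ) (i : c.I) :
    (T.Lc a).mulVec u (Sum.inr i) = if i ∈ T.cells then avg c u i else 0 := by
  simp only [Matrix.mulVec, dotProduct, Top.Lc]
  split_ifs with h
  · simp only [h, true_and, avg, cellAvg, Grid.sites, Finset.mem_singleton]
    rw [Finset.sum_div, Finset.sum_filter]
    refine Finset.sum_congr rfl fun x _ => ?_
    split_ifs
    · rw [div_eq_mul_inv, mul_comm]
    · rw [zero_mul]
  · simp [h]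

theorem Lc_sten {c : Grid G} (T : Top c) (a : ℝ) (r : CRow c) (x : G.V) (h : T.Lc a r x ≠ 0) : Sten c r x := by
  classical
  rcases r with e | i
  · simp only [Top.Lc] at h
    simp only [Sten]
    by_contra hcon
    push Not at hcon
    apply h
    simp [hcon.1, hcon.2]
  · simp only [Top.Lc] at h
    simp only [Sten]
    by_contra hcon
    apply h
    simp [hcon]

theorem tsc_mem {c : Grid G} (hc : Whole c) (r : CRow c) : 0 ≤ tsc c r ∧ tsc c r ≤ 1 := by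
  rcases r with e | i
  · simp only [tsc]
    have h1 : (1 : ℝ) ≤ c.m := by exact_mod_cast hc.pos
    exact ⟨by positivity, inv_le_one_of_one_le₀ h1⟩
  · simp [tsc]

theorem quad_eq_sqs_c {c : Grid G} (T : Top c) (a : ℝ) (ha : 0 < a) (w : Face c → ℝ) (u : G.V → ℝ) :
    T.quad a w 0 u = sqs (T.Lc a) (T.dc a w) u := by
  classical
  unfold sqs Top.quad
  rw [Fintype.sum_sum_type]
  congr 1
  · rw [Finset.mul_sum]
    have h1 : ∑ e : T.graph.E, a⁻¹ * (u (stp e.1.1 e.1.2) - u e.1.1 + T.econn w e) ^ 2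
        = ∑ e ∈ Finset.univ.filter T.IsEdge, a⁻¹ * (u (stp e.1 e.2) - u e.1
            + (if c.blk (stp e.1 e.2) = c.blk e.1 then 0 else w (c.blk e.1, e.2))) ^ 2 :=
      (Finset.sum_subtype (p := T.IsEdge) (Finset.univ.filter T.IsEdge) (fun x => by simp)
        (fun e : G.V × Bool => a⁻¹ * (u (stp e.1 e.2) - u e.1
            + (if c.blk (stp e.1 e.2) = c.blk e.1 then 0 else w (c.blk e.1, e.2))) ^ 2)).symm
    rw [h1, Finset.sum_filter]
    refine Finset.sum_congr rfl fun e _ => ?_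
    rw [Lc_inl]
    simp only [Top.dc]
    by_cases he : T.IsEdge e
    · by_cases hb : c.blk (stp e.1 e.2) = c.blk e.1
      · simp only [he, hb, if_true, true_and, ne_eq, not_true_eq_false, if_false, add_zero]
        rw [mul_pow, inv_pow, Real.sq_sqrt ha.le]
      · simp only [he, hb, if_true, true_and, ne_eq, not_false_eq_true, if_false]
        rw [← mul_add, mul_pow, inv_pow, Real.sq_sqrt ha.le]
    · simp [he]
  · have h2 : ∑ i ∈ T.cells, (avg c u i - (0 : c.I → ℝ) i) ^ 2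
        = ∑ i, if i ∈ T.cells then (avg c u i) ^ 2 else 0 := by
      rw [Finset.sum_ite_mem, Finset.univ_inter]
      simp
    rw [h2]
    refine Finset.sum_congr rfl fun i _ => ?_
    rw [Lc_inr]
    simp only [Top.dc, add_zero]
    split_ifs <;> simp

theorem Qf_eq_lsq_c {c : Grid G} (T : Top c) (a : ℝ) (ha : 0 < a) (w : Face c → ℝ) : T.Qf a w = lsq (T.Lc a) (T.dc a w) := by
  unfold Top.Qf Top.En lsq
  exact iInf_congr fun u => quad_eq_sqs_c T a ha w u

theorem rwa_dc_add {c : Grid G} (T : Top c) (a : ℝ) (w w' : Face c → ℝ) :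
    T.dc a (w + w') = T.dc a w + T.dc a w' := by
  classical
  funext r
  rcases r with e | i
  · simp only [Top.dc, Pi.add_apply]
    split_ifs
    · ring
    · simp
  · simp [Top.dc]

open Classical in
theorem Qmat_eq_lsqB_c {c : Grid G} (T : Top c) (a : ℝ) (ha : 0 < a) (f f' : Face c) :
    T.Qmat a f f' = lsqB (T.Lc a) (T.dc a (Pi.single f 1)) (T.dc a (Pi.single f' 1)) := by
  unfold Top.Qmat lsqB
  rw [Qf_eq_lsq_c T a ha, Qf_eq_lsq_c T a ha, Qf_eq_lsq_c T a ha, rwa_dc_add]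

open Classical in
/-- absent entries vanish (a crossing retained bond crosses a retained face; the four faces of a full junction are retained) -/
theorem Hm_absent {c : Grid G} (T : Top c) (a Ds : ℝ) (ha : 0 < a) (f f' : Face c) (h : f ∉ T.faces ∨ f' ∉ T.faces) :
    T.Hm a Ds f f' = 0 := by
  unfold Top.Hm
  rw [(Qf_quadratic T a ha 0).2 f f' h, Finset.sum_eq_zero, mul_zero, sub_zero]
  intro z hz
  rcases h with h | h
  · rw [ena_sig_single T hz h, zero_mul]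
  · rw [ena_sig_single T hz h, mul_zero]

theorem rwa_disc {c : Grid G} (T T' : Top c) {i : c.I} (h : i ∉ T.disc T') :
    (i ∈ T.cells ↔ i ∈ T'.cells) ∧ ∀ f : Face c, (f.1 = i ∨ fnb c f = i) → (f ∈ T.faces ↔ f ∈ T'.faces) := by
  classical
  unfold Top.disc at h
  simp only [Finset.mem_filter, Finset.mem_univ, true_and, not_or, not_not, not_exists, not_and] at h
  exact h

theorem rwa_edge_agree {c : Grid G} (T T' : Top c) (e : G.V × Bool)
    (h : ∀ x, Sten c (Sum.inl e) x → c.blk x ∉ T.disc T') : T.IsEdge e ↔ T'.IsEdge e := by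
  have h1 := rwa_disc T T' (h e.1 (Or.inl rfl))
  have h2 := rwa_disc T T' (h (stp e.1 e.2) (Or.inr rfl))
  unfold Top.IsEdge
  rw [h1.1, h2.1, h1.2 (c.blk e.1, e.2) (Or.inl rfl)]

/-- **row by row comparison** -/
theorem Lc_agree {c : Grid G} (T T' : Top c) (a : ℝ) (r : CRow c) (h : ∀ x, Sten c r x → c.blk x ∉ T.disc T') :
    T.Lc a r = T'.Lc a r := by
  classical
  funext x
  rcases r with e | i
  · simp only [Top.Lc, rwa_edge_agree T T' e h]
  · simp only [Top.Lc]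
    by_cases hx : c.blk x = i
    · have h1 := (rwa_disc T T' (h x hx)).1
      rw [hx] at h1
      simp only [h1]
    · simp [hx]

theorem dc_agree {c : Grid G} (T T' : Top c) (a : ℝ) (w : Face c → ℝ) (r : CRow c) (h : ∀ x, Sten c r x → c.blk x ∉ T.disc T') :
    T.dc a w r = T'.dc a w r := by
  classical
  rcases r with e | i
  · simp only [Top.dc, rwa_edge_agree T T' e h]
  · simp only [Top.dc]

/-- the correction formula in the present notation (`lsqB_trial`, `lsq_solve` of `LeastSq.lean`) -/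
theorem lsqB_bf {ι V : Type} [Fintype ι] [Fintype V] (L : Matrix ι V ℝ) (d d' : ι → ℝ) (u u' ξ ξ' : V → ℝ)
    (h : Sol L (L.mulVec u + d) ξ) (h' : Sol L (L.mulVec u' + d') ξ') :
    lsqB L d d' = ∑ r, (L.mulVec u + d) r * (L.mulVec u' + d') r - bf L ξ ξ' := by
  have e : ∀ (η ζ : V → ℝ), ∑ i, L.mulVec (-η) i * L.mulVec ζ i = - bf L η ζ := by
    intro η ζ
    unfold bf
    rw [← Finset.sum_neg_distrib]
    refine Finset.sum_congr rfl fun i _ => ?_
    rw [Matrix.mulVec_neg, Pi.neg_apply]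
    ring
  have h1 := lsqB_trial L d d' u u' (-ξ) (-ξ') (fun ζ => by rw [e, h ζ]; rfl) (fun ζ => by rw [e, h' ζ]; rfl)
  rw [h1]
  congr 1
  unfold bf
  refine Finset.sum_congr rfl fun i _ => ?_
  rw [Matrix.mulVec_neg, Matrix.mulVec_neg, Pi.neg_apply, Pi.neg_apply]
  ring

theorem sol_exists {ι V : Type} [Fintype ι] [Fintype V] (L : Matrix ι V ℝ) (ρ : ι → ℝ) : ∃ ξ, Sol L ρ ξ :=
  lsq_solve L ρ

/-! ### LEAF L-FACE-ROWS-B: cell Poincaré.
`∑_{x,y} (u x - u y)² = 2 s² (∑ u² - s² ū²)` and `(u (x₁,x₂) - u (y₁,y₂))² ≤ 2 (u (x₁,x₂) - u (y₁,x₂))² + 2 (u (y₁,x₂) - u (y₁,y₂))²`, each `≤ 2 s ∑_t (∇ u)²` along the segment (Cauchy-Schwarz). -/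

theorem rwb_diff_sq_le (s : ℕ) (v : ℕ → ℝ) (i j : ℕ) (hij : i ≤ j) (hj : j < s) :
    (v j - v i) ^ 2 ≤ (s : ℝ) * ∑ t ∈ Finset.range (s - 1), (v (t + 1) - v t) ^ 2 := by
  have h1 : v j - v i = ∑ t ∈ Finset.Ico i j, (v (t + 1) - v t) := by
    rw [Finset.sum_Ico_eq_sum_range]
    have := Finset.sum_range_sub (fun t => v (i + t)) (j - i)
    simp only [add_zero] at this
    rw [show i + (j - i) = j by omega] at this
    rw [← this]
    refine Finset.sum_congr rfl fun t _ => ?_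
    rw [add_assoc]
  have h2 := sq_sum_le_card_mul_sum_sq (s := Finset.Ico i j) (f := fun t => v (t + 1) - v t)
  rw [h1]
  refine h2.trans ?_
  have h3 : ((Finset.Ico i j).card : ℝ) ≤ s := by
    rw [Nat.card_Ico]
    exact_mod_cast (by omega : j - i ≤ s)
  have h4 : ∑ t ∈ Finset.Ico i j, (v (t + 1) - v t) ^ 2 ≤ ∑ t ∈ Finset.range (s - 1), (v (t + 1) - v t) ^ 2 := by
    refine Finset.sum_le_sum_of_subset_of_nonneg ?_ fun _ _ _ => sq_nonneg _
    intro t ht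
    rw [Finset.mem_Ico] at ht
    rw [Finset.mem_range]
    omega
  exact mul_le_mul h3 h4 (Finset.sum_nonneg fun _ _ => sq_nonneg _) (by positivity)

theorem rwb_diff_sq_le' (s : ℕ) (v : ℕ → ℝ) (i j : ℕ) (hi : i < s) (hj : j < s) :
    (v i - v j) ^ 2 ≤ (s : ℝ) * ∑ t ∈ Finset.range (s - 1), (v (t + 1) - v t) ^ 2 := by
  rcases le_total i j with h | h
  · have := rwb_diff_sq_le s v i j h hj
    calc (v i - v j) ^ 2 = (v j - v i) ^ 2 := by ring
      _ ≤ _ := this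
  · exact rwb_diff_sq_le s v j i h hi

theorem rwb_var (s : ℕ) (v : ℕ → ℝ) :
    ∑ i ∈ Finset.range s, ∑ j ∈ Finset.range s, (v i - v j) ^ 2
      = 2 * (s : ℝ) * ∑ i ∈ Finset.range s, v i ^ 2 - 2 * (∑ i ∈ Finset.range s, v i) ^ 2 := by
  have h1 : ∀ i j, (v i - v j) ^ 2 = v i ^ 2 - 2 * (v i * v j) + v j ^ 2 := fun i j => by ring
  simp only [h1, Finset.sum_add_distrib, Finset.sum_sub_distrib, Finset.sum_const, Finset.card_range,
    nsmul_eq_mul, ← Finset.mul_sum, ← Finset.sum_mul]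
  ring

/-- Poincaré on an interval of `s` points -/
theorem rwb_poin1 (s : ℕ) (v : ℕ → ℝ) :
    ∑ i ∈ Finset.range s, v i ^ 2 ≤ (s : ℝ) ^ 2 * ∑ t ∈ Finset.range (s - 1), (v (t + 1) - v t) ^ 2
      + (s : ℝ)⁻¹ * (∑ i ∈ Finset.range s, v i) ^ 2 := by
  rcases Nat.eq_zero_or_pos s with rfl | hs
  · simp
  have hs' : (0 : ℝ) < s := by exact_mod_cast hs
  set E := ∑ t ∈ Finset.range (s - 1), (v (t + 1) - v t) ^ 2 with hE
  have hE0 : 0 ≤ E := Finset.sum_nonneg fun _ _ => sq_nonneg _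
  have h1 : ∑ i ∈ Finset.range s, ∑ j ∈ Finset.range s, (v i - v j) ^ 2 ≤ (s : ℝ) * ((s : ℝ) * ((s : ℝ) * E)) := by
    calc ∑ i ∈ Finset.range s, ∑ j ∈ Finset.range s, (v i - v j) ^ 2
        ≤ ∑ i ∈ Finset.range s, ∑ j ∈ Finset.range s, (s : ℝ) * E :=
          Finset.sum_le_sum fun i hi => Finset.sum_le_sum fun j hj =>
            rwb_diff_sq_le' s v i j (Finset.mem_range.1 hi) (Finset.mem_range.1 hj)
      _ = (s : ℝ) * ((s : ℝ) * ((s : ℝ) * E)) := by
          simp only [Finset.sum_const, Finset.card_range, nsmul_eq_mul]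
  rw [rwb_var] at h1
  have h2 : (s : ℝ)⁻¹ * (∑ i ∈ Finset.range s, v i) ^ 2 = (∑ i ∈ Finset.range s, v i) ^ 2 / s := by
    rw [div_eq_inv_mul]
  rw [h2, ← sub_le_iff_le_add, ← mul_le_mul_iff_right₀ hs']
  have h3 : (s : ℝ) * (∑ i ∈ Finset.range s, v i ^ 2 - (∑ i ∈ Finset.range s, v i) ^ 2 / s)
      = (s : ℝ) * ∑ i ∈ Finset.range s, v i ^ 2 - (∑ i ∈ Finset.range s, v i) ^ 2 := by
    field_simp
  rw [h3]
  have h4 : 0 ≤ (s : ℝ) * ((s : ℝ) * ((s : ℝ) * E)) := by positivity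
  nlinarith

/-- Poincaré on a square of side `s`, in coordinates -/
theorem sq_poincare (s : ℕ) (u : ℕ → ℕ → ℝ) :
    ∑ i ∈ Finset.range s, ∑ j ∈ Finset.range s, u i j ^ 2
      ≤ (s : ℝ) ^ 2 * (∑ i ∈ Finset.range (s - 1), ∑ j ∈ Finset.range s, (u (i + 1) j - u i j) ^ 2
          + ∑ i ∈ Finset.range s, ∑ j ∈ Finset.range (s - 1), (u i (j + 1) - u i j) ^ 2)
        + ((s : ℝ) ^ 2)⁻¹ * (∑ i ∈ Finset.range s, ∑ j ∈ Finset.range s, u i j) ^ 2 := by
  rcases Nat.eq_zero_or_pos s with rfl | hs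
  · simp
  have hs' : (0 : ℝ) < s := by exact_mod_cast hs
  -- first direction, for every column `j`
  have h1 : ∑ i ∈ Finset.range s, ∑ j ∈ Finset.range s, u i j ^ 2
      ≤ (s : ℝ) ^ 2 * ∑ i ∈ Finset.range (s - 1), ∑ j ∈ Finset.range s, (u (i + 1) j - u i j) ^ 2
        + (s : ℝ)⁻¹ * ∑ j ∈ Finset.range s, (∑ i ∈ Finset.range s, u i j) ^ 2 := by
    rw [Finset.sum_comm, Finset.sum_comm (s := Finset.range (s - 1)), Finset.mul_sum, Finset.mul_sum,
      ← Finset.sum_add_distrib]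
    exact Finset.sum_le_sum fun j _ => rwb_poin1 s (fun i => u i j)
  -- second direction, for the column sums
  have h2 := rwb_poin1 s (fun j => ∑ i ∈ Finset.range s, u i j)
  have h3 : ∑ t ∈ Finset.range (s - 1), ((∑ i ∈ Finset.range s, u i (t + 1)) - ∑ i ∈ Finset.range s, u i t) ^ 2
      ≤ (s : ℝ) * ∑ i ∈ Finset.range s, ∑ j ∈ Finset.range (s - 1), (u i (j + 1) - u i j) ^ 2 := by
    rw [Finset.sum_comm (s := Finset.range s), Finset.mul_sum]
    refine Finset.sum_le_sum fun t _ => ?_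
    rw [← Finset.sum_sub_distrib]
    have := sq_sum_le_card_mul_sum_sq (s := Finset.range s) (f := fun i => u i (t + 1) - u i t)
    rwa [Finset.card_range] at this
  have h4 : ∑ j ∈ Finset.range s, ∑ i ∈ Finset.range s, u i j = ∑ i ∈ Finset.range s, ∑ j ∈ Finset.range s, u i j :=
    Finset.sum_comm
  rw [h4] at h2
  set E1 := ∑ i ∈ Finset.range (s - 1), ∑ j ∈ Finset.range s, (u (i + 1) j - u i j) ^ 2
  set E2 := ∑ i ∈ Finset.range s, ∑ j ∈ Finset.range (s - 1), (u i (j + 1) - u i j) ^ 2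
  set S := ∑ i ∈ Finset.range s, ∑ j ∈ Finset.range s, u i j
  set W := ∑ j ∈ Finset.range s, (∑ i ∈ Finset.range s, u i j) ^ 2
  set D := ∑ t ∈ Finset.range (s - 1), ((∑ i ∈ Finset.range s, u i (t + 1)) - ∑ i ∈ Finset.range s, u i t) ^ 2
  have h5 : (s : ℝ)⁻¹ * W ≤ (s : ℝ) ^ 2 * E2 + ((s : ℝ) ^ 2)⁻¹ * S ^ 2 := by
    have h6 : W ≤ (s : ℝ) ^ 2 * ((s : ℝ) * E2) + (s : ℝ)⁻¹ * S ^ 2 :=
      h2.trans (by gcongr)
    have h7 : (s : ℝ)⁻¹ * W ≤ (s : ℝ)⁻¹ * ((s : ℝ) ^ 2 * ((s : ℝ) * E2) + (s : ℝ)⁻¹ * S ^ 2) :=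
      mul_le_mul_of_nonneg_left h6 (by positivity)
    refine h7.trans (le_of_eq ?_)
    field_simp
  linarith

theorem rwb_pi_nat (a b : ℕ) (ha : a < G.M) (hb : b < G.M) : G.π ((a : ℤ), (b : ℤ)) = (⟨a, ha⟩, ⟨b, hb⟩) := by
  unfold Geom.π
  have h1 := Ker.ker_fold_coe G ⟨a, ha⟩
  have h2 := Ker.ker_fold_coe G ⟨b, hb⟩
  simp only at h1 h2
  rw [h1, h2]

theorem rwb_lt {c : Grid G} (hc : Whole c) (k : Fin c.n) (p : ℕ) (hp : p < c.m) : (k : ℕ) * c.m + p < G.M := by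
  rw [whole_card hc]
  have hk := k.2
  calc (k : ℕ) * c.m + p < (k : ℕ) * c.m + c.m := by omega
    _ = ((k : ℕ) + 1) * c.m := by ring
    _ ≤ c.n * c.m := Nat.mul_le_mul_right _ hk

theorem rwb_blk_pi {c : Grid G} (hc : Whole c) (i : c.I) (p q : ℕ) (hp : p < c.m) (hq : q < c.m) :
    c.blk (G.π ((((i.1 : ℕ) * c.m + p : ℕ) : ℤ), (((i.2 : ℕ) * c.m + q : ℕ) : ℤ))) = i := by
  rw [rwb_pi_nat _ _ (rwb_lt hc i.1 p hp) (rwb_lt hc i.2 q hq)]
  unfold Grid.blk
  apply Prod.ext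
  · apply Fin.ext
    rw [whole_blk1 hc]
    simp only
    exact Nat.div_eq_of_lt_le (by omega) (by rw [add_mul, one_mul]; omega)
  · apply Fin.ext
    rw [whole_blk1 hc]
    simp only
    exact Nat.div_eq_of_lt_le (by omega) (by rw [add_mul, one_mul]; omega)

open Classical in
/-- sums over a cell in coordinates -/
theorem sum_cell {c : Grid G} (hc : Whole c) (i : c.I) (F : G.V → ℝ) :
    ∑ x ∈ c.sites {i}, F x = ∑ p ∈ Finset.range c.m, ∑ q ∈ Finset.range c.m,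
      F (G.π ((((i.1 : ℕ) * c.m + p : ℕ) : ℤ), (((i.2 : ℕ) * c.m + q : ℕ) : ℤ))) := by
  rw [← Finset.sum_product' (Finset.range c.m) (Finset.range c.m)
    (fun p q => F (G.π ((((i.1 : ℕ) * c.m + p : ℕ) : ℤ), (((i.2 : ℕ) * c.m + q : ℕ) : ℤ))))]
  have hsite : ∀ x : G.V, x ∈ c.sites {i} ↔ c.blk x = i := fun x => by
    unfold Grid.sites
    simp
  refine Finset.sum_nbij' (fun x => ((x.1 : ℕ) % c.m, (x.2 : ℕ) % c.m))
    (fun pq => G.π ((((i.1 : ℕ) * c.m + pq.1 : ℕ) : ℤ), (((i.2 : ℕ) * c.m + pq.2 : ℕ) : ℤ))) ?_ ?_ ?_ ?_ ?_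
  · intro x _
    simp only [Finset.mem_product, Finset.mem_range]
    exact ⟨Nat.mod_lt _ hc.pos, Nat.mod_lt _ hc.pos⟩
  · intro pq hpq
    simp only [Finset.mem_product, Finset.mem_range] at hpq
    rw [hsite]
    exact rwb_blk_pi hc i pq.1 pq.2 hpq.1 hpq.2
  · intro x hx
    rw [hsite] at hx
    have h1 : ((i.1 : Fin c.n) : ℕ) = (x.1 : ℕ) / c.m := by rw [← hx, ← whole_blk1 hc]; rfl
    have h2 : ((i.2 : Fin c.n) : ℕ) = (x.2 : ℕ) / c.m := by rw [← hx, ← whole_blk1 hc]; rfl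
    simp only
    rw [h1, h2, Nat.div_add_mod', Nat.div_add_mod', rwb_pi_nat _ _ x.1.2 x.2.2]
  · intro pq hpq
    simp only [Finset.mem_product, Finset.mem_range] at hpq
    rw [rwb_pi_nat _ _ (rwb_lt hc i.1 pq.1 hpq.1) (rwb_lt hc i.2 pq.2 hpq.2)]
    simp only
    rw [Nat.mul_add_mod_self_right, Nat.mul_add_mod_self_right, Nat.mod_eq_of_lt hpq.1, Nat.mod_eq_of_lt hpq.2]
  · intro x hx
    rw [hsite] at hx
    have h1 : ((i.1 : Fin c.n) : ℕ) = (x.1 : ℕ) / c.m := by rw [← hx, ← whole_blk1 hc]; rfl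
    have h2 : ((i.2 : Fin c.n) : ℕ) = (x.2 : ℕ) / c.m := by rw [← hx, ← whole_blk1 hc]; rfl
    simp only
    rw [h1, h2, Nat.div_add_mod', Nat.div_add_mod', rwb_pi_nat _ _ x.1.2 x.2.2]

theorem rwb_stp_true {c : Grid G} (hc : Whole c) (i : c.I) (p q : ℕ) (hp : p + 1 < c.m) (hq : q < c.m) :
    stp (G.π ((((i.1 : ℕ) * c.m + p : ℕ) : ℤ), (((i.2 : ℕ) * c.m + q : ℕ) : ℤ))) true
      = G.π ((((i.1 : ℕ) * c.m + (p + 1) : ℕ) : ℤ), (((i.2 : ℕ) * c.m + q : ℕ) : ℤ)) := by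
  rw [rwb_pi_nat _ _ (rwb_lt hc i.1 p (by omega)) (rwb_lt hc i.2 q hq),
    rwb_pi_nat _ _ (rwb_lt hc i.1 (p + 1) hp) (rwb_lt hc i.2 q hq), enc_stp_true]
  simp only
  congr 1
  have h := Ker.ker_fold_coe G ⟨(i.1 : ℕ) * c.m + (p + 1), rwb_lt hc i.1 (p + 1) hp⟩
  simp only at h
  rw [← h]
  congr 1

theorem rwb_stp_false {c : Grid G} (hc : Whole c) (i : c.I) (p q : ℕ) (hp : p < c.m) (hq : q + 1 < c.m) :
    stp (G.π ((((i.1 : ℕ) * c.m + p : ℕ) : ℤ), (((i.2 : ℕ) * c.m + q : ℕ) : ℤ))) false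
      = G.π ((((i.1 : ℕ) * c.m + p : ℕ) : ℤ), (((i.2 : ℕ) * c.m + (q + 1) : ℕ) : ℤ)) := by
  rw [rwb_pi_nat _ _ (rwb_lt hc i.1 p hp) (rwb_lt hc i.2 q (by omega)),
    rwb_pi_nat _ _ (rwb_lt hc i.1 p hp) (rwb_lt hc i.2 (q + 1) hq), enc_stp_false]
  simp only
  congr 1
  have h := Ker.ker_fold_coe G ⟨(i.2 : ℕ) * c.m + (q + 1), rwb_lt hc i.2 (q + 1) hq⟩
  simp only at h
  rw [← h]
  congr 1

theorem rwb_pi_ne_true {c : Grid G} (hc : Whole c) (i : c.I) (p q : ℕ) (hp : p + 1 < c.m) (hq : q < c.m) :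
    G.π ((((i.1 : ℕ) * c.m + (p + 1) : ℕ) : ℤ), (((i.2 : ℕ) * c.m + q : ℕ) : ℤ))
      ≠ G.π ((((i.1 : ℕ) * c.m + p : ℕ) : ℤ), (((i.2 : ℕ) * c.m + q : ℕ) : ℤ)) := by
  rw [rwb_pi_nat _ _ (rwb_lt hc i.1 p (by omega)) (rwb_lt hc i.2 q hq),
    rwb_pi_nat _ _ (rwb_lt hc i.1 (p + 1) hp) (rwb_lt hc i.2 q hq)]
  intro h
  have := congrArg (fun z : G.V => (z.1 : ℕ)) h
  simp only at this
  omega

theorem rwb_pi_ne_false {c : Grid G} (hc : Whole c) (i : c.I) (p q : ℕ) (hp : p < c.m) (hq : q + 1 < c.m) :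
    G.π ((((i.1 : ℕ) * c.m + p : ℕ) : ℤ), (((i.2 : ℕ) * c.m + (q + 1) : ℕ) : ℤ))
      ≠ G.π ((((i.1 : ℕ) * c.m + p : ℕ) : ℤ), (((i.2 : ℕ) * c.m + q : ℕ) : ℤ)) := by
  rw [rwb_pi_nat _ _ (rwb_lt hc i.1 p hp) (rwb_lt hc i.2 q (by omega)),
    rwb_pi_nat _ _ (rwb_lt hc i.1 p hp) (rwb_lt hc i.2 (q + 1) hq)]
  intro h
  have := congrArg (fun z : G.V => (z.2 : ℕ)) h
  simp only at this
  omega

open Classical in
/-- Poincaré on a cell, with the inner bonds `(x, d)` -/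
theorem cell_poincare {c : Grid G} (hc : Whole c) (i : c.I) (ξ : G.V → ℝ) :
    ((c.m : ℝ) ^ 2)⁻¹ * ∑ x ∈ c.sites {i}, ξ x ^ 2
      ≤ (∑ e : G.V × Bool, if stp e.1 e.2 ≠ e.1 ∧ c.blk e.1 = i ∧ c.blk (stp e.1 e.2) = i then (ξ (stp e.1 e.2) - ξ e.1) ^ 2 else 0)
        + avg c ξ i ^ 2 := by
  have hm : (0 : ℝ) < c.m := by exact_mod_cast hc.pos
  set P : ℕ → ℕ → G.V := fun p q => G.π ((((i.1 : ℕ) * c.m + p : ℕ) : ℤ), (((i.2 : ℕ) * c.m + q : ℕ) : ℤ)) with hP
  set g : G.V → Bool → ℝ := fun x d =>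
    if stp x d ≠ x ∧ c.blk x = i ∧ c.blk (stp x d) = i then (ξ (stp x d) - ξ x) ^ 2 else 0 with hg
  have hg0 : ∀ x d, 0 ≤ g x d := fun x d => by
    simp only [hg]
    split_ifs
    · exact sq_nonneg _
    · exact le_rfl
  have hsum : ∀ d, ∑ x, g x d = ∑ p ∈ Finset.range c.m, ∑ q ∈ Finset.range c.m, g (P p q) d := by
    intro d
    rw [← sum_cell hc i (fun x => g x d)]
    symm
    refine Finset.sum_subset (Finset.subset_univ _) fun x _ hx => ?_
    have hx' : c.blk x ≠ i := fun h => hx (by unfold Grid.sites; simp [h])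
    simp only [hg]
    rw [if_neg (fun h => hx' h.2.1)]
  have hM : (∑ e : G.V × Bool, if stp e.1 e.2 ≠ e.1 ∧ c.blk e.1 = i ∧ c.blk (stp e.1 e.2) = i
        then (ξ (stp e.1 e.2) - ξ e.1) ^ 2 else 0)
      = ∑ p ∈ Finset.range c.m, ∑ q ∈ Finset.range c.m, g (P p q) true
        + ∑ p ∈ Finset.range c.m, ∑ q ∈ Finset.range c.m, g (P p q) false := by
    rw [← hsum true, ← hsum false, ← Finset.sum_add_distrib]
    rw [Fintype.sum_prod_type (fun e : G.V × Bool => if stp e.1 e.2 ≠ e.1 ∧ c.blk e.1 = i ∧ c.blk (stp e.1 e.2) = i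
        then (ξ (stp e.1 e.2) - ξ e.1) ^ 2 else 0)]
    refine Finset.sum_congr rfl fun x _ => ?_
    rw [Fintype.sum_bool]
  have hE1 : ∑ p ∈ Finset.range (c.m - 1), ∑ q ∈ Finset.range c.m, (ξ (P (p + 1) q) - ξ (P p q)) ^ 2
      ≤ ∑ p ∈ Finset.range c.m, ∑ q ∈ Finset.range c.m, g (P p q) true := by
    have h1 : ∑ p ∈ Finset.range (c.m - 1), ∑ q ∈ Finset.range c.m, (ξ (P (p + 1) q) - ξ (P p q)) ^ 2
        = ∑ p ∈ Finset.range (c.m - 1), ∑ q ∈ Finset.range c.m, g (P p q) true := by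
      refine Finset.sum_congr rfl fun p hp => Finset.sum_congr rfl fun q hq => ?_
      rw [Finset.mem_range] at hp hq
      have hp' : p + 1 < c.m := by omega
      simp only [hg, hP]
      rw [rwb_stp_true hc i p q hp' hq, if_pos ⟨rwb_pi_ne_true hc i p q hp' hq,
        rwb_blk_pi hc i p q (by omega) hq, rwb_blk_pi hc i (p + 1) q hp' hq⟩]
    rw [h1]
    refine Finset.sum_le_sum_of_subset_of_nonneg ?_ fun _ _ _ => Finset.sum_nonneg fun _ _ => hg0 _ _
    intro p hp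
    rw [Finset.mem_range] at hp ⊢
    omega
  have hE2 : ∑ p ∈ Finset.range c.m, ∑ q ∈ Finset.range (c.m - 1), (ξ (P p (q + 1)) - ξ (P p q)) ^ 2
      ≤ ∑ p ∈ Finset.range c.m, ∑ q ∈ Finset.range c.m, g (P p q) false := by
    refine Finset.sum_le_sum fun p hp => ?_
    rw [Finset.mem_range] at hp
    have h1 : ∑ q ∈ Finset.range (c.m - 1), (ξ (P p (q + 1)) - ξ (P p q)) ^ 2
        = ∑ q ∈ Finset.range (c.m - 1), g (P p q) false := by
      refine Finset.sum_congr rfl fun q hq => ?_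
      rw [Finset.mem_range] at hq
      have hq' : q + 1 < c.m := by omega
      simp only [hg, hP]
      rw [rwb_stp_false hc i p q hp hq', if_pos ⟨rwb_pi_ne_false hc i p q hp hq',
        rwb_blk_pi hc i p q hp (by omega), rwb_blk_pi hc i p (q + 1) hp hq'⟩]
    rw [h1]
    refine Finset.sum_le_sum_of_subset_of_nonneg ?_ fun _ _ _ => hg0 _ _
    intro q hq
    rw [Finset.mem_range] at hq ⊢
    omega
  have hpo := sq_poincare c.m (fun p q => ξ (P p q))
  have havg : avg c ξ i = (∑ p ∈ Finset.range c.m, ∑ q ∈ Finset.range c.m, ξ (P p q)) / (c.m : ℝ) ^ 2 := by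
    simp only [avg, cellAvg]
    rw [sum_cell hc i ξ, whole_sites_card hc i]
    push_cast
    rfl
  rw [hM, havg, sum_cell hc i (fun x => ξ x ^ 2)]
  set S := ∑ p ∈ Finset.range c.m, ∑ q ∈ Finset.range c.m, ξ (P p q)
  set E1 := ∑ p ∈ Finset.range (c.m - 1), ∑ q ∈ Finset.range c.m, (ξ (P (p + 1) q) - ξ (P p q)) ^ 2
  set E2 := ∑ p ∈ Finset.range c.m, ∑ q ∈ Finset.range (c.m - 1), (ξ (P p (q + 1)) - ξ (P p q)) ^ 2
  have h2 : ((c.m : ℝ) ^ 2)⁻¹ * ∑ p ∈ Finset.range c.m, ∑ q ∈ Finset.range c.m, ξ (P p q) ^ 2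
      ≤ ((c.m : ℝ) ^ 2)⁻¹ * ((c.m : ℝ) ^ 2 * (E1 + E2) + ((c.m : ℝ) ^ 2)⁻¹ * S ^ 2) :=
    mul_le_mul_of_nonneg_left hpo (by positivity)
  have h3 : ((c.m : ℝ) ^ 2)⁻¹ * ((c.m : ℝ) ^ 2 * (E1 + E2) + ((c.m : ℝ) ^ 2)⁻¹ * S ^ 2)
      = E1 + E2 + (S / (c.m : ℝ) ^ 2) ^ 2 := by
    field_simp
  rw [h3] at h2
  linarith

/-! ### LEAF L-FACE-ROWS-C: coercivity of the masked operators -/

/-- sums over the sites of a set of cells -/
theorem rwc_sum_sites (c : Grid G) (Y : Finset c.I) (F : G.V → ℝ) :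
    ∑ x ∈ c.sites Y, F x = ∑ i ∈ Y, ∑ x ∈ c.sites {i}, F x := by
  classical
  unfold Grid.sites
  rw [Finset.sum_filter]
  have h : ∀ i ∈ Y, ∑ x ∈ Finset.univ.filter (fun v => c.blk v ∈ ({i} : Finset c.I)), F x
      = ∑ x, if c.blk x = i then F x else 0 := by
    intro i _
    rw [Finset.sum_filter]
    simp only [Finset.mem_singleton]
  rw [Finset.sum_congr rfl h, Finset.sum_comm]
  refine Finset.sum_congr rfl fun x _ => ?_
  rw [Finset.sum_ite_eq]

/-- `s⁻² ‖ζ‖²_{ℓ²(present cells)} ≤ max (a, 1) ‖L ζ‖²` -/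
theorem coer_l2 {c : Grid G} (hc : Whole c) (T : Top c) (a : ℝ) (ha : 0 < a) (ζ : G.V → ℝ) :
    ((c.m : ℝ) ^ 2)⁻¹ * ∑ x ∈ c.sites T.cells, ζ x ^ 2 ≤ max a 1 * bf (T.Lc a) ζ ζ := by
  classical
  have hma : a ≤ max a 1 := le_max_left _ _
  have hm1 : (1 : ℝ) ≤ max a 1 := le_max_right _ _
  rw [rwc_sum_sites, Finset.mul_sum, bf_self_eq, Fintype.sum_sum_type]
  refine (Finset.sum_le_sum fun i _ => cell_poincare hc i ζ).trans ?_
  rw [Finset.sum_add_distrib, mul_add]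
  refine add_le_add ?_ ?_
  · rw [Finset.sum_comm, Finset.mul_sum]
    refine Finset.sum_le_sum fun e _ => ?_
    rw [Lc_inl]
    by_cases he : stp e.1 e.2 ≠ e.1 ∧ c.blk e.1 ∈ T.cells ∧ c.blk (stp e.1 e.2) = c.blk e.1
    · have hE : T.IsEdge e := ⟨he.1, he.2.1, he.2.2 ▸ he.2.1, Or.inl he.2.2⟩
      rw [if_pos hE, Finset.sum_eq_single (c.blk e.1)]
      · rw [if_pos ⟨he.1, rfl, he.2.2⟩, mul_pow, inv_pow, Real.sq_sqrt ha.le, ← mul_assoc]
        have h1 : 1 ≤ max a 1 * a⁻¹ := by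
          rw [← div_eq_mul_inv, le_div_iff₀ ha]
          linarith
        nlinarith [sq_nonneg (ζ (stp e.1 e.2) - ζ e.1)]
      · intro i _ hi
        rw [if_neg]
        rintro ⟨_, h2, _⟩
        exact hi h2.symm
      · intro h
        exact absurd he.2.1 h
    · rw [Finset.sum_eq_zero]
      · positivity
      · intro i hi
        rw [if_neg]
        rintro ⟨h1, h2, h3⟩
        exact he ⟨h1, h2 ▸ hi, h3.trans h2.symm⟩
  · have e : ∑ i, (T.Lc a).mulVec ζ (Sum.inr i) ^ 2 = ∑ i ∈ T.cells, avg c ζ i ^ 2 := by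
      rw [Finset.sum_congr rfl fun i _ => by rw [Lc_inr, ite_pow, zero_pow two_ne_zero]]
      rw [Finset.sum_ite_mem, Finset.univ_inter]
    rw [e]
    have h0 : 0 ≤ ∑ i ∈ T.cells, avg c ζ i ^ 2 := Finset.sum_nonneg fun i _ => sq_nonneg _
    nlinarith

/-- non-degenerate steps are injective -/
theorem rwc_stp_inj (d : Bool) (x y : G.V) (hx : stp x d ≠ x) (hy : stp y d ≠ y) (h : stp x d = stp y d) : x = y := by
  rcases hG : G.bc with _ | _
  · obtain ⟨a1, a2, a3, a4⟩ := stp_per hG x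
    obtain ⟨b1, b2, b3, b4⟩ := stp_per hG y
    have key : ∀ p q : Fin G.M, ((p : ℕ) + 1) % G.M = ((q : ℕ) + 1) % G.M → p = q := by
      intro p q hpq
      have hp := p.2
      have hq := q.2
      apply Fin.ext
      rcases Nat.lt_or_ge ((p : ℕ) + 1) G.M with h1 | h1 <;> rcases Nat.lt_or_ge ((q : ℕ) + 1) G.M with h2 | h2
      · rw [Nat.mod_eq_of_lt h1, Nat.mod_eq_of_lt h2] at hpq
        omega
      · have e2 : (q : ℕ) + 1 = G.M := by omega
        rw [Nat.mod_eq_of_lt h1, e2, Nat.mod_self] at hpq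
        omega
      · have e1 : (p : ℕ) + 1 = G.M := by omega
        rw [Nat.mod_eq_of_lt h2, e1, Nat.mod_self] at hpq
        omega
      · omega
    cases d
    · exact Prod.ext (by rw [← a4, ← b4, h]) (key _ _ (by rw [← a3, ← b3, h]))
    · exact Prod.ext (key _ _ (by rw [← a1, ← b1, h])) (by rw [← a2, ← b2, h])
  · have e1 := iota_stp_free hG x d hx
    have e2 := iota_stp_free hG y d hy
    rw [h] at e1
    have e3 : G.ι x = G.ι y := add_right_cancel (e1.symm.trans e2)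
    rw [← pi_iota x, ← pi_iota y, e3]

/-- `Coer` with `CP = (8/a + 1) max (a, 1)`: bonds `(s⁻¹ a^{-1/2} (|φ_x| + |φ_y|))² ≤ 2 a⁻¹ s⁻² (φ_x² + φ_y²)`, every site lies on at most four bonds; cells `(avg |φ|)² ≤ s⁻² ∑ φ²` -/
theorem coer_Lc {c : Grid G} (hc : Whole c) (T : Top c) (a : ℝ) (ha : 0 < a) :
    Coer (T.Lc a) (tsc c) ((8 / a + 1) * max a 1) := by
  classical
  intro φ
  have hs : 0 < Real.sqrt a := Real.sqrt_pos.2 ha
  have hm : (0 : ℝ) < c.m := by exact_mod_cast hc.pos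
  have hN : 0 ≤ ∑ x ∈ c.sites T.cells, φ x ^ 2 := Finset.sum_nonneg fun x _ => sq_nonneg _
  rw [Fintype.sum_sum_type]
  -- bonds
  have hb : ∀ e : G.V × Bool, kk (T.Lc a) (tsc c) φ (Sum.inl e) ^ 2
      ≤ 2 / a * ((c.m : ℝ) ^ 2)⁻¹ * (if T.IsEdge e then φ (stp e.1 e.2) ^ 2 + φ e.1 ^ 2 else 0) := by
    intro e
    unfold kk
    by_cases he : T.IsEdge e
    · rw [if_pos he]
      have h1 : ∑ x, |T.Lc a (Sum.inl e) x| * |φ x| ≤ (Real.sqrt a)⁻¹ * (|φ (stp e.1 e.2)| + |φ e.1|) := by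
        have h2 : ∀ x ∈ Finset.univ, |T.Lc a (Sum.inl e) x| * |φ x| ≤
            (Real.sqrt a)⁻¹ * ((if x = stp e.1 e.2 then |φ x| else 0) + (if x = e.1 then |φ x| else 0)) := by
          intro x _
          simp only [Top.Lc, if_pos he]
          rw [abs_mul, abs_of_pos (inv_pos.2 hs), mul_assoc]
          refine mul_le_mul_of_nonneg_left ?_ (inv_pos.2 hs).le
          have := abs_nonneg (φ x)
          split_ifs <;> simp
        refine (Finset.sum_le_sum h2).trans (le_of_eq ?_)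
        rw [← Finset.mul_sum, Finset.sum_add_distrib, Finset.sum_ite_eq', Finset.sum_ite_eq']
        simp
      have h0 : 0 ≤ ∑ x, |T.Lc a (Sum.inl e) x| * |φ x| :=
        Finset.sum_nonneg fun x _ => mul_nonneg (abs_nonneg _) (abs_nonneg _)
      have h3 : (∑ x, |T.Lc a (Sum.inl e) x| * |φ x|) ^ 2 ≤ a⁻¹ * (2 * (φ (stp e.1 e.2) ^ 2 + φ e.1 ^ 2)) := by
        calc (∑ x, |T.Lc a (Sum.inl e) x| * |φ x|) ^ 2
            ≤ ((Real.sqrt a)⁻¹ * (|φ (stp e.1 e.2)| + |φ e.1|)) ^ 2 := pow_le_pow_left₀ h0 h1 2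
          _ = a⁻¹ * (|φ (stp e.1 e.2)| + |φ e.1|) ^ 2 := by
              rw [mul_pow, inv_pow, Real.sq_sqrt ha.le]
          _ ≤ a⁻¹ * (2 * (φ (stp e.1 e.2) ^ 2 + φ e.1 ^ 2)) := by
              refine mul_le_mul_of_nonneg_left ?_ (inv_pos.2 ha).le
              rw [← sq_abs (φ (stp e.1 e.2)), ← sq_abs (φ e.1)]
              nlinarith [sq_nonneg (|φ (stp e.1 e.2)| - |φ e.1|)]
      simp only [tsc]
      rw [mul_pow, inv_pow]
      calc ((c.m : ℝ) ^ 2)⁻¹ * (∑ x, |T.Lc a (Sum.inl e) x| * |φ x|) ^ 2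
          ≤ ((c.m : ℝ) ^ 2)⁻¹ * (a⁻¹ * (2 * (φ (stp e.1 e.2) ^ 2 + φ e.1 ^ 2))) :=
            mul_le_mul_of_nonneg_left h3 (by positivity)
        _ = 2 / a * ((c.m : ℝ) ^ 2)⁻¹ * (φ (stp e.1 e.2) ^ 2 + φ e.1 ^ 2) := by
            rw [div_eq_mul_inv]
            ring
    · rw [if_neg he]
      simp [Top.Lc, he]
  have hcount : ∑ e : G.V × Bool, (if T.IsEdge e then φ (stp e.1 e.2) ^ 2 + φ e.1 ^ 2 else 0)
      ≤ 4 * ∑ x ∈ c.sites T.cells, φ x ^ 2 := by
    rw [Fintype.sum_prod_type_right]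
    have h1 : ∀ d : Bool, ∑ x : G.V, (if T.IsEdge (x, d) then φ (stp x d) ^ 2 + φ x ^ 2 else 0)
        ≤ 2 * ∑ x ∈ c.sites T.cells, φ x ^ 2 := by
      intro d
      rw [← Finset.sum_filter, Finset.sum_add_distrib, two_mul]
      refine add_le_add ?_ ?_
      · rw [← Finset.sum_image (f := fun y => φ y ^ 2) (g := fun x => stp x d)]
        · refine Finset.sum_le_sum_of_subset_of_nonneg ?_ fun _ _ _ => sq_nonneg _
          intro y hy
          obtain ⟨x, hx, rfl⟩ := Finset.mem_image.1 hy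
          have hx' : T.IsEdge (x, d) := (Finset.mem_filter.1 hx).2
          exact Finset.mem_filter.2 ⟨Finset.mem_univ _, hx'.2.2.1⟩
        · intro x hx y hy hxy
          have hx' : T.IsEdge (x, d) := (Finset.mem_filter.1 hx).2
          have hy' : T.IsEdge (y, d) := (Finset.mem_filter.1 hy).2
          exact rwc_stp_inj d x y hx'.1 hy'.1 hxy
      · refine Finset.sum_le_sum_of_subset_of_nonneg ?_ fun _ _ _ => sq_nonneg _
        intro x hx
        have hx' : T.IsEdge (x, d) := (Finset.mem_filter.1 hx).2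
        exact Finset.mem_filter.2 ⟨Finset.mem_univ _, hx'.2.1⟩
    rw [Fintype.sum_bool]
    have := h1 true
    have := h1 false
    linarith
  have hB : ∑ e : G.V × Bool, kk (T.Lc a) (tsc c) φ (Sum.inl e) ^ 2
      ≤ 8 / a * (((c.m : ℝ) ^ 2)⁻¹ * ∑ x ∈ c.sites T.cells, φ x ^ 2) := by
    refine (Finset.sum_le_sum fun e _ => hb e).trans ?_
    rw [← Finset.mul_sum]
    calc 2 / a * ((c.m : ℝ) ^ 2)⁻¹ * ∑ e : G.V × Bool, (if T.IsEdge e then φ (stp e.1 e.2) ^ 2 + φ e.1 ^ 2 else 0)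
        ≤ 2 / a * ((c.m : ℝ) ^ 2)⁻¹ * (4 * ∑ x ∈ c.sites T.cells, φ x ^ 2) :=
          mul_le_mul_of_nonneg_left hcount (by positivity)
      _ = 8 / a * (((c.m : ℝ) ^ 2)⁻¹ * ∑ x ∈ c.sites T.cells, φ x ^ 2) := by ring
  -- cells
  have hc1 : ∀ i : c.I, kk (T.Lc a) (tsc c) φ (Sum.inr i) ^ 2
      ≤ if i ∈ T.cells then ((c.m : ℝ) ^ 2)⁻¹ * ∑ x ∈ c.sites {i}, φ x ^ 2 else 0 := by
    intro i
    unfold kk
    simp only [tsc, one_mul]
    by_cases hi : i ∈ T.cells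
    · rw [if_pos hi]
      have hcard : ((c.sites {i}).card : ℝ) = (c.m : ℝ) ^ 2 := by
        rw [whole_sites_card hc i]
        push_cast
        ring
      have e1 : ∑ x, |T.Lc a (Sum.inr i) x| * |φ x| = ((c.m : ℝ) ^ 2)⁻¹ * ∑ x ∈ c.sites {i}, |φ x| := by
        unfold Grid.sites
        rw [Finset.sum_filter, Finset.mul_sum]
        refine Finset.sum_congr rfl fun x _ => ?_
        simp only [Top.Lc, hi, true_and, Finset.mem_singleton]
        split_ifs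
        · rw [hcard, abs_of_pos (by positivity)]
        · simp
      rw [e1, mul_pow]
      have h2 := sq_sum_le_card_mul_sum_sq (s := c.sites {i}) (f := fun x => |φ x|)
      simp only [sq_abs] at h2
      rw [hcard] at h2
      calc (((c.m : ℝ) ^ 2)⁻¹) ^ 2 * (∑ x ∈ c.sites {i}, |φ x|) ^ 2
          ≤ (((c.m : ℝ) ^ 2)⁻¹) ^ 2 * ((c.m : ℝ) ^ 2 * ∑ x ∈ c.sites {i}, φ x ^ 2) :=
            mul_le_mul_of_nonneg_left h2 (by positivity)
        _ = ((c.m : ℝ) ^ 2)⁻¹ * ∑ x ∈ c.sites {i}, φ x ^ 2 := by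
            field_simp
    · rw [if_neg hi]
      simp [Top.Lc, hi]
  have hC : ∑ i : c.I, kk (T.Lc a) (tsc c) φ (Sum.inr i) ^ 2
      ≤ ((c.m : ℝ) ^ 2)⁻¹ * ∑ x ∈ c.sites T.cells, φ x ^ 2 := by
    refine (Finset.sum_le_sum fun i _ => hc1 i).trans (le_of_eq ?_)
    rw [Finset.sum_ite_mem, Finset.univ_inter, rwc_sum_sites, Finset.mul_sum]
  have h2 := coer_l2 hc T a ha φ
  have h8 : 0 ≤ 8 / a + 1 := by positivity
  calc _ ≤ 8 / a * (((c.m : ℝ) ^ 2)⁻¹ * ∑ x ∈ c.sites T.cells, φ x ^ 2)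
        + ((c.m : ℝ) ^ 2)⁻¹ * ∑ x ∈ c.sites T.cells, φ x ^ 2 := add_le_add hB hC
    _ = (8 / a + 1) * (((c.m : ℝ) ^ 2)⁻¹ * ∑ x ∈ c.sites T.cells, φ x ^ 2) := by ring
    _ ≤ (8 / a + 1) * (max a 1 * bf (T.Lc a) φ φ) := mul_le_mul_of_nonneg_left h2 h8
    _ = _ := by ring

/-!
## ROW 285, PK-FACE, part CHART: displacement charts `dsp G p : G.V → ℤ²`, the radial function `rad`      (architect helper251)

`dsp G p x` = the displacement from the lattice point `p` to the site `x` (free square: `ι x - p`; torus: the balanced representative).  It is injective, `π (p + dsp p x) = x`,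
commutes with steps away from the seam, and `nrm ∘ dsp` is `1`-Lipschitz for the graph distance on BOTH geometries (so weights and cutoffs built from `rad` need no clearance).
All statements are elementary integer arithmetic (`Int.bmod`, `Int.emod`, `omega` after unfolding `Geom.fold`, `stp`, `bdir`; `whole_blk1`, `whole_card` of `F4a/UnitB.lean` for the cells).
-/

/-- displacement from `p` to `x` -/
def dsp (G : Geom) (p : ℤ × ℤ) (x : G.V) : ℤ × ℤ :=
  match G.bc with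
  | BC.per => (Int.bmod ((G.ι x).1 - p.1) G.M, Int.bmod ((G.ι x).2 - p.2) G.M)
  | BC.free => G.ι x - p

/-- lattice points which are sites (torus: all) -/
def inr (G : Geom) (y : ℤ × ℤ) : Prop := G.bc = BC.per ∨ (0 ≤ y.1 ∧ y.1 < G.M ∧ 0 ≤ y.2 ∧ y.2 < G.M)

/-- the radial function in units of cells -/
def rad (c : Grid G) (p : ℤ × ℤ) (x : G.V) : ℝ := nrm (dsp G p x) / c.m

/-- the lower left site of a cell -/
def corner (c : Grid G) (i : c.I) : G.V := G.π ((((i.1 : ℕ) * c.m : ℕ) : ℤ), (((i.2 : ℕ) * c.m : ℕ) : ℤ))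

/-- reference values of `rad` on the rows -/
def radr (c : Grid G) (p : ℤ × ℤ) : CRow c → ℝ := fun r =>
  match r with
  | Sum.inl e => rad c p e.1
  | Sum.inr i => rad c p (corner c i)

/-! ### LEAF L-FACE-CH1: the chart -/

/-- one coordinate of `dsp` -/
def dsp1 (G : Geom) (p : ℤ) (i : Fin G.M) : ℤ :=
  match G.bc with
  | BC.per => Int.bmod (((i : ℕ) : ℤ) - p) G.M
  | BC.free => ((i : ℕ) : ℤ) - p

theorem ch1_per (hG : G.bc = BC.per) (p : ℤ) (i : Fin G.M) : dsp1 G p i = Int.bmod (((i : ℕ) : ℤ) - p) G.M := by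
  unfold dsp1
  rw [hG]

theorem ch1_free (hG : G.bc = BC.free) (p : ℤ) (i : Fin G.M) : dsp1 G p i = ((i : ℕ) : ℤ) - p := by
  unfold dsp1
  rw [hG]

theorem ch1_dsp_eq (p : ℤ × ℤ) (x : G.V) : dsp G p x = (dsp1 G p.1 x.1, dsp1 G p.2 x.2) := by
  rcases hG : G.bc with _ | _
  · rw [ch1_per hG, ch1_per hG]
    unfold dsp
    rw [hG]
    rfl
  · rw [ch1_free hG, ch1_free hG]
    unfold dsp
    rw [hG]
    rfl

theorem ch1_nrm (X : ℤ × ℤ) : ∃ N : ℤ, nrm X = (N : ℝ) ∧ -N ≤ X.1 ∧ X.1 ≤ N ∧ -N ≤ X.2 ∧ X.2 ≤ N := by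
  have h1 := abs_le.1 (le_max_left |X.1| |X.2|)
  have h2 := abs_le.1 (le_max_right |X.1| |X.2|)
  exact ⟨max |X.1| |X.2|, by simp [nrm], h1.1, h1.2, h2.1, h2.2⟩

theorem ch1_spec_per (hG : G.bc = BC.per) (p : ℤ) (i : Fin G.M) :
    ∃ k : ℤ, dsp1 G p i = ((i : ℕ) : ℤ) - p - G.M * k ∧ -(G.M : ℤ) ≤ 2 * dsp1 G p i ∧ 2 * dsp1 G p i < G.M := by
  rw [ch1_per hG]
  have h1 := Int.le_bmod (x := ((i : ℕ) : ℤ) - p) G.hM
  have h2 := Int.bmod_lt (x := ((i : ℕ) : ℤ) - p) G.hM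
  exact ⟨Int.bdiv (((i : ℕ) : ℤ) - p) G.M, Int.bmod_eq_self_sub_mul_bdiv _ _, by omega, by omega⟩

theorem ch1_uniq_per (hG : G.bc = BC.per) (p : ℤ) (i : Fin G.M) (y k : ℤ) (h : y = ((i : ℕ) : ℤ) - p - G.M * k)
    (h1 : -(G.M : ℤ) ≤ 2 * y) (h2 : 2 * y < G.M) : dsp1 G p i = y := by
  rw [ch1_per hG, Int.bmod_eq_iff G.hM]
  exact ⟨by omega, by omega, ⟨-k, by rw [h]; ring⟩⟩

theorem ch1_fold_per (hG : G.bc = BC.per) (x : ℤ) (i : Fin G.M) (k : ℤ) (h : ((i : ℕ) : ℤ) = x - G.M * k) : G.fold x = i := by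
  apply Fin.ext
  have h1 := fold_per_val hG x
  have e : x = ((i : ℕ) : ℤ) + G.M * k := by rw [h]; ring
  have h2 : x % G.M = ((i : ℕ) : ℤ) := by
    rw [e, Int.add_mul_emod_self_left]
    exact Int.emod_eq_of_lt (by positivity) (by exact_mod_cast i.2)
  rw [h2] at h1
  exact_mod_cast h1

theorem ch1_fold_spec_per (hG : G.bc = BC.per) (x : ℤ) : ∃ k : ℤ, ((G.fold x : ℕ) : ℤ) = x - G.M * k := by
  refine ⟨x / G.M, ?_⟩
  rw [fold_per_val hG x]
  have := Int.emod_add_mul_ediv x G.M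
  linarith

theorem ch1_fold_in (x : ℤ) (h0 : 0 ≤ x) (h1 : x < G.M) : ((G.fold x : ℕ) : ℤ) = x := by
  have h := fold_coe (G := G) ⟨x.toNat, by omega⟩
  have e : (((⟨x.toNat, by omega⟩ : Fin G.M) : ℕ) : ℤ) = x := by
    simp only
    omega
  rw [e] at h
  rw [h]
  exact e

theorem ch1_fold_dsp1 (p : ℤ) (i : Fin G.M) :
    G.fold (p + dsp1 G p i) = i ∧ (G.bc = BC.per ∨ (0 ≤ p + dsp1 G p i ∧ p + dsp1 G p i < G.M)) := by
  rcases hG : G.bc with _ | _
  · obtain ⟨k, hk, -, -⟩ := ch1_spec_per hG p i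
    exact ⟨ch1_fold_per hG _ i (-k) (by rw [hk]; ring), Or.inl rfl⟩
  · rw [ch1_free hG]
    have e : p + (((i : ℕ) : ℤ) - p) = ((i : ℕ) : ℤ) := by ring
    rw [e]
    have := i.2
    exact ⟨fold_coe i, Or.inr ⟨by positivity, by exact_mod_cast this⟩⟩

theorem ch1_dsp1_fold (p X : ℤ) (h1 : -(G.M : ℤ) < 2 * X) (h2 : 2 * X < G.M)
    (hr : G.bc = BC.per ∨ (0 ≤ p + X ∧ p + X < G.M)) : dsp1 G p (G.fold (p + X)) = X := by
  rcases hG : G.bc with _ | _
  · obtain ⟨k, hk⟩ := ch1_fold_spec_per hG (p + X)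
    exact ch1_uniq_per hG p _ X (-k) (by rw [hk]; ring) h1.le h2
  · rcases hr with hr | hr
    · rw [hG] at hr
      cases hr
    · rw [ch1_free hG, ch1_fold_in _ hr.1 hr.2]
      ring

theorem ch1_dsp1_succ (p : ℤ) (i : Fin G.M) (h : G.fold (((i : ℕ) : ℤ) + 1) ≠ i)
    (hs : (2 * dsp1 G p i + 2 < G.M) ∨ (-(2 * dsp1 G p (G.fold (((i : ℕ) : ℤ) + 1))) + 2 < G.M)) :
    dsp1 G p (G.fold (((i : ℕ) : ℤ) + 1)) = dsp1 G p i + 1 := by
  rcases hG : G.bc with _ | _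
  · obtain ⟨k₁, hk₁⟩ := ch1_fold_spec_per hG (((i : ℕ) : ℤ) + 1)
    obtain ⟨k, hk, hl, hu⟩ := ch1_spec_per hG p i
    obtain ⟨k₂, hk₂, hl₂, hu₂⟩ := ch1_spec_per hG p (G.fold (((i : ℕ) : ℤ) + 1))
    rcases hs with hs | hs
    · exact ch1_uniq_per hG p _ _ (k - k₁) (by rw [hk, hk₁]; ring) (by omega) (by omega)
    · have h3 := ch1_uniq_per hG p i (dsp1 G p (G.fold (((i : ℕ) : ℤ) + 1)) - 1) (k₁ + k₂)
        (by rw [hk₂, hk₁]; ring) (by omega) (by omega)
      omega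
  · have h1 : (i : ℕ) + 1 < G.M := by
      have h2 := i.2
      rcases Nat.lt_or_ge ((i : ℕ) + 1) G.M with h3 | h3
      · exact h3
      · exact absurd ((fold_succ_free hG i).2 (by omega)) h
    rw [ch1_free hG, ch1_free hG, ch1_fold_in _ (by positivity) (by exact_mod_cast h1)]
    ring

theorem ch1_dsp1_shift (p q : ℤ) (i : Fin G.M) (h1 : -(G.M : ℤ) < 2 * (dsp1 G p i - q)) (h2 : 2 * (dsp1 G p i - q) < G.M) :
    dsp1 G (p + q) i = dsp1 G p i - q := by
  rcases hG : G.bc with _ | _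
  · obtain ⟨k, hk, -, -⟩ := ch1_spec_per hG p i
    exact ch1_uniq_per hG (p + q) i _ k (by rw [hk]; ring) h1.le h2
  · rw [ch1_free hG, ch1_free hG]
    ring

theorem ch1_dsp1_period (hG : G.bc = BC.per) (p k : ℤ) (i : Fin G.M) : dsp1 G (p + (G.M : ℤ) * k) i = dsp1 G p i := by
  obtain ⟨k₀, hk, hl, hu⟩ := ch1_spec_per hG p i
  exact ch1_uniq_per hG _ i _ (k₀ - k) (by rw [hk]; ring) hl hu

theorem ch1_fold_succ (y : ℤ) (h : G.bc = BC.per ∨ (0 ≤ y ∧ y < G.M)) (h' : G.bc = BC.per ∨ (0 ≤ y + 1 ∧ y + 1 < G.M))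
    (hM : 2 ≤ G.M) :
    G.fold (((G.fold y : ℕ) : ℤ) + 1) = G.fold (y + 1) ∧ G.fold (((G.fold y : ℕ) : ℤ) + 1) ≠ G.fold y := by
  rcases hG : G.bc with _ | _
  · obtain ⟨k, hk⟩ := ch1_fold_spec_per hG y
    obtain ⟨k', hk'⟩ := ch1_fold_spec_per hG (y + 1)
    have e : G.fold (((G.fold y : ℕ) : ℤ) + 1) = G.fold (y + 1) :=
      ch1_fold_per hG _ _ (k' - k) (by rw [hk, hk']; ring)
    refine ⟨e, ?_⟩
    rw [e]
    intro hc
    rw [hc, hk] at hk'
    have h1 : (G.M : ℤ) * (k' - k) = 1 := by linarith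
    have h2 : (G.M : ℤ) ∣ 1 := ⟨k' - k, h1.symm⟩
    have h3 := Int.le_of_dvd one_pos h2
    omega
  · have a : 0 ≤ y ∧ y < G.M := by
      rcases h with h | h
      · rw [hG] at h
        cases h
      · exact h
    have a' : 0 ≤ y + 1 ∧ y + 1 < G.M := by
      rcases h' with h | h
      · rw [hG] at h
        cases h
      · exact h
    rw [ch1_fold_in y a.1 a.2]
    refine ⟨rfl, fun hc => ?_⟩
    have h1 := ch1_fold_in (G := G) y a.1 a.2
    have h2 := ch1_fold_in (G := G) (y + 1) a'.1 a'.2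
    rw [hc] at h2
    omega

theorem pi_dsp (p : ℤ × ℤ) (x : G.V) : G.π (p + dsp G p x) = x ∧ inr G (p + dsp G p x) := by
  rw [ch1_dsp_eq]
  obtain ⟨a1, a2⟩ := ch1_fold_dsp1 p.1 x.1
  obtain ⟨b1, b2⟩ := ch1_fold_dsp1 p.2 x.2
  refine ⟨Prod.ext a1 b1, ?_⟩
  rcases a2 with a2 | a2
  · exact Or.inl a2
  · rcases b2 with b2 | b2
    · exact Or.inl b2
    · exact Or.inr ⟨a2.1, a2.2, b2.1, b2.2⟩

theorem dsp_inj (p : ℤ × ℤ) (x y : G.V) (h : dsp G p x = dsp G p y) : x = y := by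
  rw [← (pi_dsp p x).1, h, (pi_dsp p y).1]

theorem dsp_pi (p X : ℤ × ℤ) (hX : 2 * nrm X < G.M) (hr : inr G (p + X)) : dsp G p (G.π (p + X)) = X := by
  obtain ⟨N, hN, n1, n2, n3, n4⟩ := ch1_nrm X
  rw [hN] at hX
  have hX' : 2 * N < (G.M : ℤ) := by exact_mod_cast hX
  rw [ch1_dsp_eq]
  refine Prod.ext ?_ ?_
  · refine ch1_dsp1_fold p.1 X.1 (by omega) (by omega) ?_
    rcases hr with hr | hr
    · exact Or.inl hr
    · exact Or.inr ⟨hr.1, hr.2.1⟩
  · refine ch1_dsp1_fold p.2 X.2 (by omega) (by omega) ?_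
    rcases hr with hr | hr
    · exact Or.inl hr
    · exact Or.inr ⟨hr.2.2.1, hr.2.2.2⟩

/-- steps, away from the seam of the torus -/
theorem dsp_stp (p : ℤ × ℤ) (x : G.V) (d : Bool) (h : stp x d ≠ x)
    (hs : 2 * nrm (dsp G p x) + 2 < G.M ∨ 2 * nrm (dsp G p (stp x d)) + 2 < G.M) :
    dsp G p (stp x d) = dsp G p x + bdir d := by
  obtain ⟨N, hN, n1, n2, n3, n4⟩ := ch1_nrm (dsp G p x)
  obtain ⟨N', hN', m1, m2, m3, m4⟩ := ch1_nrm (dsp G p (stp x d))
  rw [hN, hN'] at hs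
  have hs' : 2 * N + 2 < (G.M : ℤ) ∨ 2 * N' + 2 < (G.M : ℤ) := by
    rcases hs with hs | hs
    · left; exact_mod_cast hs
    · right; exact_mod_cast hs
  rw [ch1_dsp_eq] at n1 n2 n3 n4 m1 m2 m3 m4
  rw [ch1_dsp_eq, ch1_dsp_eq]
  cases d
  · rw [stp_false] at h m1 m2 m3 m4 ⊢
    have h1 : G.fold (((x.2 : ℕ) : ℤ) + 1) ≠ x.2 := fun hc => h (Prod.ext rfl hc)
    have h2 := ch1_dsp1_succ p.2 x.2 h1 (by
      simp only at n1 n2 n3 n4 m1 m2 m3 m4
      omega)
    refine Prod.ext ?_ ?_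
    · simp [bdir]
    · simpa [bdir] using h2
  · rw [stp_true] at h m1 m2 m3 m4 ⊢
    have h1 : G.fold (((x.1 : ℕ) : ℤ) + 1) ≠ x.1 := fun hc => h (Prod.ext hc rfl)
    have h2 := ch1_dsp1_succ p.1 x.1 h1 (by
      simp only at n1 n2 n3 n4 m1 m2 m3 m4
      omega)
    refine Prod.ext ?_ ?_
    · simpa [bdir] using h2
    · simp [bdir]

/-- change of the base point -/
theorem dsp_shift (p q : ℤ × ℤ) (x : G.V) (h : 2 * (nrm (dsp G p x) + nrm q) < G.M) : dsp G (p + q) x = dsp G p x - q := by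
  obtain ⟨N, hN, n1, n2, n3, n4⟩ := ch1_nrm (dsp G p x)
  obtain ⟨N', hN', m1, m2, m3, m4⟩ := ch1_nrm q
  rw [hN, hN'] at h
  have h' : 2 * (N + N') < (G.M : ℤ) := by exact_mod_cast h
  rw [ch1_dsp_eq] at n1 n2 n3 n4
  simp only at n1 n2 n3 n4
  rw [ch1_dsp_eq, ch1_dsp_eq]
  refine Prod.ext ?_ ?_
  · exact ch1_dsp1_shift p.1 q.1 x.1 (by omega) (by omega)
  · exact ch1_dsp1_shift p.2 q.2 x.2 (by omega) (by omega)

theorem dsp_period (hG : G.bc = BC.per) (p k : ℤ × ℤ) (x : G.V) : dsp G (p + ((G.M : ℤ) * k.1, (G.M : ℤ) * k.2)) x = dsp G p x := by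
  rw [ch1_dsp_eq, ch1_dsp_eq]
  exact Prod.ext (ch1_dsp1_period hG p.1 k.1 x.1) (ch1_dsp1_period hG p.2 k.2 x.2)

/-- a step in the chart is a step of the graph -/
theorem stp_pi (y : ℤ × ℤ) (d : Bool) (h : inr G y) (h' : inr G (y + bdir d)) (hM : 2 ≤ G.M) :
    stp (G.π y) d = G.π (y + bdir d) ∧ stp (G.π y) d ≠ G.π y := by
  have a1 : G.bc = BC.per ∨ (0 ≤ y.1 ∧ y.1 < G.M) := h.imp id fun h => ⟨h.1, h.2.1⟩
  have a2 : G.bc = BC.per ∨ (0 ≤ y.2 ∧ y.2 < G.M) := h.imp id fun h => ⟨h.2.2.1, h.2.2.2⟩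
  cases d
  · have b2 : G.bc = BC.per ∨ (0 ≤ y.2 + 1 ∧ y.2 + 1 < G.M) :=
      h'.imp id fun h => ⟨by simpa [bdir] using h.2.2.1, by simpa [bdir] using h.2.2.2⟩
    obtain ⟨e1, e2⟩ := ch1_fold_succ y.2 a2 b2 hM
    rw [stp_false]
    constructor
    · refine Prod.ext ?_ ?_
      · simp [Geom.π, bdir]
      · simpa [Geom.π, bdir] using e1
    · intro hc
      exact e2 (congrArg Prod.snd hc)
  · have b1 : G.bc = BC.per ∨ (0 ≤ y.1 + 1 ∧ y.1 + 1 < G.M) :=
      h'.imp id fun h => ⟨by simpa [bdir] using h.1, by simpa [bdir] using h.2.1⟩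
    obtain ⟨e1, e2⟩ := ch1_fold_succ y.1 a1 b1 hM
    rw [stp_true]
    constructor
    · refine Prod.ext ?_ ?_
      · simpa [Geom.π, bdir] using e1
      · simp [Geom.π, bdir]
    · intro hc
      exact e2 (congrArg Prod.fst hc)

open Classical in
theorem card_dsp_le (p : ℤ × ℤ) (R : ℕ) : (Finset.univ.filter fun x : G.V => nrm (dsp G p x) ≤ R).card ≤ (2 * R + 1) ^ 2 := by
  have h1 : (Finset.univ.filter fun x : G.V => nrm (dsp G p x) ≤ R).card
      ≤ (Finset.Icc (-(R : ℤ)) R ×ˢ Finset.Icc (-(R : ℤ)) R).card := by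
    refine Finset.card_le_card_of_injOn (dsp G p) ?_ ?_
    · intro x hx
      have hx' : nrm (dsp G p x) ≤ R := by simpa using hx
      obtain ⟨N, hN, n1, n2, n3, n4⟩ := ch1_nrm (dsp G p x)
      rw [hN] at hx'
      have hx'' : N ≤ (R : ℤ) := by exact_mod_cast hx'
      simp only [Finset.coe_product, Finset.coe_Icc, Set.mem_prod, Set.mem_Icc]
      omega
    · intro x _ y _ hxy
      exact dsp_inj p x y hxy
  refine h1.trans (le_of_eq ?_)
  rw [Finset.card_product, Int.card_Icc, sq]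
  congr 1 <;> omega

/-! ### LEAF L-FACE-CH2: `nrm ∘ dsp` is Lipschitz; `rad` is slow -/

theorem ch2_nrm_cast (X : ℤ × ℤ) : nrm X = ((max |X.1| |X.2| : ℤ) : ℝ) := by
  simp [nrm]

/-- comparison of two sup norms, coordinate by coordinate -/
theorem ch2_nrm_sub (X Y : ℤ × ℤ) (k : ℤ) (h1 : |(|X.1| - |Y.1|)| ≤ k) (h2 : |(|X.2| - |Y.2|)| ≤ k) :
    |nrm X - nrm Y| ≤ k := by
  rw [ch2_nrm_cast, ch2_nrm_cast]
  have h : |(max |X.1| |X.2| - max |Y.1| |Y.2|)| ≤ k := (abs_max_sub_max_le_max _ _ _ _).trans (max_le h1 h2)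
  exact_mod_cast h

theorem ch2_min (hG : G.bc = BC.per) (p : ℤ) (i : Fin G.M) (k : ℤ) : |dsp1 G p i| ≤ |dsp1 G p i + G.M * k| := by
  obtain ⟨-, -, hl, hu⟩ := ch1_spec_per hG p i
  have hM : (0 : ℤ) < G.M := by exact_mod_cast G.hM
  rcases lt_trichotomy k 0 with hk | hk | hk
  · have h1 : (G.M : ℤ) * k ≤ -(G.M : ℤ) := by nlinarith
    simp only [Int.abs_eq_natAbs]
    omega
  · rw [hk, mul_zero, add_zero]
  · have h1 : (G.M : ℤ) ≤ (G.M : ℤ) * k := by nlinarith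
    simp only [Int.abs_eq_natAbs]
    omega

theorem ch2_lip_per (hG : G.bc = BC.per) (p : ℤ) (i j : Fin G.M) (t k : ℤ) (h : ((i : ℕ) : ℤ) = ((j : ℕ) : ℤ) + t - G.M * k) :
    |dsp1 G p i| ≤ |dsp1 G p j| + |t| := by
  obtain ⟨ki, hi, -, -⟩ := ch1_spec_per hG p i
  obtain ⟨kj, hj, -, -⟩ := ch1_spec_per hG p j
  have e : dsp1 G p i + G.M * (ki - kj + k) = dsp1 G p j + t := by
    rw [hi, hj, h]
    ring
  calc |dsp1 G p i| ≤ |dsp1 G p i + G.M * (ki - kj + k)| := ch2_min hG p i _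
    _ = |dsp1 G p j + t| := by rw [e]
    _ ≤ _ := abs_add_le _ _

theorem ch2_lip (p : ℤ) (i j : Fin G.M) : |(|dsp1 G p i| - |dsp1 G p j|)| ≤ |((i : ℕ) : ℤ) - ((j : ℕ) : ℤ)| := by
  rcases hG : G.bc with _ | _
  · have h1 := ch2_lip_per hG p i j (((i : ℕ) : ℤ) - ((j : ℕ) : ℤ)) 0 (by ring)
    have h2 := ch2_lip_per hG p j i (((j : ℕ) : ℤ) - ((i : ℕ) : ℤ)) 0 (by ring)
    rw [abs_sub_comm ((j : ℕ) : ℤ)] at h2
    rw [abs_le]
    constructor <;> linarith
  · rw [ch1_free hG, ch1_free hG]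
    refine (abs_abs_sub_abs_le _ _).trans (le_of_eq ?_)
    congr 1
    ring

theorem ch2_succ (p : ℤ) (i : Fin G.M) : |(|dsp1 G p (G.fold (((i : ℕ) : ℤ) + 1))| - |dsp1 G p i|)| ≤ 1 := by
  rcases hG : G.bc with _ | _
  · obtain ⟨k, hk⟩ := ch1_fold_spec_per hG (((i : ℕ) : ℤ) + 1)
    have h1 := ch2_lip_per hG p (G.fold (((i : ℕ) : ℤ) + 1)) i 1 k hk
    have h2 := ch2_lip_per hG p i (G.fold (((i : ℕ) : ℤ) + 1)) (-1) (-k) (by rw [hk]; ring)
    rw [abs_neg] at h2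
    rw [abs_one] at h1 h2
    rw [abs_le]
    constructor <;> linarith
  · refine (ch2_lip p _ i).trans ?_
    have h2 := i.2
    rcases Nat.lt_or_ge ((i : ℕ) + 1) G.M with h3 | h3
    · rw [ch1_fold_in _ (by positivity) (by exact_mod_cast h3)]
      simp
    · rw [(fold_succ_free hG i).2 (by omega)]
      simp

theorem nrm_dsp_stp (p : ℤ × ℤ) (x : G.V) (d : Bool) : |nrm (dsp G p (stp x d)) - nrm (dsp G p x)| ≤ 1 := by
  have h := ch2_nrm_sub (dsp G p (stp x d)) (dsp G p x) 1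
  rw [ch1_dsp_eq, ch1_dsp_eq] at h
  rw [ch1_dsp_eq, ch1_dsp_eq]
  have h' : |nrm (dsp1 G p.1 (stp x d).1, dsp1 G p.2 (stp x d).2) - nrm (dsp1 G p.1 x.1, dsp1 G p.2 x.2)| ≤ ((1 : ℤ) : ℝ) := by
    refine h ?_ ?_
    · cases d
      · rw [stp_false]
        simp
      · rw [stp_true]
        exact ch2_succ p.1 x.1
    · cases d
      · rw [stp_false]
        exact ch2_succ p.2 x.2
      · rw [stp_true]
        simp
  simpa using h'

theorem ch2_cell1 {c : Grid G} (hc : Whole c) (i j : Fin G.M) (h : c.blk1 i = c.blk1 j) :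
    |((i : ℕ) : ℤ) - ((j : ℕ) : ℤ)| ≤ c.m := by
  have h1 := whole_blk1 hc i
  have h2 := whole_blk1 hc j
  rw [h, h2] at h1
  have hm := hc.pos
  have a1 := Nat.div_add_mod (i : ℕ) c.m
  have a2 := Nat.div_add_mod (j : ℕ) c.m
  have b1 := Nat.mod_lt (i : ℕ) hm
  have b2 := Nat.mod_lt (j : ℕ) hm
  rw [← h1] at a1
  rw [abs_le]
  constructor <;> omega

theorem nrm_dsp_cell {c : Grid G} (hc : Whole c) (p : ℤ × ℤ) (x y : G.V) (h : c.blk x = c.blk y) :
    |nrm (dsp G p x) - nrm (dsp G p y)| ≤ c.m := by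
  have h1 : c.blk1 x.1 = c.blk1 y.1 := congrArg Prod.fst h
  have h2 : c.blk1 x.2 = c.blk1 y.2 := congrArg Prod.snd h
  have h3 := ch2_nrm_sub (dsp G p x) (dsp G p y) c.m
  rw [ch1_dsp_eq, ch1_dsp_eq] at h3
  rw [ch1_dsp_eq, ch1_dsp_eq]
  have h4 := h3 ((ch2_lip p.1 x.1 y.1).trans (ch2_cell1 hc _ _ h1)) ((ch2_lip p.2 x.2 y.2).trans (ch2_cell1 hc _ _ h2))
  simpa using h4

theorem ch2_corner1 {c : Grid G} (hc : Whole c) (i : Fin c.n) : c.blk1 (G.fold ((((i : ℕ) * c.m : ℕ) : ℤ))) = i := by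
  apply Fin.ext
  rw [whole_blk1 hc]
  have hM := whole_card hc
  have hm := hc.pos
  have h1 : (i : ℕ) * c.m < G.M := by
    rw [hM]
    exact Nat.mul_lt_mul_of_pos_right i.2 hm
  have h2 := ch1_fold_in (G := G) ((((i : ℕ) * c.m : ℕ) : ℤ)) (by positivity) (by exact_mod_cast h1)
  have h3 : ((G.fold ((((i : ℕ) * c.m : ℕ) : ℤ)) : Fin G.M) : ℕ) = (i : ℕ) * c.m := by exact_mod_cast h2
  rw [h3]
  exact Nat.mul_div_cancel _ hm

theorem blk_corner {c : Grid G} (hc : Whole c) (i : c.I) : c.blk (corner c i) = i := by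
  exact Prod.ext (ch2_corner1 hc i.1) (ch2_corner1 hc i.2)

theorem rad_sten {c : Grid G} (hc : Whole c) (p : ℤ × ℤ) (r : CRow c) (x : G.V) (h : Sten c r x) :
    |rad c p x - radr c p r| ≤ tsc c r := by
  have hm : (0 : ℝ) < c.m := by exact_mod_cast hc.pos
  rcases r with e | i
  · show |nrm (dsp G p x) / c.m - nrm (dsp G p e.1) / c.m| ≤ (c.m : ℝ)⁻¹
    rw [← sub_div, abs_div, abs_of_pos hm, div_eq_mul_inv]
    refine mul_le_of_le_one_left (inv_pos.2 hm).le ?_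
    rcases h with h | h
    · rw [h]
      simp
    · rw [h]
      exact nrm_dsp_stp p e.1 e.2
  · show |nrm (dsp G p x) / c.m - nrm (dsp G p (corner c i)) / c.m| ≤ 1
    rw [← sub_div, abs_div, abs_of_pos hm, div_le_one hm]
    refine nrm_dsp_cell hc p x (corner c i) ?_
    rw [blk_corner hc]
    exact h

theorem slow_rad {c : Grid G} (hc : Whole c) (T : Top c) (a : ℝ) (p : ℤ × ℤ) :
    Slow (T.Lc a) (tsc c) (rad c p) (radr c p) 1 := by
  intro r x hx
  rw [one_mul]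
  exact rad_sten hc p r x (Lc_sten T a r x hx)

/-- two points of one stencil -/
theorem rad_sten2 {c : Grid G} (hc : Whole c) (p : ℤ × ℤ) (r : CRow c) (x y : G.V) (h : Sten c r x) (h' : Sten c r y) :
    |rad c p x - rad c p y| ≤ 1 := by
  have hm : (0 : ℝ) < c.m := by exact_mod_cast hc.pos
  have hm1 : (1 : ℝ) ≤ c.m := by exact_mod_cast hc.pos
  show |nrm (dsp G p x) / c.m - nrm (dsp G p y) / c.m| ≤ 1
  rw [← sub_div, abs_div, abs_of_pos hm, div_le_one hm]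
  rcases r with e | i
  · have h0 := nrm_dsp_stp p e.1 e.2
    rcases h with h | h <;> rcases h' with h' | h' <;> rw [h, h']
    · simp
    · rw [abs_sub_comm]
      exact h0.trans hm1
    · exact h0.trans hm1
    · simp
  · refine nrm_dsp_cell hc p x y ?_
    have a : c.blk x = i := h
    have b : c.blk y = i := h'
    rw [a, b]

/-! ### LEAF L-FACE-CH3: cells in the chart -/

theorem ch3_A (m j i k x : ℤ) (h1 : m * j ≤ x) (h2 : x < m * j + m) (hk : k = i ∨ k = i + 1) :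
    |j - i| * m ≤ |x - k * m| + m := by
  have hm : 0 < m := by linarith
  have a1 := neg_le_abs (x - k * m)
  have a2 := le_abs_self (x - k * m)
  rcases lt_trichotomy j i with h | h | h
  · rw [abs_of_neg (by omega : j - i < 0)]
    rcases hk with rfl | rfl <;> nlinarith
  · rw [h, sub_self, abs_zero, zero_mul]
    have := abs_nonneg (x - k * m)
    linarith
  · rw [abs_of_pos (by omega : 0 < j - i)]
    rcases hk with rfl | rfl <;> nlinarith

theorem ch3_B (n a q : ℤ) (ha : |a| ≤ n) : min |a| (n - |a|) ≤ |a - n * q| := by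
  rcases eq_or_ne q 0 with rfl | hq
  · simp
  · have hn : 0 ≤ n := (abs_nonneg a).trans ha
    have h1 : n ≤ |n * q| := by
      rw [abs_mul, abs_of_nonneg hn]
      have : 1 ≤ |q| := Int.one_le_abs hq
      nlinarith
    have h2 := abs_sub_abs_le_abs_sub (n * q) a
    rw [abs_sub_comm] at h2
    exact (min_le_right _ _).trans (by linarith)

theorem ch3_idist1_per {c : Grid G} (hG : G.bc = BC.per) (a b : Fin c.n) :
    c.idist1 a b = min (((a : ℕ) : ℤ) - ((b : ℕ) : ℤ)).natAbs (c.n - (((a : ℕ) : ℤ) - ((b : ℕ) : ℤ)).natAbs) := by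
  unfold Grid.idist1
  rw [hG]

theorem ch3_idist1_free {c : Grid G} (hG : G.bc = BC.free) (a b : Fin c.n) :
    c.idist1 a b = (((a : ℕ) : ℤ) - ((b : ℕ) : ℤ)).natAbs := by
  unfold Grid.idist1
  rw [hG]

/-- one axis -/
theorem ch3_idist1 {c : Grid G} (hc : Whole c) (i : Fin c.n) (k : ℤ) (hk : k = ((i : ℕ) : ℤ) ∨ k = ((i : ℕ) : ℤ) + 1)
    (x : Fin G.M) : ((c.idist1 (c.blk1 x) i : ℕ) : ℤ) * c.m ≤ |dsp1 G (k * c.m) x| + c.m := by
  have hm : (0 : ℤ) < c.m := by exact_mod_cast hc.pos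
  have hj := whole_blk1 hc x
  have a1 := Nat.div_add_mod (x : ℕ) c.m
  have b1 := Nat.mod_lt (x : ℕ) hc.pos
  rw [← hj] at a1
  have h1 : (c.m : ℤ) * ((c.blk1 x : ℕ) : ℤ) ≤ ((x : ℕ) : ℤ) := by
    have : c.m * (c.blk1 x : ℕ) ≤ (x : ℕ) := by omega
    exact_mod_cast this
  have h2 : ((x : ℕ) : ℤ) < (c.m : ℤ) * ((c.blk1 x : ℕ) : ℤ) + c.m := by
    have : (x : ℕ) < c.m * (c.blk1 x : ℕ) + c.m := by omega
    exact_mod_cast this
  rcases hG : G.bc with _ | _
  · obtain ⟨q, hq, -, -⟩ := ch1_spec_per hG (k * c.m) x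
    have hM : (G.M : ℤ) = c.n * c.m := by exact_mod_cast whole_card hc
    have hA := ch3_A c.m (((c.blk1 x : ℕ) : ℤ) - c.n * q) ((i : ℕ) : ℤ) k (((x : ℕ) : ℤ) - G.M * q)
      (by rw [hM]; nlinarith) (by rw [hM]; nlinarith) hk
    have hlt1 := (c.blk1 x).2
    have hlt2 := i.2
    have hB := ch3_B c.n (((c.blk1 x : ℕ) : ℤ) - ((i : ℕ) : ℤ)) q (by rw [abs_le]; constructor <;> omega)
    have e : ((c.idist1 (c.blk1 x) i : ℕ) : ℤ) = min |((c.blk1 x : ℕ) : ℤ) - ((i : ℕ) : ℤ)|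
        (c.n - |((c.blk1 x : ℕ) : ℤ) - ((i : ℕ) : ℤ)|) := by
      rw [ch3_idist1_per hG, Int.abs_eq_natAbs]
      omega
    rw [e, hq]
    calc _ ≤ |((c.blk1 x : ℕ) : ℤ) - ((i : ℕ) : ℤ) - c.n * q| * c.m := mul_le_mul_of_nonneg_right hB hm.le
      _ = |((c.blk1 x : ℕ) : ℤ) - c.n * q - ((i : ℕ) : ℤ)| * c.m := by
          congr 2
          ring
      _ ≤ _ := hA
      _ = _ := by
          congr 2
          ring
  · have hA := ch3_A c.m ((c.blk1 x : ℕ) : ℤ) ((i : ℕ) : ℤ) k ((x : ℕ) : ℤ) h1 h2 hk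
    rw [ch3_idist1_free hG, ch1_free hG, ← Int.abs_eq_natAbs]
    exact hA

/-- the index distance is controlled by `rad`, for a base point at a corner `k s` of the cell `i` -/
theorem idist_le_rad {c : Grid G} (hc : Whole c) (i : c.I) (k : ℤ × ℤ)
    (hk : (k.1 = (i.1 : ℕ) ∨ k.1 = (i.1 : ℕ) + 1) ∧ (k.2 = (i.2 : ℕ) ∨ k.2 = (i.2 : ℕ) + 1)) (x : G.V) :
    (c.idist (c.blk x) i : ℝ) ≤ rad c (k.1 * c.m, k.2 * c.m) x + 1 := by
  have hm : (0 : ℝ) < c.m := by exact_mod_cast hc.pos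
  have h1 := ch3_idist1 hc i.1 k.1 hk.1 x.1
  have h2 := ch3_idist1 hc i.2 k.2 hk.2 x.2
  unfold rad
  rw [ch1_dsp_eq, ch2_nrm_cast, ← sub_le_iff_le_add, le_div_iff₀ hm]
  have h3 : ((c.idist (c.blk x) i : ℕ) : ℤ) * c.m ≤ max |dsp1 G (k.1 * c.m) x.1| |dsp1 G (k.2 * c.m) x.2| + c.m := by
    unfold Grid.idist
    rcases le_total (c.idist1 (c.blk x).1 i.1) (c.idist1 (c.blk x).2 i.2) with h | h
    · rw [max_eq_right h]
      exact h2.trans (add_le_add_left (le_max_right _ _) _)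
    · rw [max_eq_left h]
      exact h1.trans (add_le_add_left (le_max_left _ _) _)
  have h4 : ((c.idist (c.blk x) i : ℕ) : ℝ) * c.m
      ≤ ((max |dsp1 G (k.1 * c.m) x.1| |dsp1 G (k.2 * c.m) x.2| : ℤ) : ℝ) + c.m := by exact_mod_cast h3
  linarith

theorem ch3_idist1_self {c : Grid G} (a : Fin c.n) : c.idist1 a a = 0 := by
  rcases hG : G.bc with _ | _
  · rw [ch3_idist1_per hG]
    simp
  · rw [ch3_idist1_free hG]
    simp

theorem ch3_idist1_nx {c : Grid G} (a : Fin c.n) (h : G.bc = BC.per ∨ (a : ℕ) + 1 < c.n) : c.idist1 (nx a) a ≤ 1 := by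
  have ha := a.2
  rcases Nat.lt_or_ge ((a : ℕ) + 1) c.n with h1 | h1
  · have e : ((nx a : Fin c.n) : ℕ) = (a : ℕ) + 1 := Nat.mod_eq_of_lt h1
    rcases hG : G.bc with _ | _
    · rw [ch3_idist1_per hG, e]
      omega
    · rw [ch3_idist1_free hG, e]
      omega
  · have e1 : (a : ℕ) + 1 = c.n := by omega
    have e : ((nx a : Fin c.n) : ℕ) = 0 := by
      show ((a : ℕ) + 1) % c.n = 0
      rw [e1, Nat.mod_self]
    rcases h with hG | h
    · rw [ch3_idist1_per hG, e]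
      omega
    · omega

theorem idist_fnb {c : Grid G} (f : Face c) (hf : IsFace c f) : c.idist (fnb c f) f.1 ≤ 1 := by
  unfold Grid.idist fnb
  unfold IsFace at hf
  cases hd : f.2
  · simp only [hd, Bool.false_eq_true, if_false] at hf ⊢
    exact max_le (by rw [ch3_idist1_self]; exact Nat.zero_le _) (ch3_idist1_nx _ hf)
  · simp only [hd, if_true] at hf ⊢
    exact max_le (ch3_idist1_nx _ hf) (by rw [ch3_idist1_self]; exact Nat.zero_le _)

/-- every value of the index distance on one axis is taken at most twice -/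
theorem ch3_fibre (c : Grid G) (i : Fin c.n) (k : ℕ) : (Finset.univ.filter fun j : Fin c.n => c.idist1 i j = k).card ≤ 2 := by
  by_contra hcon
  obtain ⟨a, b, d, ha, hb, hd, hab, had, hbd⟩ := Finset.two_lt_card_iff.1 (not_le.1 hcon)
  have ha' := (Finset.mem_filter.1 ha).2
  have hb' := (Finset.mem_filter.1 hb).2
  have hd' := (Finset.mem_filter.1 hd).2
  have n1 : (a : ℕ) ≠ b := fun h => hab (Fin.ext h)
  have n2 : (a : ℕ) ≠ d := fun h => had (Fin.ext h)
  have n3 : (b : ℕ) ≠ d := fun h => hbd (Fin.ext h)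
  have l0 := i.2
  have l1 := a.2
  have l2 := b.2
  have l3 := d.2
  rcases hG : G.bc with _ | _
  · rw [ch3_idist1_per hG] at ha' hb' hd'
    omega
  · rw [ch3_idist1_free hG] at ha' hb' hd'
    omega

/-- a geometric sum along a function with fibres of at most two points -/
theorem ch3_geom {J : Type} [Fintype J] (d : J → ℕ) (hd : ∀ k, (Finset.univ.filter fun j => d j = k).card ≤ 2)
    (r : ℝ) (h0 : 0 ≤ r) (h1 : r < 1) : ∑ j, r ^ d j ≤ 2 / (1 - r) := by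
  classical
  rw [Finset.sum_comp (fun k => r ^ k) d]
  calc ∑ k ∈ Finset.univ.image d, (Finset.univ.filter fun j => d j = k).card • r ^ k
      ≤ ∑ k ∈ Finset.univ.image d, 2 * r ^ k := by
        refine Finset.sum_le_sum fun k _ => ?_
        rw [nsmul_eq_mul]
        refine mul_le_mul_of_nonneg_right ?_ (pow_nonneg h0 k)
        exact_mod_cast hd k
    _ = 2 * ∑ k ∈ Finset.univ.image d, r ^ k := by rw [Finset.mul_sum]
    _ ≤ 2 * ∑' k : ℕ, r ^ k := by
        refine mul_le_mul_of_nonneg_left ?_ (by norm_num)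
        exact (summable_geometric_of_lt_one h0 h1).sum_le_tsum _ fun k _ => pow_nonneg h0 k
    _ = 2 / (1 - r) := by rw [tsum_geometric_of_lt_one h0 h1, div_eq_mul_inv]

/-- `∑_j e^{-κ d(i,j)} ≤ (2 / (1 - e^{-κ/2}))²`: `max (p, q) ≥ (p + q)/2`, every value of `idist1` is taken at most twice -/
theorem sum_exp_idist (κ : ℝ) (hκ : 0 < κ) (c : Grid G) (i : c.I) :
    ∑ j : c.I, Real.exp (-κ * c.idist i j) ≤ (2 / (1 - Real.exp (-κ / 2))) ^ 2 := by
  have hr0 : 0 ≤ Real.exp (-κ / 2) := (Real.exp_pos _).le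
  have hr1 : Real.exp (-κ / 2) < 1 := by
    rw [Real.exp_lt_one_iff]
    linarith
  have h1 := ch3_geom (fun j => c.idist1 i.1 j) (ch3_fibre c i.1) _ hr0 hr1
  have h2 := ch3_geom (fun j => c.idist1 i.2 j) (ch3_fibre c i.2) _ hr0 hr1
  have h0 : 0 ≤ ∑ j : Fin c.n, Real.exp (-κ / 2) ^ c.idist1 i.2 j := Finset.sum_nonneg fun j _ => by positivity
  have h3 : 0 ≤ 2 / (1 - Real.exp (-κ / 2)) := div_nonneg (by norm_num) (by linarith)
  calc ∑ j : c.I, Real.exp (-κ * c.idist i j)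
      ≤ ∑ j : c.I, Real.exp (-κ / 2) ^ c.idist1 i.1 j.1 * Real.exp (-κ / 2) ^ c.idist1 i.2 j.2 := by
        refine Finset.sum_le_sum fun j _ => ?_
        rw [← Real.exp_nat_mul, ← Real.exp_nat_mul, ← Real.exp_add, Real.exp_le_exp]
        have a1 : (c.idist1 i.1 j.1 : ℝ) ≤ c.idist i j := by exact_mod_cast le_max_left _ _
        have a2 : (c.idist1 i.2 j.2 : ℝ) ≤ c.idist i j := by exact_mod_cast le_max_right _ _
        nlinarith
    _ = (∑ j : Fin c.n, Real.exp (-κ / 2) ^ c.idist1 i.1 j) * ∑ j : Fin c.n, Real.exp (-κ / 2) ^ c.idist1 i.2 j := by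
        rw [Fintype.sum_prod_type, Finset.sum_mul_sum]
    _ ≤ (2 / (1 - Real.exp (-κ / 2))) * (2 / (1 - Real.exp (-κ / 2))) := mul_le_mul h1 h2 h0 h3
    _ = _ := by ring

/-!
## ROW 285, PK-FACE, part JUNCTION: junctions, masks, the chart of a full junction      (architect helper251)

A junction is a lattice point `P = (k₁ s, k₂ s)`; in the chart `dsp G P` it is the plaquette `{-1,0}²`.  The direction `β` (`0,1,2,3` = E, N, W, S) is OPEN at `P` if the first bond crossing the ray `β`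
is a retained bond (`jopen`); all bonds crossing this ray at distance `< s` cross the same face, so they are retained or cut together.
`jmask T P = none` iff all four directions are open (= full junction), otherwise `some` of the first closed direction.
The junction with lower left cell `z` is `jpt c z`; the ends of the face `f` are `fbase c f` (first: W resp. S end) and `jpt c f.1` (second: E resp. N end).
Everything is integer arithmetic: `whole_blk1` (`blk1 t = t / s`), `whole_card` (`M = n s`), `Nat.div_eq_iff`, `omega`/`nlinarith`; treat `BC.per` and `BC.free` separately.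
-/

/-- cyclic predecessor -/
def pv {n : ℕ} (i : Fin n) : Fin n := ⟨(i.1 + n - 1) % n, Nat.mod_lt _ i.pos⟩

/-- the first end of a face (W end of a horizontal segment `f.2 = false`, S end of a vertical segment `f.2 = true`) -/
def fbase (c : Grid G) (f : Face c) : ℤ × ℤ :=
  if f.2 then ((((f.1.1 : ℕ) + 1 : ℕ) : ℤ) * c.m, ((f.1.2 : ℕ) : ℤ) * c.m) else (((f.1.1 : ℕ) : ℤ) * c.m, (((f.1.2 : ℕ) + 1 : ℕ) : ℤ) * c.m)

/-- the junction whose lower left cell is `z` -/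
def jpt (c : Grid G) (z : c.I) : ℤ × ℤ := ((((z.1 : ℕ) + 1 : ℕ) : ℤ) * c.m, (((z.2 : ℕ) + 1 : ℕ) : ℤ) * c.m)

/-- the lower left cell of the first end -/
def fpre (c : Grid G) (f : Face c) : c.I := if f.2 then (f.1.1, pv f.1.2) else (pv f.1.1, f.1.2)

/-- the source of the first bond crossing the ray `β` -/
def off : Fin 4 → ℤ × ℤ := ![(0, -1), (-1, 0), (-1, -1), (-1, -1)]

/-- its direction -/
def db : Fin 4 → Bool := ![false, true, false, true]

/-- the direction `β` is open at the junction `P` -/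
def jopen {c : Grid G} (T : Top c) (P : ℤ × ℤ) (β : Fin 4) : Prop :=
  inr G (P + off β) ∧ inr G (P + off β + bdir (db β)) ∧ T.IsEdge (G.π (P + off β), db β)

open Classical in
/-- the mask of a junction -/
def jmask {c : Grid G} (T : Top c) (P : ℤ × ℤ) : Option (Fin 4) :=
  if ¬ jopen T P 0 then some 0 else if ¬ jopen T P 1 then some 1 else if ¬ jopen T P 2 then some 2
  else if ¬ jopen T P 3 then some 3 else none

/-! ### LEAF L-FACE-J1: faces and junction indices -/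

theorem fbase_add (c : Grid G) (f : Face c) : fbase c f + P2 c.m f.2 = jpt c f.1 := by
  obtain ⟨z, t⟩ := f
  cases t
  · simp only [fbase, P2, jpt, Bool.false_eq_true, if_false]
    apply Prod.ext
    · simp only [Prod.fst_add]
      push_cast
      ring
    · simp only [Prod.snd_add]
      push_cast
      ring
  · simp only [fbase, P2, jpt, if_true]
    apply Prod.ext
    · simp only [Prod.fst_add]
      push_cast
      ring
    · simp only [Prod.snd_add]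
      push_cast
      ring

theorem j1_nx_iff {n : ℕ} (a b : Fin n) : nx a = b ↔ a = pv b := by
  have ha := a.2
  have hb := b.2
  constructor
  · intro h
    have h1 : ((a : ℕ) + 1) % n = b := by
      have := congrArg Fin.val h
      simpa [nx] using this
    apply Fin.ext
    show (a : ℕ) = ((b : ℕ) + n - 1) % n
    rcases Nat.lt_or_ge ((a : ℕ) + 1) n with h2 | h2
    · rw [Nat.mod_eq_of_lt h2] at h1
      have e : (b : ℕ) + n - 1 = (a : ℕ) + n := by omega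
      rw [e, Nat.add_mod_right, Nat.mod_eq_of_lt ha]
    · have e : (a : ℕ) + 1 = n := by omega
      rw [e, Nat.mod_self] at h1
      have e2 : (b : ℕ) + n - 1 = (a : ℕ) := by omega
      rw [e2, Nat.mod_eq_of_lt ha]
  · intro h
    have h1 : (a : ℕ) = ((b : ℕ) + n - 1) % n := by
      have := congrArg Fin.val h
      simpa [pv] using this
    apply Fin.ext
    show ((a : ℕ) + 1) % n = (b : ℕ)
    rcases Nat.eq_zero_or_pos (b : ℕ) with h2 | h2
    · have e : (b : ℕ) + n - 1 = n - 1 := by omega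
      rw [e, Nat.mod_eq_of_lt (by omega)] at h1
      have e2 : (a : ℕ) + 1 = n := by omega
      rw [e2, Nat.mod_self, h2]
    · have e : (b : ℕ) + n - 1 = ((b : ℕ) - 1) + n := by omega
      rw [e, Nat.add_mod_right, Nat.mod_eq_of_lt (by omega)] at h1
      have e2 : (a : ℕ) + 1 = b := by omega
      rw [e2, Nat.mod_eq_of_lt hb]

theorem j1_pv_ne {n : ℕ} (hn : 2 ≤ n) (b : Fin n) : pv b ≠ b := by
  intro h
  have hb := b.2
  have h1 : ((b : ℕ) + n - 1) % n = b := by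
    have := congrArg Fin.val h
    simpa [pv] using this
  rcases Nat.eq_zero_or_pos (b : ℕ) with h2 | h2
  · have e : (b : ℕ) + n - 1 = n - 1 := by omega
    rw [e, Nat.mod_eq_of_lt (by omega)] at h1
    omega
  · have e : (b : ℕ) + n - 1 = ((b : ℕ) - 1) + n := by omega
    rw [e, Nat.add_mod_right, Nat.mod_eq_of_lt (by omega)] at h1
    omega

open Classical in
/-- the two ends of a face in `σ` -/
theorem sig_single (c : Grid G) (hn : 2 ≤ c.n) (z : c.I) (f : Face c) :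
    sig c z (Pi.single f 1) = sg f.2 * ((if z = fpre c f then 1 else 0) - (if z = f.1 then 1 else 0)) := by
  obtain ⟨⟨a, b⟩, t⟩ := f
  obtain ⟨z1, z2⟩ := z
  have hpa := j1_pv_ne hn a
  have hpb := j1_pv_ne hn b
  cases t
  · simp only [sig, fnb, sg, fpre, Pi.single_apply, Prod.mk.injEq, Bool.false_eq_true, if_false, if_true, and_false, and_true,
      Bool.true_eq_false, j1_nx_iff]
    ring
  · simp only [sig, fnb, sg, fpre, Pi.single_apply, Prod.mk.injEq, Bool.false_eq_true, if_false, if_true, and_false, and_true,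
      Bool.true_eq_false, j1_nx_iff]
    ring

theorem fpre_ne (c : Grid G) (hn : 2 ≤ c.n) (f : Face c) : fpre c f ≠ f.1 := by
  obtain ⟨⟨a, b⟩, t⟩ := f
  have hpa := j1_pv_ne hn a
  have hpb := j1_pv_ne hn b
  cases t
  · simp only [fpre, Bool.false_eq_true, if_false]
    intro h
    exact hpa (congrArg Prod.fst h)
  · simp only [fpre, if_true]
    intro h
    exact hpb (congrArg Prod.snd h)

theorem j1_blk_iff {c : Grid G} (hc : Whole c) (a : Fin c.n) (i : Fin G.M) :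
    c.blk1 i = a ↔ (a : ℕ) * c.m ≤ (i : ℕ) ∧ (i : ℕ) < ((a : ℕ) + 1) * c.m := by
  have h := whole_blk1 hc i
  have hm := hc.pos
  constructor
  · intro e
    rw [e] at h
    have h1 := (Nat.div_eq_iff hm).1 h.symm
    refine ⟨h1.1, ?_⟩
    have : ((a : ℕ) + 1) * c.m = (a : ℕ) * c.m + c.m := by ring
    omega
  · rintro ⟨h1, h2⟩
    apply Fin.ext
    rw [h]
    exact Nat.div_eq_of_lt_le h1 h2

theorem j1_in_aux (p m : ℤ) (i : Fin G.M) (h0 : 0 ≤ p) (h1 : p + m ≤ G.M) (h3 : 2 * m ≤ G.M) :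
    (0 ≤ dsp1 G p i ∧ dsp1 G p i < m) ↔ (p ≤ ((i : ℕ) : ℤ) ∧ ((i : ℕ) : ℤ) < p + m) := by
  have hi := i.2
  have hiz : ((i : ℕ) : ℤ) < G.M := by exact_mod_cast hi
  have hi0 : (0 : ℤ) ≤ ((i : ℕ) : ℤ) := by positivity
  rcases hG : G.bc with _ | _
  · constructor
    · rintro ⟨h, h'⟩
      obtain ⟨k, hk, -, -⟩ := ch1_spec_per hG p i
      have hk0 : k = 0 := by
        rcases lt_trichotomy k 0 with hk1 | hk1 | hk1
        · exfalso
          have : (G.M : ℤ) * k ≤ (G.M : ℤ) * (-1) := mul_le_mul_of_nonneg_left (by omega) (by omega)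
          omega
        · exact hk1
        · exfalso
          have : (G.M : ℤ) * 1 ≤ (G.M : ℤ) * k := mul_le_mul_of_nonneg_left (by omega) (by omega)
          omega
      rw [hk0] at hk
      omega
    · rintro ⟨h, h'⟩
      rw [ch1_uniq_per hG p i (((i : ℕ) : ℤ) - p) 0 (by ring) (by omega) (by omega)]
      omega
  · rw [ch1_free hG]
    omega

theorem j1_edge_aux (q : ℤ) (i : Fin G.M) (h0 : 1 ≤ q) (h1 : q ≤ G.M) (h3 : 2 ≤ (G.M : ℤ)) :
    dsp1 G q i = -1 ↔ ((i : ℕ) : ℤ) + 1 = q := by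
  have hi := i.2
  have hiz : ((i : ℕ) : ℤ) < G.M := by exact_mod_cast hi
  have hi0 : (0 : ℤ) ≤ ((i : ℕ) : ℤ) := by positivity
  rcases hG : G.bc with _ | _
  · constructor
    · intro h
      obtain ⟨k, hk, -, -⟩ := ch1_spec_per hG q i
      have hk0 : k = 0 := by
        rcases lt_trichotomy k 0 with hk1 | hk1 | hk1
        · exfalso
          have : (G.M : ℤ) * k ≤ (G.M : ℤ) * (-1) := mul_le_mul_of_nonneg_left (by omega) (by omega)
          omega
        · exact hk1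
        · exfalso
          have : (G.M : ℤ) * 1 ≤ (G.M : ℤ) * k := mul_le_mul_of_nonneg_left (by omega) (by omega)
          omega
      rw [hk0] at hk
      omega
    · intro h
      exact ch1_uniq_per hG q i (-1) 0 (by rw [← h]; ring) (by omega) (by omega)
  · rw [ch1_free hG]
    omega

theorem j1_facts {c : Grid G} (hc : Whole c) (hn : 3 ≤ c.n) (a : Fin c.n) :
    (0 : ℤ) < c.m ∧ 3 * (c.m : ℤ) ≤ G.M ∧ (0 : ℤ) ≤ ((a : ℕ) : ℤ) * c.m ∧ ((a : ℕ) : ℤ) * c.m + c.m ≤ G.M := by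
  have hM := whole_card hc
  have hm := hc.pos
  have ha := a.2
  have hMz : (G.M : ℤ) = (c.n : ℤ) * c.m := by exact_mod_cast hM
  have hmz : (0 : ℤ) < c.m := by exact_mod_cast hm
  refine ⟨hmz, ?_, by positivity, ?_⟩
  · rw [hMz]
    have : (3 : ℤ) ≤ c.n := by exact_mod_cast hn
    nlinarith
  · rw [hMz]
    have : ((a : ℕ) : ℤ) + 1 ≤ c.n := by exact_mod_cast ha
    nlinarith

theorem j1_in {c : Grid G} (hc : Whole c) (hn : 3 ≤ c.n) (a : Fin c.n) (i : Fin G.M) :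
    (0 ≤ dsp1 G (((a : ℕ) : ℤ) * c.m) i ∧ dsp1 G (((a : ℕ) : ℤ) * c.m) i < c.m) ↔ c.blk1 i = a := by
  obtain ⟨f1, f2, f3, f4⟩ := j1_facts hc hn a
  rw [j1_blk_iff hc, j1_in_aux _ _ i f3 f4 (by omega)]
  have e1 : ((a : ℕ) + 1) * c.m = (a : ℕ) * c.m + c.m := by ring
  rw [e1]
  constructor
  · rintro ⟨h1, h2⟩
    exact ⟨by exact_mod_cast h1, by exact_mod_cast h2⟩
  · rintro ⟨h1, h2⟩
    exact ⟨by exact_mod_cast h1, by exact_mod_cast h2⟩

theorem j1_edge {c : Grid G} (hc : Whole c) (hn : 3 ≤ c.n) (a : Fin c.n) (i : Fin G.M) :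
    dsp1 G ((((a : ℕ) + 1 : ℕ) : ℤ) * c.m) i = -1 ↔ (i : ℕ) + 1 = (a : ℕ) * c.m + c.m := by
  obtain ⟨f1, f2, f3, f4⟩ := j1_facts hc hn a
  have e1 : (((a : ℕ) + 1 : ℕ) : ℤ) * c.m = ((a : ℕ) : ℤ) * c.m + c.m := by push_cast; ring
  rw [e1, j1_edge_aux _ i (by omega) f4 (by omega)]
  constructor
  · intro h
    exact_mod_cast h
  · intro h
    exact_mod_cast h

/-- crossing in one coordinate -/
theorem j1_cross {c : Grid G} (hc : Whole c) (a : Fin c.n) (i j : Fin G.M) (hj : (j : ℕ) = ((i : ℕ) + 1) % G.M) :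
    (c.blk1 j ≠ c.blk1 i ∧ c.blk1 i = a) ↔ (i : ℕ) + 1 = (a : ℕ) * c.m + c.m := by
  have hM := whole_card hc
  have hm := hc.pos
  have ha := a.2
  have hi := i.2
  have h2 := hc.two
  have e1 : ((a : ℕ) + 1) * c.m = (a : ℕ) * c.m + c.m := by ring
  have hle : (a : ℕ) * c.m + c.m ≤ G.M := by
    rw [hM, ← e1]
    exact Nat.mul_le_mul_right _ ha
  constructor
  · rintro ⟨h, h'⟩
    have h3 := (j1_blk_iff hc a i).1 h'
    rw [e1] at h3
    by_contra hne
    apply h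
    rw [h', j1_blk_iff hc a j, e1, hj, Nat.mod_eq_of_lt (by omega)]
    omega
  · intro h
    have h' : c.blk1 i = a := by
      rw [j1_blk_iff hc a i, e1]
      omega
    refine ⟨?_, h'⟩
    rw [h']
    intro h4
    have h5 := (j1_blk_iff hc a j).1 h4
    rw [e1, hj, h] at h5
    rcases Nat.lt_or_ge ((a : ℕ) * c.m + c.m) G.M with h6 | h6
    · rw [Nat.mod_eq_of_lt h6] at h5
      omega
    · have h7 : (a : ℕ) * c.m + c.m = G.M := by omega
      rw [h7, Nat.mod_self] at h5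
      have h8 : (a : ℕ) * c.m = 0 := by omega
      have h9 : c.m = c.n * c.m := by omega
      have : 2 * c.m ≤ c.n * c.m := Nat.mul_le_mul_right _ h2
      omega

theorem j1_stp (v : G.V) :
    (stp v true ≠ v → ((stp v true).1 : ℕ) = ((v.1 : ℕ) + 1) % G.M ∧ (stp v true).2 = v.2) ∧
    (stp v false ≠ v → ((stp v false).2 : ℕ) = ((v.2 : ℕ) + 1) % G.M ∧ (stp v false).1 = v.1) := by
  rcases hG : G.bc with _ | _
  · obtain ⟨h1, h2, h3, h4⟩ := stp_per hG v
    exact ⟨fun _ => ⟨h1, h2⟩, fun _ => ⟨h3, h4⟩⟩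
  · obtain ⟨h1, h2, h3, h4⟩ := stp_free hG v
    constructor
    · intro h
      have hlt : (v.1 : ℕ) + 1 < G.M := by
        rcases Nat.lt_or_ge ((v.1 : ℕ) + 1) G.M with hh | hh
        · exact hh
        · exact absurd (h2 (by have := v.1.2; omega)) h
      rw [Nat.mod_eq_of_lt hlt]
      exact h1 hlt
    · intro h
      have hlt : (v.2 : ℕ) + 1 < G.M := by
        rcases Nat.lt_or_ge ((v.2 : ℕ) + 1) G.M with hh | hh
        · exact hh
        · exact absurd (h4 (by have := v.2.2; omega)) h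
      rw [Nat.mod_eq_of_lt hlt]
      exact h3 hlt

/-- the crossing bonds of a face in its chart -/
theorem dpl_chart {c : Grid G} (hc : Whole c) (hn : 3 ≤ c.n) (f : Face c) (e : G.V × Bool) (he : stp e.1 e.2 ≠ e.1) :
    (c.blk (stp e.1 e.2) ≠ c.blk e.1 ∧ (c.blk e.1, e.2) = f) ↔ dpl c.m f.2 (dsp G (fbase c f) e.1) e.2 = 1 := by
  obtain ⟨⟨a, b⟩, t⟩ := f
  obtain ⟨v, d⟩ := e
  have hd : ∀ P : Prop, [Decidable P] → ((if P then (1 : ℝ) else 0) = 1 ↔ P) := by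
    intro P _
    by_cases hP : P
    · simp [hP]
    · simp [hP]
  unfold dpl
  rw [hd, ch1_dsp_eq]
  simp only at he ⊢
  obtain ⟨s1, s2⟩ := j1_stp v
  cases t
  · cases d
    · obtain ⟨g1, g2⟩ := s2 he
      simp only [fbase, Bool.false_eq_true, if_false, true_and, Grid.blk, Prod.mk.injEq, and_true, g2]
      rw [j1_in hc hn, j1_edge hc hn, ← j1_cross hc b v.2 _ g1]
      constructor
      · rintro ⟨h1, h2, h3⟩
        exact ⟨⟨fun h => h1 (by rw [h]), h3⟩, h2⟩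
      · rintro ⟨⟨h1, h3⟩, h2⟩
        exact ⟨fun h => h1 (congrArg Prod.snd h), h2, h3⟩
    · simp
  · cases d
    · simp
    · obtain ⟨g1, g2⟩ := s1 he
      simp only [fbase, if_true, true_and, Grid.blk, Prod.mk.injEq, and_true, g2]
      rw [j1_in hc hn, j1_edge hc hn, ← j1_cross hc a v.1 _ g1]
      constructor
      · rintro ⟨h1, h2, h3⟩
        exact ⟨⟨fun h => h1 (by rw [h]), h2⟩, h3⟩
      · rintro ⟨⟨h1, h3⟩, h2⟩
        exact ⟨fun h => h1 (congrArg Prod.fst h), h3, h2⟩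

open Classical in
/-- consequently the datum of a face is `dpl` in its chart -/
theorem dc_chart {c : Grid G} (hc : Whole c) (hn : 3 ≤ c.n) (T : Top c) (a : ℝ) (f : Face c) (e : G.V × Bool) :
    T.dc a (Pi.single f 1) (Sum.inl e) = if T.IsEdge e then (Real.sqrt a)⁻¹ * dpl c.m f.2 (dsp G (fbase c f) e.1) e.2 else 0 := by
  simp only [Top.dc]
  by_cases hE : T.IsEdge e
  · have h := dpl_chart hc hn f e hE.1
    rw [if_pos hE]
    by_cases hx : c.blk (stp e.1 e.2) ≠ c.blk e.1 ∧ (c.blk e.1, e.2) = f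
    · rw [if_pos ⟨hE, hx.1⟩, h.1 hx, hx.2, Pi.single_eq_same]
    · have h0 : dpl c.m f.2 (dsp G (fbase c f) e.1) e.2 = 0 := by
        have h1 : dpl c.m f.2 (dsp G (fbase c f) e.1) e.2 ≠ 1 := fun h2 => hx (h.2 h2)
        unfold dpl at h1 ⊢
        by_cases h3 : e.2 = f.2 ∧ (if f.2 = true then (dsp G (fbase c f) e.1).1 = -1 ∧ 0 ≤ (dsp G (fbase c f) e.1).2 ∧ (dsp G (fbase c f) e.1).2 < c.m
            else (dsp G (fbase c f) e.1).2 = -1 ∧ 0 ≤ (dsp G (fbase c f) e.1).1 ∧ (dsp G (fbase c f) e.1).1 < c.m)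
        · rw [if_pos h3] at h1
          exact absurd rfl h1
        · rw [if_neg h3]
      rw [h0, mul_zero]
      by_cases hy : c.blk (stp e.1 e.2) ≠ c.blk e.1
      · rw [if_pos ⟨hE, hy⟩, Pi.single_eq_of_ne (fun h2 => hx ⟨hy, h2⟩), mul_zero]
      · rw [if_neg (fun h2 => hy h2.2)]
  · rw [if_neg hE, if_neg (fun h => hE h.1)]

/-! ### LEAF L-FACE-J2: masks -/

/-- one coordinate of `inr` -/
def inr1 (G : Geom) (t : ℤ) : Prop := G.bc = BC.per ∨ (0 ≤ t ∧ t < G.M)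

theorem j2_inr_iff (y : ℤ × ℤ) : inr G y ↔ inr1 G y.1 ∧ inr1 G y.2 := by
  unfold inr inr1
  constructor
  · rintro (h | h)
    · exact ⟨Or.inl h, Or.inl h⟩
    · exact ⟨Or.inr ⟨h.1, h.2.1⟩, Or.inr ⟨h.2.2.1, h.2.2.2⟩⟩
  · rintro ⟨h1 | h1, h2⟩
    · exact Or.inl h1
    · rcases h2 with h2 | h2
      · exact Or.inl h2
      · exact Or.inr ⟨h1.1, h1.2, h2.1, h2.2⟩

/-- range of the cell index -/
theorem j2_cell_range {s n k r : ℤ} (hs : 0 < s) (hr0 : 0 ≤ r) (hr1 : r < s) (h0 : 0 ≤ k * s + r) (h1 : k * s + r < n * s) : 0 ≤ k ∧ k < n := by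
  constructor
  · by_contra hk
    have : k + 1 ≤ 0 := by omega
    nlinarith
  · by_contra hk
    have : n ≤ k := by omega
    nlinarith

/-- all points of a cell are in range together -/
theorem j2_inr1_cell {c : Grid G} (hc : Whole c) {k r r' : ℤ} (hr0 : 0 ≤ r) (hr1 : r < c.m) (hr0' : 0 ≤ r') (hr1' : r' < c.m)
    (h : inr1 G (k * c.m + r)) : inr1 G (k * c.m + r') := by
  rcases h with h | h
  · exact Or.inl h
  · right
    have hM : (G.M : ℤ) = c.n * c.m := by exact_mod_cast whole_card hc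
    have hs : (0 : ℤ) < c.m := by exact_mod_cast hc.pos
    rw [hM] at h ⊢
    obtain ⟨k0, k1⟩ := j2_cell_range hs hr0 hr1 h.1 h.2
    constructor
    · positivity
    · have : k + 1 ≤ c.n := by omega
      nlinarith

/-- the cell of a lattice coordinate -/
theorem j2_blk1 {c : Grid G} (hc : Whole c) {k r : ℤ} (hr0 : 0 ≤ r) (hr1 : r < c.m) (h : inr1 G (k * c.m + r)) :
    (((c.blk1 (G.fold (k * c.m + r)) : Fin c.n) : ℕ) : ℤ) = k % c.n := by
  have hM : (G.M : ℤ) = c.n * c.m := by exact_mod_cast whole_card hc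
  have hs : (0 : ℤ) < c.m := by exact_mod_cast hc.pos
  have hn : (0 : ℤ) < c.n := by have := hc.two; omega
  have key : ((G.fold (k * c.m + r) : ℕ) : ℤ) = (k % c.n) * c.m + r := by
    rcases hG : G.bc with _ | _
    · rw [fold_per_val hG, hM]
      have b0 := Int.emod_nonneg k hn.ne'
      have b1 := Int.emod_lt_of_pos k hn
      have e : k * c.m + r = ((k % c.n) * c.m + r) + (c.n * c.m) * (k / c.n) := by
        have := Int.emod_add_mul_ediv k c.n
        calc k * c.m + r = (k % c.n + c.n * (k / c.n)) * c.m + r := by rw [this]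
          _ = _ := by ring
      rw [e, Int.add_mul_emod_self_left]
      apply Int.emod_eq_of_lt
      · positivity
      · have : k % c.n + 1 ≤ c.n := by omega
        nlinarith
    · rcases h with h | h
      · rw [hG] at h
        cases h
      · rw [ch1_fold_in _ h.1 h.2]
        rw [hM] at h
        obtain ⟨k0, k1⟩ := j2_cell_range hs hr0 hr1 h.1 h.2
        rw [Int.emod_eq_of_lt k0 k1]
  rw [whole_blk1 hc]
  push_cast
  rw [key]
  have b0 := Int.emod_nonneg k hn.ne'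
  rw [add_comm, Int.add_mul_ediv_right _ _ hs.ne', Int.ediv_eq_zero_of_lt hr0 hr1, zero_add]

theorem j2_nx_val {n : ℕ} (i : Fin n) : (((nx i : Fin n) : ℕ) : ℤ) = (((i : ℕ) : ℤ) + 1) % n := by
  simp only [nx]
  push_cast
  rfl

theorem j2_pv_val {n : ℕ} (i : Fin n) : (((pv i : Fin n) : ℕ) : ℤ) = (((i : ℕ) : ℤ) - 1) % n := by
  have hn := i.pos
  simp only [pv]
  have h1 : (((i : ℕ) + n - 1 : ℕ) : ℤ) = ((i : ℕ) : ℤ) - 1 + n := by omega
  push_cast
  rw [h1, Int.add_emod_right]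

/-- the cell of a coordinate near the junction line `K s`; `z` = the cell index below the line -/
theorem j2_blk1_at {c : Grid G} (hc : Whole c) {K X : ℤ} {z : Fin c.n} (hz : ((z : ℕ) : ℤ) = (K - 1) % c.n) (hX0 : -(c.m : ℤ) ≤ X) (hX1 : X < c.m)
    (h : inr1 G (K * c.m + X)) : c.blk1 (G.fold (K * c.m + X)) = if X < 0 then z else nx z := by
  apply Fin.ext
  have : ∀ a b : ℕ, (a : ℤ) = b → a = b := fun a b h => by exact_mod_cast h
  apply this
  split_ifs with hX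
  · have e : K * c.m + X = (K - 1) * c.m + (c.m + X) := by ring
    rw [e] at h ⊢
    rw [j2_blk1 hc (by omega) (by omega) h, hz]
  · rw [j2_blk1 hc (by omega) hX1 h, j2_nx_val, hz, Int.emod_add_emod]
    congr 1
    ring

theorem j2_inr1_at {c : Grid G} (hc : Whole c) {K X X' : ℤ} (hX0 : -(c.m : ℤ) ≤ X) (hX1 : X < c.m) (hX0' : -(c.m : ℤ) ≤ X') (hX1' : X' < c.m)
    (hs : X < 0 ↔ X' < 0) (h : inr1 G (K * c.m + X)) : inr1 G (K * c.m + X') := by
  by_cases hX : X < 0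
  · have hX' := hs.1 hX
    have e : K * c.m + X = (K - 1) * c.m + (c.m + X) := by ring
    have e' : K * c.m + X' = (K - 1) * c.m + (c.m + X') := by ring
    rw [e] at h
    rw [e']
    exact j2_inr1_cell hc (by omega) (by omega) (by omega) (by omega) h
  · have hX' : ¬ X' < 0 := fun h => hX (hs.2 h)
    exact j2_inr1_cell hc (by omega) hX1 (by omega) hX1' h

theorem j2_nx_ne {n : ℕ} (hn : 2 ≤ n) (i : Fin n) : nx i ≠ i := by
  intro h
  have h1 := congrArg Fin.val h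
  simp only [nx] at h1
  have h2 := i.2
  rcases Nat.lt_or_ge (i.1 + 1) n with h3 | h3
  · rw [Nat.mod_eq_of_lt h3] at h1
    omega
  · have : i.1 + 1 = n := by omega
    rw [this, Nat.mod_self] at h1
    omega

/-- a bond from the cell `i` to the cell `fnb c (i, d)` is retained iff the face is -/
theorem j2_edge_iff {c : Grid G} (hc : Whole c) (T : Top c) (hT : T.Ok) (y : ℤ × ℤ) (d : Bool) (h : inr G y) (h' : inr G (y + bdir d)) (i : c.I)
    (hi : c.blk (G.π y) = i) (hj : c.blk (G.π (y + bdir d)) = fnb c (i, d)) : T.IsEdge (G.π y, d) ↔ (i, d) ∈ T.faces := by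
  have hM : 2 ≤ G.M := by
    rw [whole_card hc]
    have := hc.two
    have := hc.pos
    nlinarith
  obtain ⟨e1, e2⟩ := stp_pi y d h h' hM
  have hne : fnb c (i, d) ≠ i := by
    unfold fnb
    cases d
    · simp only [Bool.false_eq_true, if_false]
      intro hcon
      exact j2_nx_ne hc.two i.2 (congrArg Prod.snd hcon)
    · simp only [if_true]
      intro hcon
      exact j2_nx_ne hc.two i.1 (congrArg Prod.fst hcon)
  unfold Top.IsEdge
  simp only
  rw [e1, hi, hj]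
  constructor
  · rintro ⟨-, -, -, h4 | h4⟩
    · exact absurd h4 hne
    · exact h4
  · intro hf
    obtain ⟨-, h2, h3⟩ := hT _ hf
    refine ⟨?_, h2, h3, Or.inr hf⟩
    rw [← e1]
    exact e2

/-- bonds crossing the horizontal line through the junction `K s` -/
theorem j2_V {c : Grid G} (hc : Whole c) (T : Top c) (hT : T.Ok) (K : ℤ × ℤ) (z : c.I) (hz1 : ((z.1 : ℕ) : ℤ) = (K.1 - 1) % c.n)
    (hz2 : ((z.2 : ℕ) : ℤ) = (K.2 - 1) % c.n) (X : ℤ) (hX0 : -(c.m : ℤ) ≤ X) (hX1 : X < c.m)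
    (h : inr G (K.1 * c.m + X, K.2 * c.m + -1)) (h' : inr G (K.1 * c.m + X, K.2 * c.m + 0)) :
    T.IsEdge (G.π (K.1 * c.m + X, K.2 * c.m + -1), false) ↔ ((if X < 0 then z.1 else nx z.1, z.2), false) ∈ T.faces := by
  have hs : (0 : ℤ) < c.m := by exact_mod_cast hc.pos
  have e : ((K.1 * c.m + X, K.2 * c.m + -1) : ℤ × ℤ) + bdir false = (K.1 * c.m + X, K.2 * c.m + 0) := by
    refine Prod.ext ?_ ?_ <;> simp [bdir]
  have a := (j2_inr_iff _).1 h
  have a' := (j2_inr_iff _).1 h'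
  refine j2_edge_iff hc T hT _ false h (by rw [e]; exact h') _ ?_ ?_
  · refine Prod.ext ?_ ?_
    · exact j2_blk1_at hc hz1 hX0 hX1 a.1
    · have := j2_blk1_at hc hz2 (by omega) (by omega) a.2
      simpa [Grid.blk, Geom.π] using this
  · rw [e]
    refine Prod.ext ?_ ?_
    · simpa [fnb, Grid.blk, Geom.π] using j2_blk1_at hc hz1 hX0 hX1 a'.1
    · have := j2_blk1_at hc hz2 (by omega) hs a'.2
      simpa [fnb, Grid.blk, Geom.π] using this

/-- bonds crossing the vertical line through the junction `K s` -/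
theorem j2_H {c : Grid G} (hc : Whole c) (T : Top c) (hT : T.Ok) (K : ℤ × ℤ) (z : c.I) (hz1 : ((z.1 : ℕ) : ℤ) = (K.1 - 1) % c.n)
    (hz2 : ((z.2 : ℕ) : ℤ) = (K.2 - 1) % c.n) (X : ℤ) (hX0 : -(c.m : ℤ) ≤ X) (hX1 : X < c.m)
    (h : inr G (K.1 * c.m + -1, K.2 * c.m + X)) (h' : inr G (K.1 * c.m + 0, K.2 * c.m + X)) :
    T.IsEdge (G.π (K.1 * c.m + -1, K.2 * c.m + X), true) ↔ ((z.1, if X < 0 then z.2 else nx z.2), true) ∈ T.faces := by
  have hs : (0 : ℤ) < c.m := by exact_mod_cast hc.pos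
  have e : ((K.1 * c.m + -1, K.2 * c.m + X) : ℤ × ℤ) + bdir true = (K.1 * c.m + 0, K.2 * c.m + X) := by
    refine Prod.ext ?_ ?_ <;> simp [bdir]
  have a := (j2_inr_iff _).1 h
  have a' := (j2_inr_iff _).1 h'
  refine j2_edge_iff hc T hT _ true h (by rw [e]; exact h') _ ?_ ?_
  · refine Prod.ext ?_ ?_
    · have := j2_blk1_at hc hz1 (by omega) (by omega) a.1
      simpa [Grid.blk, Geom.π] using this
    · exact j2_blk1_at hc hz2 hX0 hX1 a.2
  · rw [e]
    refine Prod.ext ?_ ?_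
    · have := j2_blk1_at hc hz1 (by omega) hs a'.1
      simpa [fnb, Grid.blk, Geom.π] using this
    · simpa [fnb, Grid.blk, Geom.π] using j2_blk1_at hc hz2 hX0 hX1 a'.2

/-- the four directions, in coordinates -/
theorem j2_open0 {c : Grid G} (T : Top c) (P : ℤ × ℤ) :
    jopen T P 0 ↔ inr G (P.1 + 0, P.2 + -1) ∧ inr G (P.1 + 0, P.2 + 0) ∧ T.IsEdge (G.π (P.1 + 0, P.2 + -1), false) := by
  have e1 : P + off 0 = (P.1 + 0, P.2 + -1) := by
    refine Prod.ext ?_ ?_ <;> simp [off]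
  have e2 : P + off 0 + bdir (db 0) = (P.1 + 0, P.2 + 0) := by
    refine Prod.ext ?_ ?_ <;> simp [off, db, bdir]
  unfold jopen
  rw [e2, e1]
  rfl

theorem j2_open1 {c : Grid G} (T : Top c) (P : ℤ × ℤ) :
    jopen T P 1 ↔ inr G (P.1 + -1, P.2 + 0) ∧ inr G (P.1 + 0, P.2 + 0) ∧ T.IsEdge (G.π (P.1 + -1, P.2 + 0), true) := by
  have e1 : P + off 1 = (P.1 + -1, P.2 + 0) := by
    refine Prod.ext ?_ ?_ <;> simp [off]
  have e2 : P + off 1 + bdir (db 1) = (P.1 + 0, P.2 + 0) := by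
    refine Prod.ext ?_ ?_ <;> simp [off, db, bdir]
  unfold jopen
  rw [e2, e1]
  rfl

theorem j2_open2 {c : Grid G} (T : Top c) (P : ℤ × ℤ) :
    jopen T P 2 ↔ inr G (P.1 + -1, P.2 + -1) ∧ inr G (P.1 + -1, P.2 + 0) ∧ T.IsEdge (G.π (P.1 + -1, P.2 + -1), false) := by
  have e1 : P + off 2 = (P.1 + -1, P.2 + -1) := by
    refine Prod.ext ?_ ?_ <;> simp [off]
  have e2 : P + off 2 + bdir (db 2) = (P.1 + -1, P.2 + 0) := by
    refine Prod.ext ?_ ?_ <;> simp [off, db, bdir]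
  unfold jopen
  rw [e2, e1]
  rfl

theorem j2_open3 {c : Grid G} (T : Top c) (P : ℤ × ℤ) :
    jopen T P 3 ↔ inr G (P.1 + -1, P.2 + -1) ∧ inr G (P.1 + 0, P.2 + -1) ∧ T.IsEdge (G.π (P.1 + -1, P.2 + -1), true) := by
  have e1 : P + off 3 = (P.1 + -1, P.2 + -1) := by
    refine Prod.ext ?_ ?_ <;> simp [off]
  have e2 : P + off 3 + bdir (db 3) = (P.1 + 0, P.2 + -1) := by
    refine Prod.ext ?_ ?_ <;> simp [off, db, bdir]
  unfold jopen
  rw [e2, e1]
  rfl

theorem j2_mask_none {c : Grid G} (T : Top c) (P : ℤ × ℤ) :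
    jmask T P = none ↔ jopen T P 0 ∧ jopen T P 1 ∧ jopen T P 2 ∧ jopen T P 3 := by
  classical
  unfold jmask
  by_cases h0 : jopen T P 0 <;> by_cases h1 : jopen T P 1 <;> by_cases h2 : jopen T P 2 <;> by_cases h3 : jopen T P 3 <;>
    simp [h0, h1, h2, h3]

theorem j2_mask_some {c : Grid G} (T : Top c) (P : ℤ × ℤ) (β : Fin 4) (h : jmask T P = some β) : ¬ jopen T P β := by
  classical
  unfold jmask at h
  by_cases h0 : jopen T P 0 <;> by_cases h1 : jopen T P 1 <;> by_cases h2 : jopen T P 2 <;> by_cases h3 : jopen T P 3 <;>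
    simp only [h0, h1, h2, h3, not_true_eq_false, not_false_eq_true, if_true, if_false, Option.some.injEq, reduceCtorEq] at h <;>
    (rw [← h]; assumption)

/-- the four sites around the junction are sites -/
def jR4 (c : Grid G) (K : ℤ × ℤ) : Prop :=
  inr1 G (K.1 * c.m + -1) ∧ inr1 G (K.1 * c.m + 0) ∧ inr1 G (K.2 * c.m + -1) ∧ inr1 G (K.2 * c.m + 0)

theorem j2_mask_iff {c : Grid G} (hc : Whole c) (T : Top c) (hT : T.Ok) (K : ℤ × ℤ) (z : c.I) (hz1 : ((z.1 : ℕ) : ℤ) = (K.1 - 1) % c.n)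
    (hz2 : ((z.2 : ℕ) : ℤ) = (K.2 - 1) % c.n) : jmask T (K.1 * c.m, K.2 * c.m) = none ↔ jR4 c K ∧ z ∈ T.V4 := by
  classical
  have hs : (0 : ℤ) < c.m := by exact_mod_cast hc.pos
  rw [j2_mask_none, j2_open0, j2_open1, j2_open2, j2_open3]
  simp only [j2_inr_iff]
  unfold jR4 Top.V4
  simp only [Finset.mem_filter, Finset.mem_univ, true_and]
  have f1 : fnb c (z, true) = (nx z.1, z.2) := by simp [fnb]
  have f2 : fnb c (z, false) = (z.1, nx z.2) := by simp [fnb]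
  rw [f1, f2]
  constructor
  · rintro ⟨⟨⟨a1, a2⟩, ⟨a3, a4⟩, a5⟩, ⟨⟨b1, b2⟩, ⟨b3, b4⟩, b5⟩, ⟨⟨c1, c2⟩, ⟨c3, c4⟩, c5⟩, ⟨⟨d1, d2⟩, ⟨d3, d4⟩, d5⟩⟩
    refine ⟨⟨b1, a1, a2, a4⟩, ?_, ?_, ?_, ?_⟩
    · have := (j2_H hc T hT K z hz1 hz2 (-1) (by omega) (by omega) ((j2_inr_iff _).2 ⟨d1, d2⟩) ((j2_inr_iff _).2 ⟨d3, d4⟩)).1 d5
      simpa using this
    · have := (j2_V hc T hT K z hz1 hz2 0 (by omega) (by omega) ((j2_inr_iff _).2 ⟨a1, a2⟩) ((j2_inr_iff _).2 ⟨a3, a4⟩)).1 a5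
      simpa using this
    · have := (j2_H hc T hT K z hz1 hz2 0 (by omega) (by omega) ((j2_inr_iff _).2 ⟨b1, b2⟩) ((j2_inr_iff _).2 ⟨b3, b4⟩)).1 b5
      simpa using this
    · have := (j2_V hc T hT K z hz1 hz2 (-1) (by omega) (by omega) ((j2_inr_iff _).2 ⟨c1, c2⟩) ((j2_inr_iff _).2 ⟨c3, c4⟩)).1 c5
      simpa using this
  · rintro ⟨⟨r1, r2, r3, r4⟩, v1, v2, v3, v4⟩
    refine ⟨⟨⟨r2, r3⟩, ⟨r2, r4⟩, ?_⟩, ⟨⟨r1, r4⟩, ⟨r2, r4⟩, ?_⟩, ⟨⟨r1, r3⟩, ⟨r1, r4⟩, ?_⟩, ⟨⟨r1, r3⟩, ⟨r2, r3⟩, ?_⟩⟩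
    · refine (j2_V hc T hT K z hz1 hz2 0 (by omega) (by omega) ((j2_inr_iff _).2 ⟨r2, r3⟩) ((j2_inr_iff _).2 ⟨r2, r4⟩)).2 ?_
      simpa using v2
    · refine (j2_H hc T hT K z hz1 hz2 0 (by omega) (by omega) ((j2_inr_iff _).2 ⟨r1, r4⟩) ((j2_inr_iff _).2 ⟨r2, r4⟩)).2 ?_
      simpa using v3
    · refine (j2_V hc T hT K z hz1 hz2 (-1) (by omega) (by omega) ((j2_inr_iff _).2 ⟨r1, r3⟩) ((j2_inr_iff _).2 ⟨r1, r4⟩)).2 ?_
      simpa using v4
    · refine (j2_H hc T hT K z hz1 hz2 (-1) (by omega) (by omega) ((j2_inr_iff _).2 ⟨r1, r3⟩) ((j2_inr_iff _).2 ⟨r2, r3⟩)).2 ?_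
      simpa using v1

theorem j2_inr1_of {c : Grid G} (hc : Whole c) {k r : ℤ} (hr0 : 0 ≤ r) (hr1 : r < c.m) (h : G.bc = BC.per ∨ (0 ≤ k ∧ k < c.n)) :
    inr1 G (k * c.m + r) := by
  rcases h with h | h
  · exact Or.inl h
  · right
    have hM : (G.M : ℤ) = c.n * c.m := by exact_mod_cast whole_card hc
    have hs : (0 : ℤ) < c.m := by exact_mod_cast hc.pos
    rw [hM]
    obtain ⟨k0, k1⟩ := h
    constructor
    · positivity
    · have : k + 1 ≤ c.n := by omega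
      nlinarith

theorem j2_R4_of {c : Grid G} (hc : Whole c) (K : ℤ × ℤ) (h1 : G.bc = BC.per ∨ (1 ≤ K.1 ∧ K.1 < c.n)) (h2 : G.bc = BC.per ∨ (1 ≤ K.2 ∧ K.2 < c.n)) :
    jR4 c K := by
  have hs : (0 : ℤ) < c.m := by exact_mod_cast hc.pos
  have e : ∀ k : ℤ, k * c.m + -1 = (k - 1) * c.m + (c.m - 1) := fun k => by ring
  refine ⟨?_, ?_, ?_, ?_⟩
  · rw [e]
    exact j2_inr1_of hc (by omega) (by omega) (h1.imp id fun h => ⟨by omega, by omega⟩)
  · exact j2_inr1_of hc le_rfl hs (h1.imp id fun h => ⟨by omega, by omega⟩)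
  · rw [e]
    exact j2_inr1_of hc (by omega) (by omega) (h2.imp id fun h => ⟨by omega, by omega⟩)
  · exact j2_inr1_of hc le_rfl hs (h2.imp id fun h => ⟨by omega, by omega⟩)

/-- a full junction is not at a wall -/
theorem j2_V4_face {c : Grid G} (T : Top c) (hT : T.Ok) (z : c.I) (hz : z ∈ T.V4) :
    (G.bc = BC.per ∨ (z.1 : ℕ) + 1 < c.n) ∧ (G.bc = BC.per ∨ (z.2 : ℕ) + 1 < c.n) := by
  classical
  unfold Top.V4 at hz
  simp only [Finset.mem_filter, Finset.mem_univ, true_and] at hz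
  obtain ⟨v1, -, -, v4⟩ := hz
  have a1 := (hT _ v1).1
  have a4 := (hT _ v4).1
  unfold IsFace at a1 a4
  simp only [if_true, Bool.false_eq_true, if_false] at a1 a4
  exact ⟨a1, a4⟩

/-- full junctions -/
theorem mask_jpt {c : Grid G} (hc : Whole c) (hn : 3 ≤ c.n) (T : Top c) (hT : T.Ok) (z : c.I) :
    jmask T (jpt c z) = none ↔ z ∈ T.V4 := by
  have h1 : ((z.1 : ℕ) : ℤ) = ((((z.1 : ℕ) + 1 : ℕ) : ℤ) - 1) % c.n := by
    have := z.1.2
    rw [Int.emod_eq_of_lt (by omega) (by omega)]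
    omega
  have h2 : ((z.2 : ℕ) : ℤ) = ((((z.2 : ℕ) + 1 : ℕ) : ℤ) - 1) % c.n := by
    have := z.2.2
    rw [Int.emod_eq_of_lt (by omega) (by omega)]
    omega
  have key := j2_mask_iff hc T hT ((((z.1 : ℕ) + 1 : ℕ) : ℤ), (((z.2 : ℕ) + 1 : ℕ) : ℤ)) z h1 h2
  unfold jpt
  rw [key]
  constructor
  · exact fun h => h.2
  · intro hz
    obtain ⟨a1, a2⟩ := j2_V4_face T hT z hz
    exact ⟨j2_R4_of hc _ (a1.imp id fun h => ⟨by simp only; omega, by simp only; omega⟩)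
      (a2.imp id fun h => ⟨by simp only; omega, by simp only; omega⟩), hz⟩

theorem j2_pv_cases {n : ℕ} (i : Fin n) : ((pv i : Fin n) : ℕ) + 1 = i ∨ ((i : ℕ) = 0 ∧ ((pv i : Fin n) : ℕ) + 1 = n) := by
  have hi := i.2
  simp only [pv]
  rcases Nat.eq_zero_or_pos (i : ℕ) with h | h
  · right
    refine ⟨h, ?_⟩
    rw [h, Nat.zero_add, Nat.mod_eq_of_lt (by omega)]
    omega
  · left
    have : (i : ℕ) + n - 1 = ((i : ℕ) - 1) + n := by omega
    rw [this, Nat.add_mod_right, Nat.mod_eq_of_lt (by omega)]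
    omega

/-- the first end of a face -/
theorem mask_base {c : Grid G} (hc : Whole c) (hn : 3 ≤ c.n) (T : Top c) (hT : T.Ok) (f : Face c) :
    (jmask T (fbase c f) = none ↔ fpre c f ∈ T.V4) ∧ (fpre c f ∈ T.V4 → dsp G (jpt c (fpre c f)) = dsp G (fbase c f)) := by
  have hM : (G.M : ℤ) = c.n * c.m := by exact_mod_cast whole_card hc
  have hid : ∀ i : Fin c.n, ((i : ℕ) : ℤ) = ((((i : ℕ) + 1 : ℕ) : ℤ) - 1) % c.n := by
    intro i
    have := i.2
    rw [Int.emod_eq_of_lt (by omega) (by omega)]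
    omega
  obtain ⟨⟨f1, f2⟩, d⟩ := f
  cases d
  · -- horizontal segment
    have eb : fbase c ((f1, f2), false) = (((f1 : ℕ) : ℤ) * c.m, (((f2 : ℕ) + 1 : ℕ) : ℤ) * c.m) := by simp [fbase]
    have ep : fpre c ((f1, f2), false) = (pv f1, f2) := by simp [fpre]
    rw [eb, ep]
    have key := j2_mask_iff hc T hT (((f1 : ℕ) : ℤ), (((f2 : ℕ) + 1 : ℕ) : ℤ)) (pv f1, f2) (j2_pv_val f1) (hid f2)
    simp only at key
    constructor
    · rw [key]
      constructor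
      · exact fun h => h.2
      · intro hz
        obtain ⟨a1, a2⟩ := j2_V4_face T hT _ hz
        simp only at a1 a2
        refine ⟨j2_R4_of hc _ (a1.imp id fun h => ?_) (a2.imp id fun h => ⟨by simp only; omega, by simp only; omega⟩), hz⟩
        have := f1.2
        rcases j2_pv_cases f1 with h' | h' <;> simp only <;> omega
    · intro hz
      obtain ⟨a1, -⟩ := j2_V4_face T hT _ hz
      simp only at a1
      unfold jpt
      simp only
      rcases j2_pv_cases f1 with h' | h'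
      · rw [h']
      · have hG : G.bc = BC.per := by
          rcases a1 with a1 | a1
          · exact a1
          · omega
        funext x
        have := dsp_period hG (((f1 : ℕ) : ℤ) * c.m, (((f2 : ℕ) + 1 : ℕ) : ℤ) * c.m) (1, 0) x
        rw [← this, h'.2]
        congr 1
        refine Prod.ext ?_ ?_
        · simp only [Prod.fst_add, h'.1, hM]
          push_cast
          ring
        · simp
  · -- vertical segment
    have eb : fbase c ((f1, f2), true) = ((((f1 : ℕ) + 1 : ℕ) : ℤ) * c.m, ((f2 : ℕ) : ℤ) * c.m) := by simp [fbase]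
    have ep : fpre c ((f1, f2), true) = (f1, pv f2) := by simp [fpre]
    rw [eb, ep]
    have key := j2_mask_iff hc T hT ((((f1 : ℕ) + 1 : ℕ) : ℤ), ((f2 : ℕ) : ℤ)) (f1, pv f2) (hid f1) (j2_pv_val f2)
    simp only at key
    constructor
    · rw [key]
      constructor
      · exact fun h => h.2
      · intro hz
        obtain ⟨a1, a2⟩ := j2_V4_face T hT _ hz
        simp only at a1 a2
        refine ⟨j2_R4_of hc _ (a1.imp id fun h => ⟨by simp only; omega, by simp only; omega⟩) (a2.imp id fun h => ?_), hz⟩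
        have := f2.2
        rcases j2_pv_cases f2 with h' | h' <;> simp only <;> omega
    · intro hz
      obtain ⟨-, a2⟩ := j2_V4_face T hT _ hz
      simp only at a2
      unfold jpt
      simp only
      rcases j2_pv_cases f2 with h' | h'
      · rw [h']
      · have hG : G.bc = BC.per := by
          rcases a2 with a2 | a2
          · exact a2
          · omega
        funext x
        have := dsp_period hG ((((f1 : ℕ) + 1 : ℕ) : ℤ) * c.m, ((f2 : ℕ) : ℤ) * c.m) (0, 1) x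
        rw [← this, h'.2]
        congr 1
        refine Prod.ext ?_ ?_
        · simp
        · simp only [Prod.snd_add, h'.1, hM]
          push_cast
          ring

theorem j2_exists_cx {n : ℕ} (hn : 0 < n) (k : ℤ) : ∃ i : Fin n, ((i : ℕ) : ℤ) = k % n := by
  have h0 : (0 : ℤ) < n := by exact_mod_cast hn
  have h1 := Int.emod_nonneg k h0.ne'
  have h2 := Int.emod_lt_of_pos k h0
  exact ⟨⟨(k % n).toNat, by omega⟩, by simp only; omega⟩

theorem j2_chiZ {s : ℕ} {x : ℤ × ℤ} (h : chiZ s x ≠ 0) : -(s : ℤ) < x.1 ∧ x.1 < s ∧ -(s : ℤ) < x.2 ∧ x.2 < s := by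
  unfold chiZ at h
  split_ifs at h with hs
  · have hs0 : (0 : ℝ) < s := by
      have : (8 : ℝ) ≤ s := by exact_mod_cast hs
      linarith
    have h1 : 0 < 2 - 8 * nrm x / s := by
      by_contra hcon
      apply h
      unfold clamp01
      rw [not_lt] at hcon
      exact max_eq_left ((min_le_right _ _).trans hcon)
    obtain ⟨N, hN, n1, n2, n3, n4⟩ := ch1_nrm x
    have h2 : 8 * nrm x / s < 2 := by linarith
    rw [div_lt_iff₀ hs0, hN] at h2
    have h3 : 8 * N < 2 * (s : ℤ) := by exact_mod_cast h2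
    omega
  · exact absurd rfl h

/-- the target of a retained bond is a site, in every chart -/
theorem j2_inr_stp (P : ℤ × ℤ) (v : G.V) (d : Bool) (h : stp v d ≠ v) : inr G (P + dsp G P v + bdir d) := by
  rcases hG : G.bc with _ | _
  · exact Or.inl hG
  · right
    have e : P + dsp G P v = G.ι v := by
      rw [ch1_dsp_eq, ch1_free hG, ch1_free hG]
      refine Prod.ext ?_ ?_ <;> simp [Geom.ι]
    rw [e, ← iota_stp_free hG v d h]
    have h1 := (stp v d).1.2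
    have h2 := (stp v d).2.2
    simp only [Geom.ι]
    omega

theorem j2_moveV {c : Grid G} (hc : Whole c) (T : Top c) (hT : T.Ok) (K : ℤ × ℤ) {X X' : ℤ} (hX0 : -(c.m : ℤ) ≤ X) (hX1 : X < c.m)
    (hX0' : -(c.m : ℤ) ≤ X') (hX1' : X' < c.m) (hs : X < 0 ↔ X' < 0)
    (h : inr G (K.1 * c.m + X, K.2 * c.m + -1)) (h' : inr G (K.1 * c.m + X, K.2 * c.m + 0))
    (he : T.IsEdge (G.π (K.1 * c.m + X, K.2 * c.m + -1), false)) :
    inr G (K.1 * c.m + X', K.2 * c.m + -1) ∧ inr G (K.1 * c.m + X', K.2 * c.m + 0) ∧ T.IsEdge (G.π (K.1 * c.m + X', K.2 * c.m + -1), false) := by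
  have hn : 0 < c.n := by have := hc.two; omega
  obtain ⟨z1, hz1⟩ := j2_exists_cx hn (K.1 - 1)
  obtain ⟨z2, hz2⟩ := j2_exists_cx hn (K.2 - 1)
  have a := (j2_inr_iff _).1 h
  have a' := (j2_inr_iff _).1 h'
  have b : inr G (K.1 * c.m + X', K.2 * c.m + -1) := (j2_inr_iff _).2 ⟨j2_inr1_at hc hX0 hX1 hX0' hX1' hs a.1, a.2⟩
  have b' : inr G (K.1 * c.m + X', K.2 * c.m + 0) := (j2_inr_iff _).2 ⟨j2_inr1_at hc hX0 hX1 hX0' hX1' hs a'.1, a'.2⟩
  refine ⟨b, b', ?_⟩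
  have f1 := (j2_V hc T hT K (z1, z2) hz1 hz2 X hX0 hX1 h h').1 he
  refine (j2_V hc T hT K (z1, z2) hz1 hz2 X' hX0' hX1' b b').2 ?_
  by_cases hX : X < 0
  · simpa [hX, hs.1 hX] using f1
  · have hX' : ¬ X' < 0 := fun h => hX (hs.2 h)
    simpa [hX, hX'] using f1

theorem j2_moveH {c : Grid G} (hc : Whole c) (T : Top c) (hT : T.Ok) (K : ℤ × ℤ) {X X' : ℤ} (hX0 : -(c.m : ℤ) ≤ X) (hX1 : X < c.m)
    (hX0' : -(c.m : ℤ) ≤ X') (hX1' : X' < c.m) (hs : X < 0 ↔ X' < 0)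
    (h : inr G (K.1 * c.m + -1, K.2 * c.m + X)) (h' : inr G (K.1 * c.m + 0, K.2 * c.m + X))
    (he : T.IsEdge (G.π (K.1 * c.m + -1, K.2 * c.m + X), true)) :
    inr G (K.1 * c.m + -1, K.2 * c.m + X') ∧ inr G (K.1 * c.m + 0, K.2 * c.m + X') ∧ T.IsEdge (G.π (K.1 * c.m + -1, K.2 * c.m + X'), true) := by
  have hn : 0 < c.n := by have := hc.two; omega
  obtain ⟨z1, hz1⟩ := j2_exists_cx hn (K.1 - 1)
  obtain ⟨z2, hz2⟩ := j2_exists_cx hn (K.2 - 1)
  have a := (j2_inr_iff _).1 h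
  have a' := (j2_inr_iff _).1 h'
  have b : inr G (K.1 * c.m + -1, K.2 * c.m + X') := (j2_inr_iff _).2 ⟨a.1, j2_inr1_at hc hX0 hX1 hX0' hX1' hs a.2⟩
  have b' : inr G (K.1 * c.m + 0, K.2 * c.m + X') := (j2_inr_iff _).2 ⟨a'.1, j2_inr1_at hc hX0 hX1 hX0' hX1' hs a'.2⟩
  refine ⟨b, b', ?_⟩
  have f1 := (j2_H hc T hT K (z1, z2) hz1 hz2 X hX0 hX1 h h').1 he
  refine (j2_H hc T hT K (z1, z2) hz1 hz2 X' hX0' hX1' b b').2 ?_
  by_cases hX : X < 0
  · simpa [hX, hs.1 hX] using f1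
  · have hX' : ¬ X' < 0 := fun h => hX (hs.2 h)
    simpa [hX, hX'] using f1

/-- **no retained bond crosses the cut of the correction inside its support** -/
theorem mask_allowed {c : Grid G} (hc : Whole c) (hn : 3 ≤ c.n) (T : Top c) (hT : T.Ok) (k : ℤ × ℤ) (e : G.V × Bool) (he : T.IsEdge e) :
    allowed c.m (jmask T (k.1 * c.m, k.2 * c.m)) (dsp G (k.1 * c.m, k.2 * c.m) e.1) e.2 := by
  have hs : (0 : ℤ) < c.m := by exact_mod_cast hc.pos
  rcases hm : jmask T (k.1 * c.m, k.2 * c.m) with _ | β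
  · trivial
  have hno := j2_mask_some T _ β hm
  show chiZ c.m _ = 0 ∨ tbr β _ e.2 = 0
  by_contra hcon
  push Not at hcon
  obtain ⟨hχ, ht⟩ := hcon
  apply hno
  obtain ⟨x1l, x1u, x2l, x2u⟩ := j2_chiZ hχ
  obtain ⟨hπ, hin⟩ := pi_dsp (k.1 * c.m, k.2 * c.m) e.1
  have hin' := j2_inr_stp (k.1 * c.m, k.2 * c.m) e.1 e.2 he.1
  obtain ⟨v, d⟩ := e
  simp only at *
  generalize dsp G (k.1 * c.m, k.2 * c.m) v = x at *
  obtain ⟨x1, x2⟩ := x
  simp only at x1l x1u x2l x2u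
  have eP : ((k.1 * c.m, k.2 * c.m) : ℤ × ℤ) + (x1, x2) = (k.1 * c.m + x1, k.2 * c.m + x2) := rfl
  rw [eP] at hπ hin hin'
  rw [← hπ] at he
  fin_cases β
  · -- East
    have h3 : d = false ∧ x2 = -1 ∧ 0 ≤ x1 := by
      by_contra hcon
      apply ht
      simp [tbr, hcon]
    obtain ⟨rfl, rfl, h0⟩ := h3
    have e2 : ((k.1 * c.m + x1, k.2 * c.m + -1) : ℤ × ℤ) + bdir false = (k.1 * c.m + x1, k.2 * c.m + 0) := by
      refine Prod.ext ?_ ?_ <;> simp [bdir]
    rw [e2] at hin'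
    exact (j2_open0 T _).2 (j2_moveV hc T hT k (by omega) x1u (by omega) hs (by omega) hin hin' he)
  · -- North
    have h3 : d = true ∧ x1 = -1 ∧ 0 ≤ x2 := by
      by_contra hcon
      apply ht
      simp [tbr, hcon]
    obtain ⟨rfl, rfl, h0⟩ := h3
    have e2 : ((k.1 * c.m + -1, k.2 * c.m + x2) : ℤ × ℤ) + bdir true = (k.1 * c.m + 0, k.2 * c.m + x2) := by
      refine Prod.ext ?_ ?_ <;> simp [bdir]
    rw [e2] at hin'
    exact (j2_open1 T _).2 (j2_moveH hc T hT k (by omega) x2u (by omega) hs (by omega) hin hin' he)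
  · -- West
    have h3 : d = false ∧ x2 = -1 ∧ x1 < 0 := by
      by_contra hcon
      apply ht
      simp [tbr, hcon]
    obtain ⟨rfl, rfl, h0⟩ := h3
    have e2 : ((k.1 * c.m + x1, k.2 * c.m + -1) : ℤ × ℤ) + bdir false = (k.1 * c.m + x1, k.2 * c.m + 0) := by
      refine Prod.ext ?_ ?_ <;> simp [bdir]
    rw [e2] at hin'
    exact (j2_open2 T _).2 (j2_moveV hc T hT k (by omega) x1u (by omega) (by omega) (by omega) hin hin' he)
  · -- South
    have h3 : d = true ∧ x1 = -1 ∧ x2 < 0 := by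
      by_contra hcon
      apply ht
      simp [tbr, hcon]
    obtain ⟨rfl, rfl, h0⟩ := h3
    have e2 : ((k.1 * c.m + -1, k.2 * c.m + x2) : ℤ × ℤ) + bdir true = (k.1 * c.m + 0, k.2 * c.m + x2) := by
      refine Prod.ext ?_ ?_ <;> simp [bdir]
    rw [e2] at hin'
    exact (j2_open3 T _).2 (j2_moveH hc T hT k (by omega) x2u (by omega) (by omega) (by omega) hin hin' he)

theorem j2_nrm_off (β : Fin 4) : nrm (off β) ≤ 1 ∧ nrm (off β + bdir (db β)) ≤ 1 := by
  fin_cases β <;> simp [off, db, bdir, nrm]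

theorem j2_open_local {c : Grid G} (T T' : Top c) (P : ℤ × ℤ) (hM : 4 ≤ G.M) (h : ∀ x : G.V, nrm (dsp G P x) ≤ 1 → c.blk x ∉ T.disc T')
    (β : Fin 4) : jopen T P β ↔ jopen T' P β := by
  unfold jopen
  refine and_congr_right fun h1 => and_congr_right fun h2 => ?_
  obtain ⟨n1, n2⟩ := j2_nrm_off β
  have hM' : (4 : ℝ) ≤ G.M := by exact_mod_cast hM
  refine rwa_edge_agree T T' _ fun x hx => ?_
  rcases hx with hx | hx
  · simp only at hx
    apply h
    rw [hx, dsp_pi P (off β) (by linarith) h1]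
    exact n1
  · simp only at hx
    apply h
    rw [hx, (stp_pi _ _ h1 h2 (by omega)).1, add_assoc, dsp_pi P _ (by linarith) (by rw [← add_assoc]; exact h2)]
    exact n2

/-- masks are local -/
theorem mask_local {c : Grid G} (T T' : Top c) (P : ℤ × ℤ) (hM : 4 ≤ G.M) (h : ∀ x : G.V, nrm (dsp G P x) ≤ 1 → c.blk x ∉ T.disc T') :
    jmask T P = jmask T' P := by
  have h0 := propext (j2_open_local T T' P hM h 0)
  have h1 := propext (j2_open_local T T' P hM h 1)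
  have h2 := propext (j2_open_local T T' P hM h 2)
  have h3 := propext (j2_open_local T T' P hM h 3)
  unfold jmask
  rw [h0, h1, h2, h3]

/-- full junctions are local -/
theorem V4_local {c : Grid G} (T T' : Top c) (hT : T.Ok) (hT' : T'.Ok) (z : c.I) (h : ∀ i ∈ T.disc T', 2 ≤ c.idist i z) :
    z ∈ T.V4 ↔ z ∈ T'.V4 := by
  classical
  have hz : z ∉ T.disc T' := fun hcon => by
    have := h z hcon
    rw [Alg.idist_self] at this
    omega
  have a := (rwa_disc T T' hz).2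
  have a1 := a (z, true) (Or.inl rfl)
  have a4 := a (z, false) (Or.inl rfl)
  have key : ∀ d : Bool, (z, d) ∈ T.faces → ∀ d', ((fnb c (z, d), d') ∈ T.faces ↔ (fnb c (z, d), d') ∈ T'.faces) := by
    intro d hd d'
    have h1 : fnb c (z, d) ∉ T.disc T' := fun hcon => by
      have h2 := h _ hcon
      have h3 := idist_fnb (z, d) (hT _ hd).1
      simp only at h3
      omega
    exact (rwa_disc T T' h1).2 _ (Or.inl rfl)
  unfold Top.V4
  simp only [Finset.mem_filter, Finset.mem_univ, true_and]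
  constructor
  · rintro ⟨v1, v2, v3, v4⟩
    exact ⟨a1.1 v1, (key true v1 false).1 v2, (key false v4 true).1 v3, a4.1 v4⟩
  · rintro ⟨v1, v2, v3, v4⟩
    exact ⟨a1.2 v1, (key true (a1.2 v1) false).2 v2, (key false (a4.2 v4) true).2 v3, a4.2 v4⟩

theorem j2_nx_pv {n : ℕ} (i : Fin n) : nx (pv i) = i := by
  have hi := i.2
  apply Fin.ext
  simp only [nx, pv]
  rcases Nat.eq_zero_or_pos (i : ℕ) with h | h
  · rw [h, Nat.zero_add, Nat.mod_eq_of_lt (by omega : n - 1 < n)]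
    have : n - 1 + 1 = n := by omega
    rw [this, Nat.mod_self]
  · have : (i : ℕ) + n - 1 = ((i : ℕ) - 1) + n := by omega
    rw [this, Nat.add_mod_right, Nat.mod_eq_of_lt (by omega : (i : ℕ) - 1 < n)]
    have : (i : ℕ) - 1 + 1 = i := by omega
    rw [this, Nat.mod_eq_of_lt hi]

theorem idist_fpre {c : Grid G} (hn : 2 ≤ c.n) (T : Top c) (hT : T.Ok) (f : Face c) (h : fpre c f ∈ T.V4) : c.idist (fpre c f) f.1 ≤ 1 := by
  classical
  unfold Top.V4 at h
  simp only [Finset.mem_filter, Finset.mem_univ, true_and] at h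
  obtain ⟨v1, -, -, v4⟩ := h
  obtain ⟨⟨f1, f2⟩, d⟩ := f
  cases d
  · have h1 := idist_fnb _ (hT _ v1).1
    have e : fnb c (fpre c ((f1, f2), false), true) = (f1, f2) := by
      simp [fnb, fpre, j2_nx_pv]
    rw [e, Alg.idist_comm] at h1
    exact h1
  · have h1 := idist_fnb _ (hT _ v4).1
    have e : fnb c (fpre c ((f1, f2), true), false) = (f1, f2) := by
      simp [fnb, fpre, j2_nx_pv]
    rw [e, Alg.idist_comm] at h1
    exact h1

/-! ### LEAF L-FACE-J3: the chart of a full junction -/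

/-- the cell of a lattice point on one axis -/
theorem j3_blk1 {c : Grid G} (hc : Whole c) (y : ℤ) (w : Fin c.n) (q : ℤ) (hq : G.bc = BC.per ∨ q = 0)
    (h1 : ((w : ℕ) : ℤ) * c.m ≤ y - G.M * q) (h2 : y - G.M * q < ((w : ℕ) : ℤ) * c.m + c.m) : c.blk1 (G.fold y) = w := by
  have hM : (G.M : ℤ) = c.n * c.m := by exact_mod_cast whole_card hc
  have hm : (0 : ℤ) < c.m := by exact_mod_cast hc.pos
  have hw : ((w : ℕ) : ℤ) + 1 ≤ c.n := by exact_mod_cast w.2
  have h0 : 0 ≤ y - G.M * q := le_trans (by positivity) h1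
  have h3 : y - G.M * q < G.M := by
    rw [hM] at h2 ⊢
    nlinarith
  have hval : ((G.fold y : ℕ) : ℤ) = y - G.M * q := by
    rcases hq with hG | rfl
    · have e : (((⟨(y - G.M * q).toNat, by omega⟩ : Fin G.M) : ℕ) : ℤ) = y - G.M * q := by
        simp only
        omega
      rw [ch1_fold_per hG y ⟨(y - G.M * q).toNat, by omega⟩ q e]
      exact e
    · rw [mul_zero, sub_zero] at h0 h3 ⊢
      exact ch1_fold_in y h0 h3
  apply Fin.ext
  rw [whole_blk1 hc]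
  refine Nat.div_eq_of_lt_le ?_ ?_
  · have : (((w : ℕ) * c.m : ℕ) : ℤ) ≤ ((G.fold y : ℕ) : ℤ) := by
      rw [hval]
      push_cast
      exact h1
    exact_mod_cast this
  · have : ((G.fold y : ℕ) : ℤ) < ((((w : ℕ) + 1) * c.m : ℕ) : ℤ) := by
      rw [hval]
      push_cast
      linarith
    exact_mod_cast this

/-- one axis: the two cells next to a junction -/
theorem j3_axis {c : Grid G} (hc : Whole c) (z : Fin c.n) (hz : G.bc = BC.per ∨ (z : ℕ) + 1 < c.n) (t : ℤ)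
    (h1 : -(c.m : ℤ) ≤ t) (h2 : t < c.m) :
    (G.bc = BC.per ∨ (0 ≤ (((z : ℕ) + 1 : ℕ) : ℤ) * c.m + t ∧ (((z : ℕ) + 1 : ℕ) : ℤ) * c.m + t < G.M)) ∧
    c.blk1 (G.fold ((((z : ℕ) + 1 : ℕ) : ℤ) * c.m + t)) = if t < 0 then z else nx z := by
  have hM : (G.M : ℤ) = c.n * c.m := by exact_mod_cast whole_card hc
  have hm : (0 : ℤ) < c.m := by exact_mod_cast hc.pos
  have hz0 : (0 : ℤ) ≤ ((z : ℕ) : ℤ) := by positivity
  constructor
  · rcases hz with hz | hz
    · exact Or.inl hz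
    · right
      have hz' : ((z : ℕ) : ℤ) + 2 ≤ c.n := by exact_mod_cast hz
      push_cast
      rw [hM]
      constructor <;> nlinarith
  · split_ifs with ht
    · refine j3_blk1 hc _ z 0 (Or.inr rfl) ?_ ?_
      · push_cast
        nlinarith
      · push_cast
        nlinarith
    · rcases Nat.lt_or_ge ((z : ℕ) + 1) c.n with h3 | h3
      · have e : ((nx z : Fin c.n) : ℕ) = (z : ℕ) + 1 := Nat.mod_eq_of_lt h3
        refine j3_blk1 hc _ (nx z) 0 (Or.inr rfl) ?_ ?_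
        · rw [e]
          push_cast
          nlinarith
        · rw [e]
          push_cast
          nlinarith
      · have e1 : (z : ℕ) + 1 = c.n := by
          have := z.2
          omega
        have e : ((nx z : Fin c.n) : ℕ) = 0 := by
          show ((z : ℕ) + 1) % c.n = 0
          rw [e1, Nat.mod_self]
        have hG : G.bc = BC.per := by
          rcases hz with hz | hz
          · exact hz
          · omega
        refine j3_blk1 hc _ (nx z) 1 (Or.inl hG) ?_ ?_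
        · rw [e, e1, hM]
          push_cast
          nlinarith
        · rw [e, e1, hM]
          push_cast
          nlinarith

theorem j3_faces {c : Grid G} (T : Top c) (z : c.I) (hz : z ∈ T.V4) :
    ((z.1, z.2), true) ∈ T.faces ∧ ((nx z.1, z.2), false) ∈ T.faces ∧ ((z.1, nx z.2), true) ∈ T.faces ∧
      ((z.1, z.2), false) ∈ T.faces := by
  classical
  unfold Top.V4 at hz
  have h := (Finset.mem_filter.1 hz).2
  simpa [fnb] using h

/-- the four cells around a full junction -/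
theorem j3_cells {c : Grid G} (hc : Whole c) (T : Top c) (hT : T.Ok) (z : c.I) (hz : z ∈ T.V4) (X : ℤ × ℤ) (hX : X ∈ bx c.m) :
    inr G (jpt c z + X) ∧
    c.blk (G.π (jpt c z + X)) = (if X.1 < 0 then z.1 else nx z.1, if X.2 < 0 then z.2 else nx z.2) ∧
    c.blk (G.π (jpt c z + X)) ∈ T.cells := by
  obtain ⟨f1, f2, f3, f4⟩ := j3_faces T z hz
  unfold bx at hX
  rw [Finset.mem_product, Finset.mem_Ico, Finset.mem_Ico] at hX
  have i1 : G.bc = BC.per ∨ (z.1 : ℕ) + 1 < c.n := by simpa [IsFace] using (hT _ f1).1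
  have i2 : G.bc = BC.per ∨ (z.2 : ℕ) + 1 < c.n := by simpa [IsFace] using (hT _ f4).1
  obtain ⟨a1, a2⟩ := j3_axis hc z.1 i1 X.1 hX.1.1 hX.1.2
  obtain ⟨b1, b2⟩ := j3_axis hc z.2 i2 X.2 hX.2.1 hX.2.2
  have e : c.blk (G.π (jpt c z + X)) = (if X.1 < 0 then z.1 else nx z.1, if X.2 < 0 then z.2 else nx z.2) :=
    Prod.ext a2 b2
  refine ⟨?_, e, ?_⟩
  · rcases a1 with a1 | a1
    · exact Or.inl a1
    · rcases b1 with b1 | b1
      · exact Or.inl b1
      · exact Or.inr ⟨a1.1, a1.2, b1.1, b1.2⟩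
  · rw [e]
    have c1 : (z.1, z.2) ∈ T.cells := (hT _ f1).2.1
    have c2 : (nx z.1, z.2) ∈ T.cells := (hT _ f2).2.1
    have c3 : (z.1, nx z.2) ∈ T.cells := (hT _ f3).2.1
    have c4 : (nx z.1, nx z.2) ∈ T.cells := by simpa [fnb] using (hT _ f2).2.2
    split_ifs
    · exact c1
    · exact c3
    · exact c2
    · exact c4

/-- the four cells around a full junction are present, all bonds near the junction are retained -/
theorem full_chart {c : Grid G} (hc : Whole c) (hs : 2 ≤ c.m) (hn : 16 ≤ c.n) (T : Top c) (hT : T.Ok) (z : c.I) (hz : z ∈ T.V4) :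
    (∀ X ∈ bx c.m, inr G (jpt c z + X) ∧ c.blk (G.π (jpt c z + X)) ∈ T.cells) ∧
    (∀ (X : ℤ × ℤ) (d : Bool), 4 * nrm X < c.m → T.IsEdge (G.π (jpt c z + X), d) ∧ stp (G.π (jpt c z + X)) d = G.π (jpt c z + X + bdir d)) := by
  refine ⟨fun X hX => ⟨(j3_cells hc T hT z hz X hX).1, (j3_cells hc T hT z hz X hX).2.2⟩, fun X d hX => ?_⟩
  obtain ⟨N, hN, n1, n2, n3, n4⟩ := ch1_nrm X
  rw [hN] at hX
  have hX' : 4 * N < (c.m : ℤ) := by exact_mod_cast hX
  have hs' : (2 : ℤ) ≤ c.m := by exact_mod_cast hs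
  have hM : 2 ≤ G.M := by
    rw [whole_card hc]
    nlinarith
  have m1 : X ∈ bx c.m := by
    unfold bx
    rw [Finset.mem_product, Finset.mem_Ico, Finset.mem_Ico]
    omega
  have m2 : X + bdir d ∈ bx c.m := by
    unfold bx
    rw [Finset.mem_product, Finset.mem_Ico, Finset.mem_Ico]
    cases d <;> simp only [bdir, Prod.fst_add, Prod.snd_add, Bool.false_eq_true, if_false, if_true] <;> omega
  obtain ⟨a1, a2, a3⟩ := j3_cells hc T hT z hz X m1
  obtain ⟨b1, b2, b3⟩ := j3_cells hc T hT z hz (X + bdir d) m2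
  rw [← add_assoc] at b1 b2 b3
  obtain ⟨e1, e2⟩ := stp_pi (jpt c z + X) d a1 b1 hM
  refine ⟨⟨e2, a3, ?_, ?_⟩, e1⟩
  · show c.blk (stp (G.π (jpt c z + X)) d) ∈ T.cells
    rw [e1]
    exact b3
  · show c.blk (stp (G.π (jpt c z + X)) d) = c.blk (G.π (jpt c z + X)) ∨ (c.blk (G.π (jpt c z + X)), d) ∈ T.faces
    rw [e1, b2, a2]
    obtain ⟨f1, f2, f3, f4⟩ := j3_faces T z hz
    cases d
    · simp only [bdir, Prod.fst_add, Prod.snd_add, Bool.false_eq_true, if_false, add_zero]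
      by_cases hx : X.2 = -1
      · right
        rw [hx]
        simp only [Int.reduceNeg, Int.reduceLT, if_true]
        split_ifs
        · exact f4
        · exact f2
      · left
        have : (X.2 + 1 < 0) ↔ (X.2 < 0) := by omega
        simp only [this]
    · simp only [bdir, Prod.fst_add, Prod.snd_add, if_true, add_zero]
      by_cases hx : X.1 = -1
      · right
        rw [hx]
        simp only [Int.reduceNeg, Int.reduceLT, if_true]
        split_ifs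
        · exact f1
        · exact f3
      · left
        have : (X.1 + 1 < 0) ↔ (X.1 < 0) := by omega
        simp only [this]

open Classical in
/-- sums over the retained bonds near a full junction are plane sums -/
theorem full_sum {c : Grid G} (hc : Whole c) (hs : 2 ≤ c.m) (hn : 16 ≤ c.n) (T : Top c) (hT : T.Ok) (z : c.I) (hz : z ∈ T.V4)
    (F : ℤ × ℤ → Bool → ℝ) (hF : ∀ X d, (c.m : ℝ) ≤ 4 * nrm X → F X d = 0) :
    ∑ e : G.V × Bool, (if T.IsEdge e then F (dsp G (jpt c z) e.1) e.2 else 0) = ∑ X ∈ bx c.m, ∑ d : Bool, F X d := by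
  obtain ⟨hA, hB⟩ := full_chart hc hs hn T hT z hz
  have hm : (0 : ℝ) < c.m := by exact_mod_cast hc.pos
  have hM : (G.M : ℝ) = c.n * c.m := by exact_mod_cast whole_card hc
  have hn' : (16 : ℝ) ≤ c.n := by exact_mod_cast hn
  rw [Fintype.sum_prod_type]
  have hL : ∀ x : G.V, (∑ d : Bool, if T.IsEdge (x, d) then F (dsp G (jpt c z) (x, d).1) (x, d).2 else 0)
      = ∑ d : Bool, F (dsp G (jpt c z) x) d := by
    intro x
    refine Finset.sum_congr rfl fun d _ => ?_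
    by_cases hx : 4 * nrm (dsp G (jpt c z) x) < c.m
    · have h1 := (hB (dsp G (jpt c z) x) d hx).1
      rw [(pi_dsp _ x).1] at h1
      rw [if_pos h1]
    · rw [hF _ d (not_lt.1 hx)]
      simp
  rw [Finset.sum_congr rfl fun x _ => hL x]
  have hg : ∀ X : ℤ × ℤ, (∑ d : Bool, F X d) ≠ 0 → 4 * nrm X < c.m := by
    intro X hX
    by_contra hcon
    exact hX (Finset.sum_eq_zero fun d _ => hF X d (not_lt.1 hcon))
  refine Finset.sum_bij_ne_zero (fun x _ _ => dsp G (jpt c z) x) ?_ ?_ ?_ ?_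
  · intro x _ hx
    have h1 := hg _ hx
    obtain ⟨N, hN, n1, n2, n3, n4⟩ := ch1_nrm (dsp G (jpt c z) x)
    rw [hN] at h1
    have h2 : 4 * N < (c.m : ℤ) := by exact_mod_cast h1
    unfold bx
    rw [Finset.mem_product, Finset.mem_Ico, Finset.mem_Ico]
    omega
  · intro x _ _ y _ _ hxy
    exact dsp_inj _ x y hxy
  · intro X hX hX0
    have h1 := hg _ hX0
    have e := dsp_pi (jpt c z) X (by rw [hM]; nlinarith [pl3_nrm_nonneg X]) (hA X hX).1
    exact ⟨G.π (jpt c z + X), Finset.mem_univ _, by rw [e]; exact hX0, e⟩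
  · intro x _ _
    rfl

/-- the four cells -/
theorem full_l2 {c : Grid G} (hc : Whole c) (hn : 16 ≤ c.n) (T : Top c) (hT : T.Ok) (z : c.I) (hz : z ∈ T.V4) (h : G.V → ℝ) (h0 : ∀ x, 0 ≤ h x) :
    ∑ X ∈ bx c.m, h (G.π (jpt c z + X)) ≤ ∑ x ∈ c.sites T.cells, h x := by
  classical
  have hm : (0 : ℝ) < c.m := by exact_mod_cast hc.pos
  have hM : (G.M : ℝ) = c.n * c.m := by exact_mod_cast whole_card hc
  have hn' : (16 : ℝ) ≤ c.n := by exact_mod_cast hn
  have hd : ∀ X ∈ bx c.m, dsp G (jpt c z) (G.π (jpt c z + X)) = X := by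
    intro X hX
    refine dsp_pi (jpt c z) X ?_ (j3_cells hc T hT z hz X hX).1
    have := pl4_nrm_bx hX
    rw [hM]
    nlinarith
  have hinj : Set.InjOn (fun X => G.π (jpt c z + X)) (bx c.m) := by
    intro X hX Y hY hXY
    have hXY' : G.π (jpt c z + X) = G.π (jpt c z + Y) := hXY
    rw [← hd X hX, ← hd Y hY, hXY']
  rw [← Finset.sum_image (f := h) hinj]
  refine Finset.sum_le_sum_of_subset_of_nonneg ?_ fun x _ _ => h0 x
  intro x hx
  obtain ⟨X, hX, rfl⟩ := Finset.mem_image.1 hx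
  exact Finset.mem_filter.2 ⟨Finset.mem_univ _, (j3_cells hc T hT z hz X hX).2.2⟩

theorem j3_spec (p : ℤ) (i : Fin G.M) : ∃ k : ℤ, dsp1 G p i = ((i : ℕ) : ℤ) - p - G.M * k := by
  rcases hG : G.bc with _ | _
  · obtain ⟨k, hk, -, -⟩ := ch1_spec_per hG p i
    exact ⟨k, hk⟩
  · exact ⟨0, by rw [ch1_free hG]; ring⟩

/-- one axis: a site is close to at most one junction -/
theorem j3_sep {c : Grid G} (hc : Whole c) (z z' : Fin c.n) (x : Fin G.M)
    (h : |dsp1 G ((((z' : ℕ) + 1 : ℕ) : ℤ) * c.m) x - dsp1 G ((((z : ℕ) + 1 : ℕ) : ℤ) * c.m) x| < c.m) : z = z' := by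
  have hM : (G.M : ℤ) = c.n * c.m := by exact_mod_cast whole_card hc
  have hm : (0 : ℤ) < c.m := by exact_mod_cast hc.pos
  obtain ⟨q, hq⟩ := j3_spec ((((z : ℕ) + 1 : ℕ) : ℤ) * c.m) x
  obtain ⟨q', hq'⟩ := j3_spec ((((z' : ℕ) + 1 : ℕ) : ℤ) * c.m) x
  have e : dsp1 G ((((z' : ℕ) + 1 : ℕ) : ℤ) * c.m) x - dsp1 G ((((z : ℕ) + 1 : ℕ) : ℤ) * c.m) x
      = c.m * (((z : ℕ) : ℤ) - ((z' : ℕ) : ℤ) + c.n * (q - q')) := by
    rw [hq, hq', hM]
    push_cast
    ring
  have h0 := Int.eq_zero_of_abs_lt_dvd ⟨_, e⟩ h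
  rw [e] at h0
  have h1 : ((z : ℕ) : ℤ) - ((z' : ℕ) : ℤ) + c.n * (q - q') = 0 := by
    rcases mul_eq_zero.1 h0 with h0 | h0
    · omega
    · exact h0
  have l1 := z.2
  have l2 := z'.2
  have h2 : ((z : ℕ) : ℤ) - ((z' : ℕ) : ℤ) = 0 := by
    refine Int.eq_zero_of_abs_lt_dvd (m := (c.n : ℤ)) ⟨-(q - q'), by linarith⟩ ?_
    rw [abs_lt]
    constructor <;> omega
  apply Fin.ext
  omega

/-- the cutoffs of different junctions have disjoint supports -/
theorem chiZ_disjoint {c : Grid G} (hc : Whole c) (z z' : c.I) (hzz : z ≠ z') (x : G.V) :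
    chiZ c.m (dsp G (jpt c z) x) * chiZ c.m (dsp G (jpt c z') x) = 0 := by
  by_contra hne
  have h1 : chiZ c.m (dsp G (jpt c z) x) ≠ 0 := left_ne_zero_of_mul hne
  have h2 : chiZ c.m (dsp G (jpt c z') x) ≠ 0 := right_ne_zero_of_mul hne
  have g1 : 4 * nrm (dsp G (jpt c z) x) < c.m := by
    by_contra h
    exact h1 ((chiZ_facts c.m hc.pos _).2.2.2.1 (not_lt.1 h))
  have g2 : 4 * nrm (dsp G (jpt c z') x) < c.m := by
    by_contra h
    exact h2 ((chiZ_facts c.m hc.pos _).2.2.2.1 (not_lt.1 h))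
  obtain ⟨N, hN, n1, n2, n3, n4⟩ := ch1_nrm (dsp G (jpt c z) x)
  obtain ⟨N', hN', m1, m2, m3, m4⟩ := ch1_nrm (dsp G (jpt c z') x)
  rw [hN] at g1
  rw [hN'] at g2
  have g1' : 4 * N < (c.m : ℤ) := by exact_mod_cast g1
  have g2' : 4 * N' < (c.m : ℤ) := by exact_mod_cast g2
  rw [ch1_dsp_eq] at n1 n2 n3 n4 m1 m2 m3 m4
  simp only [jpt] at n1 n2 n3 n4 m1 m2 m3 m4
  exact hzz (Prod.ext (j3_sep hc z.1 z'.1 x.1 (by rw [abs_lt]; constructor <;> omega))
    (j3_sep hc z.2 z'.2 x.2 (by rw [abs_lt]; constructor <;> omega)))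

end

end Claimed.Agent.R285.F4a
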