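import Claimed.Agent.R285.Face.Geo
import Claimed.Agent.R285.F4a.EnA
import Claimed.Agent.R285.F4a.EnB
import Claimed.Agent.R285.Read.B4
import Claimed.Agent.R285.F4a.Unit

/-!
# ROW 285, PK-FACE, file 4 (Main.lean = TRIAL + ASSEMBLY + BOX3 + FINAL), part TRIAL: the trial fields of the faces, their residuals      (architect helper251)

`Utr T v f = utr ∘ dsp (fbase f)` with the masks of the two ends;  `rho T a v f = L U_f + d_f` (residual, a function on the common rows);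
`Sz T a v z` = the cut-off angular field at the junction `z`;  `reg = rho - ∑_{z ∈ V4} σ_z (f) Sz z`.
FACTS: `reg` is `O(1/s)` on bonds, `O(1)` on cells, lives within `rad ≤ 6` of the face (`reg_*`, `rho_lives`);  `⟨Sz z, Sz z'⟩ = δ_{zz'} a⁻¹ angE` (`Sz_inner`);  `Sz z` has dual norm `O(1)` (`Sz_dual`: co-closure) and `ℓ¹` norm `O(s)`;
`rho` depends on the topology only near the face (`rho_local`).
-/

set_option autoImplicit false

namespace Claimed.Agent.R285.F4a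

open scoped BigOperators
open Claimed.Agent.R285 Claimed.Agent.R285.RG

noncomputable section

variable {G : Geom}

/-- the trial field of a face -/
def Utr {c : Grid G} (T : Top c) (v : ℤ × ℤ → ℝ) (f : Face c) : G.V → ℝ := fun x =>
  utr v c.m f.2 (jmask T (fbase c f)) (jmask T (jpt c f.1)) (dsp G (fbase c f) x)

open Classical in
/-- the residual of the trial field -/
def rho {c : Grid G} (T : Top c) (a : ℝ) (v : ℤ × ℤ → ℝ) (f : Face c) : CRow c → ℝ :=
  (T.Lc a).mulVec (Utr T v f) + T.dc a (Pi.single f 1)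

open Classical in
/-- the cut-off angular field at a junction -/
def Sz {c : Grid G} (T : Top c) (a : ℝ) (v : ℤ × ℤ → ℝ) (z : c.I) : CRow c → ℝ := fun r =>
  match r with
  | Sum.inl e => if T.IsEdge e then (Real.sqrt a)⁻¹ * (chiZ c.m (dsp G (jpt c z) e.1) * ang v (dsp G (jpt c z) e.1) e.2) else 0
  | Sum.inr _ => 0

open Classical in
/-- the regular part of the residual -/
def reg {c : Grid G} (T : Top c) (a : ℝ) (v : ℤ × ℤ → ℝ) (f : Face c) : CRow c → ℝ :=
  rho T a v f - ∑ z ∈ T.V4, sig c z (Pi.single f 1) • Sz T a v z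

/-! ### LEAF L-FACE-TR1: the residual on the bonds.
If `¬ T.IsEdge e` everything vanishes.  Let `X = dsp (fbase f) e.1`.  If `4 s + 1 ≤ nrm X`: `utr_supp` at both ends (`nrm_dsp_stp`), `dc_chart`, and `chiZ = 0` at both ends of the face (`dsp_shift`, `mask_base`).
Otherwise `dsp_stp` (`2 (4 s + 1) + 2 < 16 s ≤ M`), so the row is `a^{-1/2} (utr (X + e_d) - utr X + dpl)`; `sig_single` reduces the sum over `V4` to the two ends; `mask_jpt`, `mask_base`, `fbase_add`, `dsp_shift` identify it with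
`sg (sing m₁ X - sing m₂ (X - P2))`; so `reg = a^{-1/2} rreg`, and `mask_allowed` (at `k s = fbase f` and `k s = jpt f.1`) gives the hypotheses of `rreg_bound`. -/

open Classical in
theorem tr1_sigsum {c : Grid G} (hn : 2 ≤ c.n) (T : Top c) (f : Face c) (Φ : c.I → ℝ) :
    ∑ z ∈ T.V4, sig c z (Pi.single f 1) * Φ z
      = sg f.2 * ((if fpre c f ∈ T.V4 then Φ (fpre c f) else 0) - (if f.1 ∈ T.V4 then Φ f.1 else 0)) := by
  have h1 : ∀ z ∈ T.V4, sig c z (Pi.single f 1) * Φ z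
      = sg f.2 * ((if z = fpre c f then Φ z else 0) - (if z = f.1 then Φ z else 0)) := by
    intro z _
    rw [sig_single c hn z f, mul_assoc, sub_mul]
    congr 2 <;> split_ifs <;> simp
  rw [Finset.sum_congr rfl h1, ← Finset.mul_sum, Finset.sum_sub_distrib, Finset.sum_ite_eq', Finset.sum_ite_eq']

theorem tr1_M {c : Grid G} (hc : Whole c) (hn : 16 ≤ c.n) : 16 * (c.m : ℝ) ≤ G.M := by
  rw [whole_card hc]
  push_cast
  have h1 : (16 : ℝ) ≤ c.n := by exact_mod_cast hn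
  have h2 : (0 : ℝ) ≤ c.m := Nat.cast_nonneg _
  nlinarith

theorem tr1_nrm_neg (x : ℤ × ℤ) : nrm (-x) = nrm x := by
  unfold nrm
  simp

/-- the chart of the second end -/
theorem tr1_shift {c : Grid G} (hc : Whole c) (hn : 16 ≤ c.n) (f : Face c) (x : G.V)
    (h : nrm (dsp G (fbase c f) x) < 4 * (c.m : ℝ) + 1) :
    dsp G (jpt c f.1) x = dsp G (fbase c f) x - P2 c.m f.2 := by
  have hm : (1 : ℝ) ≤ c.m := by exact_mod_cast hc.pos
  have hM := tr1_M hc hn
  rw [← fbase_add]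
  refine dsp_shift _ _ _ ?_
  rw [pl3_nrm_P2]
  linarith

/-- far from the first end the cutoff of the second end vanishes -/
theorem tr1_far {c : Grid G} (hc : Whole c) (hn : 16 ≤ c.n) (f : Face c) (x : G.V)
    (h : 4 * (c.m : ℝ) + 1 ≤ nrm (dsp G (fbase c f) x)) : chiZ c.m (dsp G (jpt c f.1) x) = 0 := by
  have hm : (1 : ℝ) ≤ c.m := by exact_mod_cast hc.pos
  have hM := tr1_M hc hn
  refine (chiZ_facts c.m hc.pos _).2.2.2.1 ?_
  by_contra hcon
  push Not at hcon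
  have h0 := pl3_nrm_nonneg (dsp G (jpt c f.1) x)
  have h1 : dsp G (jpt c f.1 + -P2 c.m f.2) x = dsp G (jpt c f.1) x - -P2 c.m f.2 := by
    refine dsp_shift _ _ _ ?_
    rw [tr1_nrm_neg, pl3_nrm_P2]
    linarith
  have h2 : jpt c f.1 + -P2 c.m f.2 = fbase c f := by
    rw [← fbase_add]
    abel
  rw [h2] at h1
  have h3 := nrm_sub_le (dsp G (jpt c f.1) x) (-P2 c.m f.2)
  rw [← h1, tr1_nrm_neg, pl3_nrm_P2] at h3
  linarith

open Classical in
theorem reg_inl {c : Grid G} (hc : Whole c) (hn : 16 ≤ c.n) (T : Top c) (hT : T.Ok) (a : ℝ) (v : ℤ × ℤ → ℝ) (f : Face c) (e : G.V × Bool) :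
    reg T a v f (Sum.inl e) = if T.IsEdge e then
      (Real.sqrt a)⁻¹ * rreg v c.m f.2 (jmask T (fbase c f)) (jmask T (jpt c f.1)) (dsp G (fbase c f) e.1) e.2 else 0 := by
  have hm : (1 : ℝ) ≤ c.m := by exact_mod_cast hc.pos
  have hM := tr1_M hc hn
  have e1 : reg T a v f (Sum.inl e) = (T.Lc a).mulVec (Utr T v f) (Sum.inl e) + T.dc a (Pi.single f 1) (Sum.inl e)
      - ∑ z ∈ T.V4, sig c z (Pi.single f 1) * Sz T a v z (Sum.inl e) := by
    simp only [reg, rho, Pi.sub_apply, Pi.add_apply, Finset.sum_apply, Pi.smul_apply, smul_eq_mul]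
  rw [e1, Lc_inl, dc_chart hc (by omega) T a f e, tr1_sigsum (by omega) T f (fun z => Sz T a v z (Sum.inl e))]
  by_cases he : T.IsEdge e
  swap
  · simp [he, Sz]
  simp only [he, if_true, Sz]
  set X := dsp G (fbase c f) e.1 with hX
  set m₁ := jmask T (fbase c f) with hm₁
  set m₂ := jmask T (jpt c f.1) with hm₂
  -- the step
  have hstep : Utr T v f (stp e.1 e.2) = utr v c.m f.2 m₁ m₂ (X + bdir e.2) := by
    simp only [Utr]
    by_cases hfar : 4 * (c.m : ℝ) + 1 ≤ nrm X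
    · have h1 := abs_le.1 (nrm_dsp_stp (fbase c f) e.1 e.2)
      have h2 := abs_le.1 (nrm_step X e.2)
      rw [utr_supp v c.m hc.pos _ _ _ _ (by linarith [h1.1]), utr_supp v c.m hc.pos _ _ _ _ (by linarith [h2.1])]
    · push Not at hfar
      rw [dsp_stp (fbase c f) e.1 e.2 he.1 (Or.inl (by linarith))]
  have hU : Utr T v f e.1 = utr v c.m f.2 m₁ m₂ X := rfl
  -- the first end
  have hs1 : (if fpre c f ∈ T.V4 then (Real.sqrt a)⁻¹ * (chiZ c.m (dsp G (jpt c (fpre c f)) e.1)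
      * ang v (dsp G (jpt c (fpre c f)) e.1) e.2) else 0) = (Real.sqrt a)⁻¹ * sing v c.m m₁ X e.2 := by
    obtain ⟨h1, h2⟩ := mask_base hc (by omega) T hT f
    by_cases hz : fpre c f ∈ T.V4
    · rw [if_pos hz, h2 hz, hm₁, h1.2 hz]
      rfl
    · rw [if_neg hz]
      have h3 : m₁ ≠ none := fun h => hz (h1.1 h)
      obtain ⟨β, hβ⟩ := Option.ne_none_iff_exists'.1 h3
      rw [hβ]
      simp [sing]
  -- the second end
  have hs2 : (if f.1 ∈ T.V4 then (Real.sqrt a)⁻¹ * (chiZ c.m (dsp G (jpt c f.1) e.1)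
      * ang v (dsp G (jpt c f.1) e.1) e.2) else 0) = (Real.sqrt a)⁻¹ * sing v c.m m₂ (X - P2 c.m f.2) e.2 := by
    have h1 := mask_jpt hc (by omega) T hT f.1
    by_cases hz : f.1 ∈ T.V4
    · rw [if_pos hz, hm₂, h1.2 hz]
      simp only [sing]
      by_cases hfar : 4 * (c.m : ℝ) + 1 ≤ nrm X
      · rw [tr1_far hc hn f e.1 hfar]
        have h2 := pl3_nrm_le X (P2 c.m f.2)
        rw [pl3_nrm_P2] at h2
        rw [(chiZ_facts c.m hc.pos (X - P2 c.m f.2)).2.2.2.1 (by linarith), zero_mul, zero_mul]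
      · push Not at hfar
        rw [tr1_shift hc hn f e.1 hfar]
    · rw [if_neg hz]
      have h3 : m₂ ≠ none := fun h => hz (h1.1 h)
      obtain ⟨β, hβ⟩ := Option.ne_none_iff_exists'.1 h3
      rw [hβ]
      simp [sing]
  rw [hs1, hs2, hstep, hU]
  unfold rreg
  ring

theorem reg_inl_bound {c : Grid G} (hc : Whole c) (hn : 16 ≤ c.n) (T : Top c) (hT : T.Ok) (a : ℝ) {Cv : ℝ} {v : ℤ × ℤ → ℝ}
    (hv : BoxField Cv (8 * c.m) v) (f : Face c) (e : G.V × Bool) :
    |reg T a v f (Sum.inl e)| ≤ (Real.sqrt a)⁻¹ * (40 * (Cv + 3) / c.m) ∧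
    (4 * (c.m : ℝ) + 1 ≤ nrm (dsp G (fbase c f) e.1) → reg T a v f (Sum.inl e) = 0) := by
  classical
  have hm : (1 : ℝ) ≤ c.m := by exact_mod_cast hc.pos
  have hCv := pl3_Cv_nonneg hv
  have hsq : 0 ≤ (Real.sqrt a)⁻¹ := inv_nonneg.2 (Real.sqrt_nonneg a)
  have hB : 0 ≤ 40 * (Cv + 3) / (c.m : ℝ) := by positivity
  rw [reg_inl hc hn T hT a v f e]
  by_cases he : T.IsEdge e
  swap
  · simp only [he, if_false, abs_zero]
    exact ⟨mul_nonneg hsq hB, fun _ => trivial⟩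
  simp only [he, if_true]
  refine ⟨?_, fun hfar => by rw [rreg_supp v c.m hc.pos _ _ _ _ _ hfar, mul_zero]⟩
  rw [abs_mul, abs_of_nonneg hsq]
  refine mul_le_mul_of_nonneg_left ?_ hsq
  by_cases hfar : 4 * (c.m : ℝ) + 1 ≤ nrm (dsp G (fbase c f) e.1)
  · rw [rreg_supp v c.m hc.pos _ _ _ _ _ hfar, abs_zero]
    exact hB
  · push Not at hfar
    refine rreg_bound c.m hc.pos hv _ _ _ _ _ ?_ ?_
    · have h1 : ∃ k : ℤ × ℤ, fbase c f = (k.1 * c.m, k.2 * c.m) := by
        unfold fbase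
        split_ifs
        · exact ⟨(_, _), rfl⟩
        · exact ⟨(_, _), rfl⟩
      obtain ⟨k, hk⟩ := h1
      rw [hk]
      exact mask_allowed hc (by omega) T hT k e he
    · rw [← tr1_shift hc hn f e.1 hfar]
      exact mask_allowed hc (by omega) T hT ((((f.1.1 : ℕ) + 1 : ℕ) : ℤ), (((f.1.2 : ℕ) + 1 : ℕ) : ℤ)) e he

/-! ### LEAF L-FACE-TR2: the cells, the size of `reg`, where `rho` lives -/

open Classical in
theorem reg_inr {c : Grid G} (T : Top c) (a : ℝ) (v : ℤ × ℤ → ℝ) (f : Face c) (i : c.I) :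
    reg T a v f (Sum.inr i) = if i ∈ T.cells then avg c (Utr T v f) i else 0 := by
  have h1 : (∑ z ∈ T.V4, sig c z (Pi.single f 1) • Sz T a v z) (Sum.inr i) = 0 := by
    rw [Finset.sum_apply]
    refine Finset.sum_eq_zero fun z _ => ?_
    simp [Sz]
  unfold reg rho
  rw [Pi.sub_apply, h1, sub_zero, Pi.add_apply, Lc_inr]
  simp [Top.dc]

/-- the trial field vanishes far from the face -/
theorem tr2_Utr_supp {c : Grid G} (hc : Whole c) (T : Top c) (v : ℤ × ℤ → ℝ) (f : Face c) (x : G.V)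
    (hx : Utr T v f x ≠ 0) : nrm (dsp G (fbase c f) x) < 4 * (c.m : ℝ) := by
  by_contra hcon
  exact hx (utr_supp v c.m hc.pos f.2 _ _ _ (not_lt.1 hcon))

theorem tr2_Utr_bdd {c : Grid G} (hc : Whole c) (T : Top c) {Cv : ℝ} {R : ℕ} {v : ℤ × ℤ → ℝ} (hv : BoxField Cv R v) (f : Face c) (x : G.V) :
    |Utr T v f x| ≤ 4 * (Cv + 3) := utr_bdd hv c.m hc.pos f.2 _ _ _

/-- a nonzero average sees a nonzero value -/
theorem tr2_avg_ne {c : Grid G} (u : G.V → ℝ) (i : c.I) (h : avg c u i ≠ 0) : ∃ y, c.blk y = i ∧ u y ≠ 0 := by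
  have h1 : ∑ y ∈ c.sites {i}, u y ≠ 0 := by
    intro h0
    apply h
    simp only [avg, cellAvg]
    rw [h0, zero_div]
  obtain ⟨y, hy, hy0⟩ := Finset.exists_ne_zero_of_sum_ne_zero h1
  refine ⟨y, ?_, hy0⟩
  simpa [Grid.sites] using hy

open Classical in
theorem tr2_rho_inl {c : Grid G} (hc : Whole c) (hn : 3 ≤ c.n) (T : Top c) (a : ℝ) (v : ℤ × ℤ → ℝ) (f : Face c) (e : G.V × Bool) :
    rho T a v f (Sum.inl e) = if T.IsEdge e then (Real.sqrt a)⁻¹ * (Utr T v f (stp e.1 e.2) - Utr T v f e.1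
      + dpl c.m f.2 (dsp G (fbase c f) e.1) e.2) else 0 := by
  unfold rho
  rw [Pi.add_apply, Lc_inl, dc_chart hc hn]
  split_ifs
  · ring
  · ring

open Classical in
theorem tr2_rho_inr {c : Grid G} (T : Top c) (a : ℝ) (v : ℤ × ℤ → ℝ) (f : Face c) (i : c.I) :
    rho T a v f (Sum.inr i) = if i ∈ T.cells then avg c (Utr T v f) i else 0 := by
  unfold rho
  rw [Pi.add_apply, Lc_inr]
  simp [Top.dc]

/-- `‖reg‖² ≤ C`: bonds `2 (8 s + 3)² (40 (C_v + 3))² / (a s²)` (`card_dsp_le`); cells `∑_i (avg U)² ≤ s⁻² ∑_x U² ≤ (8 s + 1)² (4 (C_v + 3))² / s²` -/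
theorem reg_sq {c : Grid G} (hc : Whole c) (hn : 16 ≤ c.n) (T : Top c) (hT : T.Ok) (a : ℝ) (ha : 0 < a) {Cv : ℝ} {v : ℤ × ℤ → ℝ}
    (hv : BoxField Cv (8 * c.m) v) (f : Face c) :
    ∑ r, reg T a v f r ^ 2 ≤ (400000 / a + 2000) * (Cv + 3) ^ 2 := by
  classical
  have hm : (1 : ℝ) ≤ c.m := by exact_mod_cast hc.pos
  have hm0 : (0 : ℝ) < c.m := by linarith
  have hC := pl3_Cv_nonneg hv
  rw [Fintype.sum_sum_type]
  have hB : ∑ e : G.V × Bool, reg T a v f (Sum.inl e) ^ 2 ≤ 400000 / a * (Cv + 3) ^ 2 := by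
    obtain ⟨b, hb⟩ : ∃ b : ℝ, b = (Real.sqrt a)⁻¹ * (40 * (Cv + 3) / c.m) := ⟨_, rfl⟩
    have hterm : ∀ e : G.V × Bool, reg T a v f (Sum.inl e) ^ 2
        ≤ if nrm (dsp G (fbase c f) e.1) ≤ ((4 * c.m + 1 : ℕ) : ℝ) then b ^ 2 else 0 := by
      intro e
      obtain ⟨h1, h2⟩ := reg_inl_bound hc hn T hT a hv f e
      split_ifs with h
      · rw [← sq_abs]
        exact pow_le_pow_left₀ (abs_nonneg _) (by rw [hb]; exact h1) 2
      · rw [h2 (by push_cast at h; linarith)]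
        simp
    have hb2 : b ^ 2 = a⁻¹ * (1600 * (Cv + 3) ^ 2 / (c.m : ℝ) ^ 2) := by
      rw [hb, mul_pow, inv_pow, Real.sq_sqrt ha.le, div_pow]
      ring
    have hcard : ((Finset.univ.filter fun x : G.V => nrm (dsp G (fbase c f) x) ≤ ((4 * c.m + 1 : ℕ) : ℝ)).card : ℝ)
        ≤ 121 * (c.m : ℝ) ^ 2 := by
      have h1 : ((Finset.univ.filter fun x : G.V => nrm (dsp G (fbase c f) x) ≤ ((4 * c.m + 1 : ℕ) : ℝ)).card : ℝ)
          ≤ (((2 * (4 * c.m + 1) + 1) ^ 2 : ℕ) : ℝ) := by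
        exact_mod_cast card_dsp_le (fbase c f) (4 * c.m + 1)
      refine h1.trans ?_
      push_cast
      nlinarith
    calc ∑ e : G.V × Bool, reg T a v f (Sum.inl e) ^ 2
        ≤ ∑ e : G.V × Bool, if nrm (dsp G (fbase c f) e.1) ≤ ((4 * c.m + 1 : ℕ) : ℝ) then b ^ 2 else 0 :=
          Finset.sum_le_sum fun e _ => hterm e
      _ = ∑ x : G.V, ∑ _d : Bool, if nrm (dsp G (fbase c f) x) ≤ ((4 * c.m + 1 : ℕ) : ℝ) then b ^ 2 else 0 :=
          Fintype.sum_prod_type _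
      _ = 2 * (((Finset.univ.filter fun x : G.V => nrm (dsp G (fbase c f) x) ≤ ((4 * c.m + 1 : ℕ) : ℝ)).card : ℝ) * b ^ 2) := by
          simp only [Finset.sum_const, Finset.card_univ, Fintype.card_bool, nsmul_eq_mul]
          rw [← Finset.mul_sum, ← Finset.sum_filter, Finset.sum_const, nsmul_eq_mul]
          norm_num
      _ ≤ 2 * (121 * (c.m : ℝ) ^ 2 * b ^ 2) := by
          have := mul_le_mul_of_nonneg_right hcard (sq_nonneg b)
          linarith
      _ = 387200 / a * (Cv + 3) ^ 2 := by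
          rw [hb2]
          field_simp
          ring
      _ ≤ 400000 / a * (Cv + 3) ^ 2 := by
          refine mul_le_mul_of_nonneg_right ?_ (sq_nonneg _)
          exact div_le_div_of_nonneg_right (by norm_num) ha.le
  have hCell : ∑ i : c.I, reg T a v f (Sum.inr i) ^ 2 ≤ 2000 * (Cv + 3) ^ 2 := by
    have hterm : ∀ i : c.I, reg T a v f (Sum.inr i) ^ 2
        ≤ ((c.m : ℝ) ^ 2)⁻¹ * ∑ x ∈ Finset.univ.filter (fun x : G.V => c.blk x = i), Utr T v f x ^ 2 := by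
      intro i
      have hnn : 0 ≤ ((c.m : ℝ) ^ 2)⁻¹ * ∑ x ∈ Finset.univ.filter (fun x : G.V => c.blk x = i), Utr T v f x ^ 2 :=
        mul_nonneg (by positivity) (Finset.sum_nonneg fun _ _ => sq_nonneg _)
      have hs : c.sites {i} = Finset.univ.filter (fun x : G.V => c.blk x = i) := by
        unfold Grid.sites
        simp
      rw [reg_inr]
      split_ifs
      · simp only [avg, cellAvg]
        rw [whole_sites_card hc i, hs, div_pow]
        have h1 := sq_sum_le_card_mul_sum_sq (s := Finset.univ.filter (fun x : G.V => c.blk x = i)) (f := Utr T v f)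
        rw [← hs, whole_sites_card hc i, hs] at h1
        push_cast at h1 ⊢
        rw [div_le_iff₀ (by positivity)]
        calc _ ≤ _ := h1
          _ = _ := by field_simp
      · simpa using hnn
    have hU : ∀ x : G.V, Utr T v f x ^ 2 ≤ if nrm (dsp G (fbase c f) x) ≤ ((4 * c.m : ℕ) : ℝ) then (4 * (Cv + 3)) ^ 2 else 0 := by
      intro x
      split_ifs with h
      · rw [← sq_abs]
        exact pow_le_pow_left₀ (abs_nonneg _) (tr2_Utr_bdd hc T hv f x) 2
      · have : Utr T v f x = 0 := by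
          by_contra hne
          have := tr2_Utr_supp hc T v f x hne
          push_cast at h
          linarith
        rw [this]
        simp
    have hcard : ((Finset.univ.filter fun x : G.V => nrm (dsp G (fbase c f) x) ≤ ((4 * c.m : ℕ) : ℝ)).card : ℝ)
        ≤ 81 * (c.m : ℝ) ^ 2 := by
      have h1 : ((Finset.univ.filter fun x : G.V => nrm (dsp G (fbase c f) x) ≤ ((4 * c.m : ℕ) : ℝ)).card : ℝ)
          ≤ (((2 * (4 * c.m) + 1) ^ 2 : ℕ) : ℝ) := by
        exact_mod_cast card_dsp_le (fbase c f) (4 * c.m)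
      refine h1.trans ?_
      push_cast
      nlinarith
    calc ∑ i : c.I, reg T a v f (Sum.inr i) ^ 2
        ≤ ∑ i : c.I, ((c.m : ℝ) ^ 2)⁻¹ * ∑ x ∈ Finset.univ.filter (fun x : G.V => c.blk x = i), Utr T v f x ^ 2 :=
          Finset.sum_le_sum fun i _ => hterm i
      _ = ((c.m : ℝ) ^ 2)⁻¹ * ∑ x : G.V, Utr T v f x ^ 2 := by
          rw [← Finset.mul_sum, Finset.sum_fiberwise]
      _ ≤ ((c.m : ℝ) ^ 2)⁻¹ * ∑ x : G.V, if nrm (dsp G (fbase c f) x) ≤ ((4 * c.m : ℕ) : ℝ) then (4 * (Cv + 3)) ^ 2 else 0 :=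
          mul_le_mul_of_nonneg_left (Finset.sum_le_sum fun x _ => hU x) (by positivity)
      _ = ((c.m : ℝ) ^ 2)⁻¹ * (((Finset.univ.filter fun x : G.V => nrm (dsp G (fbase c f) x) ≤ ((4 * c.m : ℕ) : ℝ)).card : ℝ)
            * (4 * (Cv + 3)) ^ 2) := by
          rw [← Finset.sum_filter, Finset.sum_const, nsmul_eq_mul]
      _ ≤ ((c.m : ℝ) ^ 2)⁻¹ * (81 * (c.m : ℝ) ^ 2 * (4 * (Cv + 3)) ^ 2) :=
          mul_le_mul_of_nonneg_left (mul_le_mul_of_nonneg_right hcard (sq_nonneg _)) (by positivity)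
      _ = 1296 * (Cv + 3) ^ 2 := by
          field_simp
          ring
      _ ≤ 2000 * (Cv + 3) ^ 2 := mul_le_mul_of_nonneg_right (by norm_num) (sq_nonneg _)
  calc _ ≤ 400000 / a * (Cv + 3) ^ 2 + 2000 * (Cv + 3) ^ 2 := add_le_add hB hCell
    _ = _ := by ring

/-- the residual lives within `rad ≤ 6` of the face -/
theorem rho_lives {c : Grid G} (hc : Whole c) (hn : 16 ≤ c.n) (T : Top c) (hT : T.Ok) (a : ℝ) (v : ℤ × ℤ → ℝ) (f : Face c)
    (r : CRow c) (hr : rho T a v f r ≠ 0) (x : G.V) (hx : Sten c r x) : rad c (fbase c f) x ≤ 6 := by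
  classical
  have hm : (1 : ℝ) ≤ c.m := by exact_mod_cast hc.pos
  have hm0 : (0 : ℝ) < c.m := by linarith
  unfold rad
  rw [div_le_iff₀ hm0]
  rcases r with e | i
  · rw [tr2_rho_inl hc (by omega)] at hr
    have hst := abs_le.1 (nrm_dsp_stp (fbase c f) e.1 e.2)
    have key : nrm (dsp G (fbase c f) e.1) < 4 * (c.m : ℝ) + 1 ∧ nrm (dsp G (fbase c f) (stp e.1 e.2)) < 4 * (c.m : ℝ) + 1 := by
      by_cases h1 : Utr T v f (stp e.1 e.2) = 0
      · by_cases h2 : Utr T v f e.1 = 0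
        · by_cases h3 : dpl c.m f.2 (dsp G (fbase c f) e.1) e.2 = 0
          · exfalso
            apply hr
            rw [h1, h2, h3]
            simp
          · have h4 : nrm (dsp G (fbase c f) e.1) ≤ c.m := by
              by_contra hcon
              exact h3 (pl3_dpl_supp _ _ _ _ (not_le.1 hcon))
            constructor <;> linarith [hst.1, hst.2]
        · have h4 := tr2_Utr_supp hc T v f _ h2
          constructor <;> linarith [hst.1, hst.2]
      · have h4 := tr2_Utr_supp hc T v f _ h1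
        constructor <;> linarith [hst.1, hst.2]
    rcases hx with rfl | rfl
    · linarith [key.1]
    · linarith [key.2]
  · rw [tr2_rho_inr] at hr
    have h1 : avg c (Utr T v f) i ≠ 0 := by
      intro h0
      apply hr
      rw [h0]
      simp
    obtain ⟨y, hy, hy0⟩ := tr2_avg_ne _ i h1
    have h2 := tr2_Utr_supp hc T v f _ hy0
    have hx' : c.blk x = i := hx
    have h3 := abs_le.1 (nrm_dsp_cell hc (fbase c f) x y (hx'.trans hy.symm))
    linarith [h3.2]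

/-- a row charged by `rho` has a stencil -/
theorem rho_sten {c : Grid G} (T : Top c) (a : ℝ) (v : ℤ × ℤ → ℝ) (f : Face c) (r : CRow c) (hr : rho T a v f r ≠ 0) :
    ∃ x, Sten c r x := by
  classical
  rcases r with e | i
  · exact ⟨e.1, Or.inl rfl⟩
  · rw [tr2_rho_inr] at hr
    have h1 : avg c (Utr T v f) i ≠ 0 := by
      intro h0
      apply hr
      rw [h0]
      simp
    obtain ⟨y, hy, -⟩ := tr2_avg_ne _ i h1
    exact ⟨y, hy⟩

/-! ### LEAF L-FACE-TR3: the angular fields of the full junctions (`full_sum`, `full_l2`, `chiZ_disjoint`, and PL4 of `Plane.lean`; for `c.m < 8` all `Sz` vanish) -/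

theorem tr3_small {c : Grid G} (hc : Whole c) (T : Top c) (a : ℝ) (v : ℤ × ℤ → ℝ) (z : c.I) (h8 : c.m < 8) (r : CRow c) :
    Sz T a v z r = 0 := by
  classical
  rcases r with e | i
  · simp only [Sz]
    rw [(chiZ_facts c.m hc.pos _).2.2.2.2.1 h8]
    simp
  · rfl

open Classical in
theorem Sz_inner {c : Grid G} (hc : Whole c) (hn : 16 ≤ c.n) (T : Top c) (hT : T.Ok) (a : ℝ) (ha : 0 < a) (v : ℤ × ℤ → ℝ)
    (z z' : c.I) (hz : z ∈ T.V4) (hz' : z' ∈ T.V4) :
    ∑ r, Sz T a v z r * Sz T a v z' r = if z = z' then a⁻¹ * angE v c.m else 0 := by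
  have hsq : (Real.sqrt a)⁻¹ * (Real.sqrt a)⁻¹ = a⁻¹ := by
    rw [← mul_inv, Real.mul_self_sqrt ha.le]
  by_cases h8 : c.m < 8
  · have e1 : angE v c.m = 0 := by
      unfold angE
      refine Finset.sum_eq_zero fun x _ => Finset.sum_eq_zero fun d _ => ?_
      rw [(chiZ_facts c.m hc.pos _).2.2.2.2.1 h8]
      ring
    rw [e1]
    simp only [mul_zero, ite_self]
    exact Finset.sum_eq_zero fun r _ => by rw [tr3_small hc T a v z h8 r, zero_mul]
  rw [Fintype.sum_sum_type]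
  simp only [Sz, mul_zero, Finset.sum_const_zero, add_zero]
  split_ifs with hzz
  · subst hzz
    have := full_sum hc (by omega) hn T hT z hz (fun X d => a⁻¹ * (chiZ c.m X * ang v X d) ^ 2) (fun X d hX => by
      rw [(chiZ_facts c.m hc.pos X).2.2.2.1 hX]; ring)
    unfold angE
    rw [Finset.mul_sum]
    simp only [Finset.mul_sum]
    rw [← this]
    refine Finset.sum_congr rfl fun e _ => ?_
    split_ifs
    · rw [← hsq]; ring
    · ring
  · refine Finset.sum_eq_zero fun e _ => ?_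
    have := chiZ_disjoint hc z z' hzz e.1
    split_ifs
    · linear_combination ((Real.sqrt a)⁻¹ * (Real.sqrt a)⁻¹ * ang v (dsp G (jpt c z) e.1) e.2 * ang v (dsp G (jpt c z') e.1) e.2) * this
    · ring

theorem tr3_bf_nonneg {c : Grid G} (T : Top c) (a : ℝ) (ζ : G.V → ℝ) : 0 ≤ bf (T.Lc a) ζ ζ :=
  Finset.sum_nonneg fun _ _ => mul_self_nonneg _

/-- the dual norm: `sing_pairing` for `ζ ∘ π (jpt z + ·)`, then `full_l2`, `coer_l2` -/
theorem Sz_dual {c : Grid G} (hc : Whole c) (hn : 16 ≤ c.n) (T : Top c) (hT : T.Ok) (a : ℝ) (ha : 0 < a) {Cv : ℝ} {v : ℤ × ℤ → ℝ}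
    (hv : BoxField Cv (8 * c.m) v) (z : c.I) (hz : z ∈ T.V4) :
    DualB (T.Lc a) (Sz T a v z) ((200 * Cv) ^ 2 / a ^ 2 * max a 1) := by
  classical
  intro ζ
  have hsq : (Real.sqrt a)⁻¹ * (Real.sqrt a)⁻¹ = a⁻¹ := by
    rw [← mul_inv, Real.mul_self_sqrt ha.le]
  have hbf := tr3_bf_nonneg T a ζ
  have hmax : 0 < max a 1 := lt_max_of_lt_left ha
  by_cases h8 : c.m < 8
  · have : pr (T.Lc a) (Sz T a v z) ζ = 0 :=
      Finset.sum_eq_zero fun r _ => by rw [tr3_small hc T a v z h8 r, zero_mul]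
    rw [this]
    have : 0 ≤ (200 * Cv) ^ 2 / a ^ 2 * max a 1 := by positivity
    simpa using mul_nonneg this hbf
  have hs1 : 1 ≤ c.m := hc.pos
  have hs' : (0 : ℝ) < c.m := by exact_mod_cast hc.pos
  set ζ' : ℤ × ℤ → ℝ := fun X => ζ (G.π (jpt c z + X)) with hζ'
  have FC := full_chart hc (by omega) hn T hT z hz
  have E1 : pr (T.Lc a) (Sz T a v z) ζ
      = a⁻¹ * ∑ X ∈ bx c.m, ∑ d : Bool, chiZ c.m X * ang v X d * (ζ' (X + bdir d) - ζ' X) := by
    have := full_sum hc (by omega) hn T hT z hz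
      (fun X d => a⁻¹ * (chiZ c.m X * ang v X d * (ζ' (X + bdir d) - ζ' X))) (fun X d hX => by
      rw [(chiZ_facts c.m hc.pos X).2.2.2.1 hX]; ring)
    rw [Finset.mul_sum]
    simp only [Finset.mul_sum]
    rw [← this]
    unfold pr
    rw [Fintype.sum_sum_type]
    simp only [Sz, zero_mul, Finset.sum_const_zero, add_zero]
    refine Finset.sum_congr rfl fun e _ => ?_
    rw [Lc_inl]
    split_ifs with he
    · by_cases hX : (c.m : ℝ) ≤ 4 * nrm (dsp G (jpt c z) e.1)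
      · rw [(chiZ_facts c.m hc.pos _).2.2.2.1 hX]; ring
      · rw [not_le] at hX
        have h1 := (FC.2 (dsp G (jpt c z) e.1) e.2 hX).2
        have h2 := (pi_dsp (jpt c z) e.1).1
        rw [h2] at h1
        simp only [hζ']
        rw [h2, ← add_assoc, ← h1, ← hsq]
        ring
    · ring
  have SP := sing_pairing c.m hs1 hv ζ'
  have L2 := full_l2 hc hn T hT z hz (fun x => ζ x ^ 2) (fun x => sq_nonneg _)
  have CO := coer_l2 hc T a ha ζ
  rw [E1, mul_pow]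
  have hk : 0 ≤ (200 * Cv) ^ 2 / (c.m : ℝ) ^ 2 := by positivity
  have h3 : (∑ X ∈ bx c.m, ∑ d : Bool, chiZ c.m X * ang v X d * (ζ' (X + bdir d) - ζ' X)) ^ 2
      ≤ (200 * Cv) ^ 2 * (max a 1 * bf (T.Lc a) ζ ζ) := by
    calc _ ≤ (200 * Cv) ^ 2 / (c.m : ℝ) ^ 2 * ∑ x ∈ bx c.m, ζ' x ^ 2 := SP
      _ ≤ (200 * Cv) ^ 2 / (c.m : ℝ) ^ 2 * ∑ x ∈ c.sites T.cells, ζ x ^ 2 := mul_le_mul_of_nonneg_left L2 hk
      _ = (200 * Cv) ^ 2 * (((c.m : ℝ) ^ 2)⁻¹ * ∑ x ∈ c.sites T.cells, ζ x ^ 2) := by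
          rw [div_eq_mul_inv]; ring
      _ ≤ _ := mul_le_mul_of_nonneg_left CO (by positivity)
  calc _ ≤ a⁻¹ ^ 2 * ((200 * Cv) ^ 2 * (max a 1 * bf (T.Lc a) ζ ζ)) := mul_le_mul_of_nonneg_left h3 (by positivity)
    _ = _ := by rw [div_eq_mul_inv, inv_pow]; ring

/-- the `ℓ¹` norm -/
theorem Sz_l1 {c : Grid G} (hc : Whole c) (hn : 16 ≤ c.n) (T : Top c) (hT : T.Ok) (a : ℝ) (ha : 0 < a) {Cv : ℝ} {v : ℤ × ℤ → ℝ}
    (hv : BoxField Cv (8 * c.m) v) (z : c.I) (hz : z ∈ T.V4) :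
    ∑ r, |Sz T a v z r| ≤ (Real.sqrt a)⁻¹ * (16 * Cv * c.m) := by
  classical
  have hC := pl3_Cv_nonneg hv
  have hsa : 0 ≤ (Real.sqrt a)⁻¹ := by positivity
  by_cases h8 : c.m < 8
  · have : ∑ r, |Sz T a v z r| = 0 :=
      Finset.sum_eq_zero fun r _ => by rw [tr3_small hc T a v z h8 r, abs_zero]
    rw [this]
    positivity
  have E1 : ∑ r, |Sz T a v z r| = (Real.sqrt a)⁻¹ * ∑ X ∈ bx c.m, ∑ d : Bool, chiZ c.m X * |ang v X d| := by
    have := full_sum hc (by omega) hn T hT z hz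
      (fun X d => (Real.sqrt a)⁻¹ * (chiZ c.m X * |ang v X d|)) (fun X d hX => by
      rw [(chiZ_facts c.m hc.pos X).2.2.2.1 hX]; ring)
    rw [Finset.mul_sum]
    simp only [Finset.mul_sum]
    rw [← this, Fintype.sum_sum_type]
    simp only [Sz, abs_zero, Finset.sum_const_zero, add_zero]
    refine Finset.sum_congr rfl fun e _ => ?_
    split_ifs with he
    · rw [abs_mul, abs_mul, abs_of_nonneg hsa, abs_of_nonneg (chiZ_facts c.m hc.pos _).1]
    · exact abs_zero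
  rw [E1]
  exact mul_le_mul_of_nonneg_left (ang_l1 c.m hc.pos hv) hsa

/-! ### L-FACE-TR4: locality of the residual.  PROVED (helper251) -/

theorem idist_le_rad_fbase {c : Grid G} (hc : Whole c) (f : Face c) (x : G.V) :
    (c.idist (c.blk x) f.1 : ℝ) ≤ rad c (fbase c f) x + 1 := by
  by_cases h : f.2
  · have := idist_le_rad hc f.1 ((((f.1.1 : ℕ) + 1 : ℕ) : ℤ), ((f.1.2 : ℕ) : ℤ)) ⟨Or.inr (by push_cast; ring), Or.inl rfl⟩ x
    simpa [fbase, h] using this
  · have := idist_le_rad hc f.1 (((f.1.1 : ℕ) : ℤ), (((f.1.2 : ℕ) + 1 : ℕ) : ℤ)) ⟨Or.inl rfl, Or.inr (by push_cast; ring)⟩ x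
    simpa [fbase, h] using this

/-- a site of a stencil charged by `rho` is within index distance `7` of the face -/
theorem rho_near {c : Grid G} (hc : Whole c) (hn : 16 ≤ c.n) (T : Top c) (hT : T.Ok) (a : ℝ) (v : ℤ × ℤ → ℝ) (f : Face c)
    (r : CRow c) (hr : rho T a v f r ≠ 0) (x : G.V) (hx : Sten c r x) : c.idist (c.blk x) f.1 ≤ 7 := by
  have h1 := rho_lives hc hn T hT a v f r hr x hx
  have h2 := idist_le_rad_fbase hc f x
  have : (c.idist (c.blk x) f.1 : ℝ) ≤ 7 := by linarith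
  exact_mod_cast this

theorem sig_near {c : Grid G} (hn : 2 ≤ c.n) (T : Top c) (hT : T.Ok) (f : Face c) (z : c.I) (hz : z ∈ T.V4)
    (h : sig c z (Pi.single f 1) ≠ 0) : c.idist z f.1 ≤ 1 := by
  classical
  rw [sig_single c hn z f] at h
  by_cases h1 : z = f.1
  · rw [h1, Alg.idist_self]; omega
  · by_cases h2 : z = fpre c f
    · rw [h2]; exact idist_fpre hn T hT f (h2 ▸ hz)
    · simp [h1, h2] at h

theorem idist_le_rad_jpt {c : Grid G} (hc : Whole c) (z : c.I) (x : G.V) :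
    (c.idist (c.blk x) z : ℝ) ≤ rad c (jpt c z) x + 1 := by
  have := idist_le_rad hc z ((((z.1 : ℕ) + 1 : ℕ) : ℤ), (((z.2 : ℕ) + 1 : ℕ) : ℤ)) ⟨Or.inr (by push_cast; ring), Or.inr (by push_cast; ring)⟩ x
  simpa [jpt] using this

theorem rad_le_one_of_nrm {c : Grid G} (hc : Whole c) (P : ℤ × ℤ) (x : G.V) (h : nrm (dsp G P x) ≤ 1) : rad c P x ≤ 1 := by
  have hm : (1 : ℝ) ≤ c.m := by exact_mod_cast hc.pos
  unfold rad
  rw [div_le_one (by linarith)]
  linarith

theorem rho_local {c : Grid G} (hc : Whole c) (hn : 16 ≤ c.n) (T T' : Top c) (hT : T.Ok) (hT' : T'.Ok) (a : ℝ) (v : ℤ × ℤ → ℝ) (f : Face c)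
    (h : ∀ i ∈ T.disc T', 8 ≤ c.idist i f.1) : rho T a v f = rho T' a v f := by
  classical
  have hM : 4 ≤ G.M := by
    rw [whole_card hc]
    have := hc.pos
    nlinarith
  have m1 : jmask T (fbase c f) = jmask T' (fbase c f) := by
    refine mask_local T T' _ hM fun x hx hmem => ?_
    have a1 := rad_le_one_of_nrm hc _ x hx
    have a2 := idist_le_rad_fbase hc f x
    have a3 : ((8 : ℕ) : ℝ) ≤ (c.idist (c.blk x) f.1 : ℝ) := by exact_mod_cast h _ hmem
    push_cast at a3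
    linarith
  have m2 : jmask T (jpt c f.1) = jmask T' (jpt c f.1) := by
    refine mask_local T T' _ hM fun x hx hmem => ?_
    have a1 := rad_le_one_of_nrm hc _ x hx
    have a2 := idist_le_rad_jpt hc f.1 x
    have a3 : ((8 : ℕ) : ℝ) ≤ (c.idist (c.blk x) f.1 : ℝ) := by exact_mod_cast h _ hmem
    push_cast at a3
    linarith
  have hU : Utr T v f = Utr T' v f := by
    funext x; unfold Utr; rw [m1, m2]
  funext r
  by_cases hfar : ∀ x, Sten c r x → c.blk x ∉ T.disc T'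
  · unfold rho
    simp only [Pi.add_apply, Matrix.mulVec]
    rw [Lc_agree T T' a r hfar, dc_agree T T' a _ r hfar, hU]
  · push Not at hfar
    obtain ⟨x, hx, hmem⟩ := hfar
    have h8 := h _ hmem
    have z1 : rho T a v f r = 0 := by
      by_contra hne
      have := rho_near hc hn T hT a v f r hne x hx
      omega
    have z2 : rho T' a v f r = 0 := by
      by_contra hne
      have := rho_near hc hn T' hT' a v f r hne x hx
      omega
    rw [z1, z2]

theorem rho_rows {c : Grid G} (hc : Whole c) (hn : 16 ≤ c.n) (T T' : Top c) (hT : T.Ok) (a : ℝ) (v : ℤ × ℤ → ℝ) (f : Face c)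
    (h : ∀ i ∈ T.disc T', 8 ≤ c.idist i f.1) (r : CRow c) (hr : rho T a v f r ≠ 0) : T.Lc a r = T'.Lc a r := by
  refine Lc_agree T T' a r fun x hx hmem => ?_
  have := rho_near hc hn T hT a v f r hr x hx
  have := h _ hmem
  omega

open Classical in
theorem sigsum_local {c : Grid G} (hn : 2 ≤ c.n) (T T' : Top c) (hT : T.Ok) (hT' : T'.Ok) (f f' : Face c)
    (h : ∀ i ∈ T.disc T', 3 ≤ c.idist i f.1) :
    ∑ z ∈ T.V4, sig c z (Pi.single f 1) * sig c z (Pi.single f' 1) = ∑ z ∈ T'.V4, sig c z (Pi.single f 1) * sig c z (Pi.single f' 1) := by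
  have key : ∀ z, sig c z (Pi.single f 1) ≠ 0 → (z ∈ T.V4 ↔ z ∈ T'.V4) := by
    intro z hz
    have hloc : c.idist z f.1 ≤ 1 → (z ∈ T.V4 ↔ z ∈ T'.V4) := by
      intro h1
      refine V4_local T T' hT hT' z fun i hi => ?_
      have := h i hi
      have := Alg.idist_triangle c i z f.1
      omega
    constructor
    · intro hm; exact (hloc (sig_near hn T hT f z hm hz)).mp hm
    · intro hm; exact (hloc (sig_near hn T' hT' f z hm hz)).mpr hm
  have e : ∀ S : Top c, ∑ z ∈ S.V4, sig c z (Pi.single f 1) * sig c z (Pi.single f' 1)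
      = ∑ z, if z ∈ S.V4 then sig c z (Pi.single f 1) * sig c z (Pi.single f' 1) else 0 := by
    intro S
    rw [Finset.sum_ite_mem, Finset.univ_inter]
  rw [e T, e T']
  refine Finset.sum_congr rfl fun z _ => ?_
  by_cases hz : sig c z (Pi.single f 1) = 0
  · simp [hz]
  · simp only [key z hz]

/-!
## ROW 285, PK-FACE, part ASSEMBLY: assembly of [F] Lemma 4.5      (architect helper251)

`H_G (f, f') = Arem - ⟨L ξ_f, L ξ_f'⟩` (`Hm_formula`), `Arem = ⟨rho_f, rho_f'⟩ - D_s ∑_{V4} σ σ` is bounded, of finite range and local; the second term is treated by `ct_decay`, `ct_local`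
with `ϱ = rad c (fbase ·)`, `R0 = 6`.  Constants: `cP a` (coercivity), `lamF a` (rate), `cN a Cv` (squared dual norm of `rho`), `cA a Cv` (bound of `Arem`).
The contracts of `R285/F4a/Face.lean` are proved here under the names `*_pf`.
-/


/-- coercivity constant -/
def cP (a : ℝ) : ℝ := (8 / a + 1) * max a 1
/-- the rate -/
def lamF (a : ℝ) : ℝ := (1 + 80 * cP a)⁻¹
/-- squared dual norm of the residuals -/
def cN (a Cv : ℝ) : ℝ := 2 * ((400000 / a + 2000) * (Cv + 3) ^ 2) + 8 * ((200 * Cv) ^ 2 / a ^ 2 * max a 1)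
/-- bound of the explicit part -/
def cA (a Cv : ℝ) : ℝ := (500000 / a + 2000) * (Cv + 3) ^ 2

open Classical in
/-- the explicit part of `H_G` -/
def Arem {c : Grid G} (T : Top c) (a : ℝ) (v : ℤ × ℤ → ℝ) (f f' : Face c) : ℝ :=
  ∑ r, rho T a v f r * rho T a v f' r - a⁻¹ * angE v c.m * ∑ z ∈ T.V4, sig c z (Pi.single f 1) * sig c z (Pi.single f' 1)

/-! ### L-FACE-M1 .. M5: PROVED (helper251) -/

/-! #### M1: constants, the formula for `H_G`, the dual norm of `rho` -/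

theorem cP_pos (a : ℝ) (ha : 0 < a) : 0 < cP a := by
  unfold cP
  have : (0 : ℝ) < max a 1 := lt_max_of_lt_left ha
  positivity

theorem lamF_facts (a : ℝ) (ha : 0 < a) : 0 < lamF a ∧ lamF a ≤ 1 ∧ 80 * lamF a ^ 2 * cP a ≤ 1 ∧ 0 ≤ cP a := by
  have hP := cP_pos a ha
  have h1 : (1 : ℝ) ≤ 1 + 80 * cP a := by linarith
  have h0 : (0 : ℝ) < 1 + 80 * cP a := by linarith
  refine ⟨inv_pos.mpr h0, inv_le_one_of_one_le₀ h1, ?_, hP.le⟩
  unfold lamF
  rw [inv_pow, mul_assoc, mul_comm, mul_assoc, ← div_eq_inv_mul, div_le_one (by positivity)]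
  nlinarith

theorem Hm_formula {c : Grid G} (T : Top c) (a : ℝ) (ha : 0 < a) (v : ℤ × ℤ → ℝ) (f f' : Face c) (ξ ξ' : G.V → ℝ)
    (h : Sol (T.Lc a) (rho T a v f) ξ) (h' : Sol (T.Lc a) (rho T a v f') ξ') :
    T.Hm a (a⁻¹ * angE v c.m) f f' = Arem T a v f f' - bf (T.Lc a) ξ ξ' := by
  unfold Top.Hm Arem
  rw [Qmat_eq_lsqB_c T a ha f f', lsqB_bf (T.Lc a) _ _ (Utr T v f) (Utr T v f') ξ ξ' h h']
  unfold rho
  ring

theorem dual_mono {ι V : Type} [Fintype ι] [Fintype V] (L : Matrix ι V ℝ) (ρ : ι → ℝ) (N N' : ℝ) (h : DualB L ρ N) (hN : N ≤ N') :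
    DualB L ρ N' := fun ζ => (h ζ).trans (mul_le_mul_of_nonneg_right hN (bf_self_nonneg L ζ))

theorem dual_zero {ι V : Type} [Fintype ι] [Fintype V] (L : Matrix ι V ℝ) (N : ℝ) (hN : 0 ≤ N) : DualB L 0 N := by
  intro ζ
  have : pr L 0 ζ = 0 := by simp [pr]
  rw [this]
  have := bf_self_nonneg L ζ
  have h2 := mul_nonneg hN this
  simpa using h2

open Classical in
/-- only the two ends of a face contribute to a sum over the full junctions -/
theorem sigsum_two {E : Type} [AddCommGroup E] [Module ℝ E] {c : Grid G} (hn : 2 ≤ c.n) (T : Top c) (f : Face c) (Φ : c.I → E) :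
    ∑ z ∈ T.V4, sig c z (Pi.single f 1) • Φ z
      = sg f.2 • ((if fpre c f ∈ T.V4 then Φ (fpre c f) else 0) - (if f.1 ∈ T.V4 then Φ f.1 else 0)) := by
  have h1 : ∀ z ∈ T.V4, sig c z (Pi.single f 1) • Φ z
      = sg f.2 • ((if z = fpre c f then Φ z else 0) - (if z = f.1 then Φ z else 0)) := by
    intro z _
    rw [sig_single c hn z f, mul_smul, sub_smul]
    congr 2 <;> split_ifs <;> simp
  rw [Finset.sum_congr rfl h1, ← Finset.smul_sum, Finset.sum_sub_distrib, Finset.sum_ite_eq', Finset.sum_ite_eq']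

theorem sg_sq (t : Bool) : sg t ^ 2 = 1 := by cases t <;> simp [sg]

theorem sg_abs (t : Bool) : |sg t| = 1 := by cases t <;> simp [sg]

theorem rho_eq {c : Grid G} (T : Top c) (a : ℝ) (v : ℤ × ℤ → ℝ) (f : Face c) :
    rho T a v f = reg T a v f + ∑ z ∈ T.V4, sig c z (Pi.single f 1) • Sz T a v z := by
  unfold reg; abel

theorem rho_dual {c : Grid G} (hc : Whole c) (hn : 16 ≤ c.n) (T : Top c) (hT : T.Ok) (a : ℝ) (ha : 0 < a) {Cv : ℝ} {v : ℤ × ℤ → ℝ}
    (hv : BoxField Cv (8 * c.m) v) (f : Face c) : DualB (T.Lc a) (rho T a v f) (cN a Cv) := by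
  classical
  set NS : ℝ := (200 * Cv) ^ 2 / a ^ 2 * max a 1 with hNS
  have hNS0 : 0 ≤ NS := by
    have : (0 : ℝ) < max a 1 := lt_max_of_lt_left ha
    positivity
  have hS : ∀ z, DualB (T.Lc a) (if z ∈ T.V4 then Sz T a v z else 0) NS := by
    intro z
    split_ifs with hz
    · exact Sz_dual hc hn T hT a ha hv z hz
    · exact dual_zero _ _ hNS0
  have hreg : DualB (T.Lc a) (reg T a v f) ((400000 / a + 2000) * (Cv + 3) ^ 2) :=
    dual_mono _ _ _ _ (dual_of_sq _ _) (reg_sq hc hn T hT a ha hv f)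
  rw [rho_eq, sigsum_two (by omega) T f (Sz T a v)]
  have h2 := dual_add _ _ _ _ _ (hS (fpre c f)) (dual_smul _ _ _ (-1) (hS f.1))
  have h3 := dual_smul _ _ _ (sg f.2) h2
  have h4 := dual_add _ _ _ _ _ hreg h3
  have e : (if fpre c f ∈ T.V4 then Sz T a v (fpre c f) else 0) + (-1 : ℝ) • (if f.1 ∈ T.V4 then Sz T a v f.1 else 0)
      = (if fpre c f ∈ T.V4 then Sz T a v (fpre c f) else 0) - (if f.1 ∈ T.V4 then Sz T a v f.1 else 0) := by
    rw [neg_one_smul, sub_eq_add_neg]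
  rw [e] at h4
  refine dual_mono _ _ _ _ h4 ?_
  rw [sg_sq]
  unfold cN
  rw [← hNS]
  linarith


/-! #### M2: the explicit part -/

theorem Cv_nonneg {Cv : ℝ} {R : ℕ} {v : ℤ × ℤ → ℝ} (hv : BoxField Cv R v) : 0 ≤ Cv := (abs_nonneg _).trans (hv.bdd 0)

/-- the singular part of the residual -/
def Ssum {c : Grid G} (T : Top c) (a : ℝ) (v : ℤ × ℤ → ℝ) (κ : c.I → ℝ) : CRow c → ℝ := ∑ z ∈ T.V4, κ z • Sz T a v z

theorem Ssum_apply {c : Grid G} (T : Top c) (a : ℝ) (v : ℤ × ℤ → ℝ) (κ : c.I → ℝ) (r : CRow c) :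
    Ssum T a v κ r = ∑ z ∈ T.V4, κ z * Sz T a v z r := by
  simp [Ssum, Finset.sum_apply]

theorem Ssum_inner {c : Grid G} (hc : Whole c) (hn : 16 ≤ c.n) (T : Top c) (hT : T.Ok) (a : ℝ) (ha : 0 < a) (v : ℤ × ℤ → ℝ)
    (κ κ' : c.I → ℝ) : ∑ r, Ssum T a v κ r * Ssum T a v κ' r = a⁻¹ * angE v c.m * ∑ z ∈ T.V4, κ z * κ' z := by
  classical
  simp only [Ssum_apply, Finset.sum_mul_sum]
  rw [Finset.sum_comm]
  rw [Finset.mul_sum]
  refine Finset.sum_congr rfl fun z hz => ?_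
  rw [Finset.sum_comm]
  have h1 : ∀ z' ∈ T.V4, ∑ r, κ z * Sz T a v z r * (κ' z' * Sz T a v z' r)
      = if z = z' then κ z * κ' z' * (a⁻¹ * angE v c.m) else 0 := by
    intro z' hz'
    have := Sz_inner hc hn T hT a ha v z z' hz hz'
    calc ∑ r, κ z * Sz T a v z r * (κ' z' * Sz T a v z' r) = κ z * κ' z' * ∑ r, Sz T a v z r * Sz T a v z' r := by
          rw [Finset.mul_sum]; exact Finset.sum_congr rfl fun r _ => by ring
      _ = _ := by rw [this]; split_ifs <;> ring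
  rw [Finset.sum_congr rfl h1, Finset.sum_ite_eq, if_pos hz]
  ring

theorem Sz_reg_le {c : Grid G} (hc : Whole c) (hn : 16 ≤ c.n) (T : Top c) (hT : T.Ok) (a : ℝ) (ha : 0 < a) {Cv : ℝ} {v : ℤ × ℤ → ℝ}
    (hv : BoxField Cv (8 * c.m) v) (f : Face c) (z : c.I) (hz : z ∈ T.V4) :
    |∑ r, Sz T a v z r * reg T a v f r| ≤ 640 * Cv * (Cv + 3) / a := by
  have hm : (0 : ℝ) < c.m := by exact_mod_cast hc.pos
  have hCv := Cv_nonneg hv
  have hsq : 0 < Real.sqrt a := Real.sqrt_pos.mpr ha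
  set β : ℝ := (Real.sqrt a)⁻¹ * (40 * (Cv + 3) / c.m) with hβ
  have hβ0 : 0 ≤ β := by positivity
  have h1 : ∀ r, |Sz T a v z r * reg T a v f r| ≤ |Sz T a v z r| * β := by
    intro r
    rw [abs_mul]
    cases r with
    | inl e => exact mul_le_mul_of_nonneg_left (reg_inl_bound hc hn T hT a hv f e).1 (abs_nonneg _)
    | inr i => simp [Sz]
  calc |∑ r, Sz T a v z r * reg T a v f r| ≤ ∑ r, |Sz T a v z r * reg T a v f r| := Finset.abs_sum_le_sum_abs _ _
    _ ≤ ∑ r, |Sz T a v z r| * β := Finset.sum_le_sum fun r _ => h1 r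
    _ = (∑ r, |Sz T a v z r|) * β := by rw [Finset.sum_mul]
    _ ≤ ((Real.sqrt a)⁻¹ * (16 * Cv * c.m)) * β := mul_le_mul_of_nonneg_right (Sz_l1 hc hn T hT a ha hv z hz) hβ0
    _ = 640 * Cv * (Cv + 3) / a := by
        rw [hβ]
        have : Real.sqrt a * Real.sqrt a = a := Real.mul_self_sqrt ha.le
        field_simp
        rw [sq, this]; ring

theorem Ssig_reg_le {c : Grid G} (hc : Whole c) (hn : 16 ≤ c.n) (T : Top c) (hT : T.Ok) (a : ℝ) (ha : 0 < a) {Cv : ℝ} {v : ℤ × ℤ → ℝ}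
    (hv : BoxField Cv (8 * c.m) v) (f f' : Face c) :
    |∑ r, Ssum T a v (fun z => sig c z (Pi.single f 1)) r * reg T a v f' r| ≤ 1280 * Cv * (Cv + 3) / a := by
  classical
  have hCv := Cv_nonneg hv
  have hB : 0 ≤ 640 * Cv * (Cv + 3) / a := by positivity
  have e : Ssum T a v (fun z => sig c z (Pi.single f 1))
      = sg f.2 • ((if fpre c f ∈ T.V4 then Sz T a v (fpre c f) else 0) - (if f.1 ∈ T.V4 then Sz T a v f.1 else 0)) :=
    sigsum_two (by omega) T f (Sz T a v)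
  have hz : ∀ z, |∑ r, (if z ∈ T.V4 then Sz T a v z else 0) r * reg T a v f' r| ≤ 640 * Cv * (Cv + 3) / a := by
    intro z
    split_ifs with h
    · exact Sz_reg_le hc hn T hT a ha hv f' z h
    · simpa using hB
  rw [e]
  have e2 : ∑ r, (sg f.2 • ((if fpre c f ∈ T.V4 then Sz T a v (fpre c f) else 0) - (if f.1 ∈ T.V4 then Sz T a v f.1 else 0))) r * reg T a v f' r
      = sg f.2 * (∑ r, (if fpre c f ∈ T.V4 then Sz T a v (fpre c f) else 0) r * reg T a v f' r
          - ∑ r, (if f.1 ∈ T.V4 then Sz T a v f.1 else 0) r * reg T a v f' r) := by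
    rw [← Finset.sum_sub_distrib, Finset.mul_sum]
    exact Finset.sum_congr rfl fun r _ => by simp only [Pi.smul_apply, Pi.sub_apply, smul_eq_mul]; ring
  rw [e2, abs_mul, sg_abs, one_mul]
  have h1 := hz (fpre c f)
  have h2 := hz f.1
  calc _ ≤ _ + _ := abs_sub _ _
    _ ≤ 1280 * Cv * (Cv + 3) / a := by
      have : 1280 * Cv * (Cv + 3) / a = 640 * Cv * (Cv + 3) / a + 640 * Cv * (Cv + 3) / a := by ring
      rw [this]; exact add_le_add h1 h2

theorem Arem_bound {c : Grid G} (hc : Whole c) (hn : 16 ≤ c.n) (T : Top c) (hT : T.Ok) (a : ℝ) (ha : 0 < a) {Cv : ℝ} {v : ℤ × ℤ → ℝ}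
    (hv : BoxField Cv (8 * c.m) v) (f f' : Face c) : |Arem T a v f f'| ≤ cA a Cv := by
  classical
  have hCv := Cv_nonneg hv
  set S := Ssum T a v (fun z => sig c z (Pi.single f 1)) with hS
  set S' := Ssum T a v (fun z => sig c z (Pi.single f' 1)) with hS'
  have e1 : ∀ r, rho T a v f r = reg T a v f r + S r := fun r => by rw [rho_eq]; rfl
  have e2 : ∀ r, rho T a v f' r = reg T a v f' r + S' r := fun r => by rw [rho_eq]; rfl
  have hexp : Arem T a v f f' = ∑ r, reg T a v f r * reg T a v f' r + ∑ r, S' r * reg T a v f r + ∑ r, S r * reg T a v f' r := by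
    unfold Arem
    rw [← Ssum_inner hc hn T hT a ha v, ← hS, ← hS', ← Finset.sum_sub_distrib, ← Finset.sum_add_distrib, ← Finset.sum_add_distrib]
    exact Finset.sum_congr rfl fun r _ => by rw [e1, e2]; ring
  have h1 : |∑ r, reg T a v f r * reg T a v f' r| ≤ (400000 / a + 2000) * (Cv + 3) ^ 2 := by
    have hN : 0 ≤ (400000 / a + 2000) * (Cv + 3) ^ 2 := by positivity
    refine abs_le_of_sq_le_sq ?_ hN
    refine (Finset.sum_mul_sq_le_sq_mul_sq _ _ _).trans ?_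
    rw [sq ((400000 / a + 2000) * (Cv + 3) ^ 2)]
    exact mul_le_mul (reg_sq hc hn T hT a ha hv f) (reg_sq hc hn T hT a ha hv f') (Finset.sum_nonneg fun r _ => sq_nonneg _) hN
  have h2 := Ssig_reg_le hc hn T hT a ha hv f' f
  have h3 := Ssig_reg_le hc hn T hT a ha hv f f'
  rw [hexp]
  have h4 : 1280 * Cv * (Cv + 3) / a ≤ 1280 / a * (Cv + 3) ^ 2 := by
    have : 1280 * Cv * (Cv + 3) / a = 1280 / a * (Cv * (Cv + 3)) := by ring
    rw [this]
    refine mul_le_mul_of_nonneg_left ?_ (by positivity)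
    nlinarith
  calc _ ≤ |∑ r, reg T a v f r * reg T a v f' r + ∑ r, S' r * reg T a v f r| + |∑ r, S r * reg T a v f' r| := abs_add_le _ _
    _ ≤ |∑ r, reg T a v f r * reg T a v f' r| + |∑ r, S' r * reg T a v f r| + |∑ r, S r * reg T a v f' r| := by
        gcongr; exact abs_add_le _ _
    _ ≤ (400000 / a + 2000) * (Cv + 3) ^ 2 + 1280 / a * (Cv + 3) ^ 2 + 1280 / a * (Cv + 3) ^ 2 := by
        gcongr
        · exact h2.trans h4
        · exact h3.trans h4
    _ ≤ cA a Cv := by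
        unfold cA
        have : 0 ≤ (Cv + 3) ^ 2 / a := by positivity
        have e : (500000 / a + 2000) * (Cv + 3) ^ 2 - ((400000 / a + 2000) * (Cv + 3) ^ 2 + 1280 / a * (Cv + 3) ^ 2 + 1280 / a * (Cv + 3) ^ 2)
            = 97440 * ((Cv + 3) ^ 2 / a) := by ring
        linarith


theorem Arem_far {c : Grid G} (hc : Whole c) (hn : 16 ≤ c.n) (T : Top c) (hT : T.Ok) (a : ℝ) (v : ℤ × ℤ → ℝ) (f f' : Face c)
    (h : 14 < c.idist f.1 f'.1) : Arem T a v f f' = 0 := by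
  classical
  unfold Arem
  have h1 : ∑ r, rho T a v f r * rho T a v f' r = 0 := by
    refine Finset.sum_eq_zero fun r _ => ?_
    by_contra hne
    have hr : rho T a v f r ≠ 0 := fun h0 => hne (by rw [h0, zero_mul])
    have hr' : rho T a v f' r ≠ 0 := fun h0 => hne (by rw [h0, mul_zero])
    obtain ⟨x, hx⟩ := rho_sten T a v f r hr
    have a1 := rho_near hc hn T hT a v f r hr x hx
    have a2 := rho_near hc hn T hT a v f' r hr' x hx
    have a3 := Alg.idist_triangle c f.1 (c.blk x) f'.1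
    rw [Alg.idist_comm c f.1 (c.blk x)] at a3
    omega
  have h2 : ∑ z ∈ T.V4, sig c z (Pi.single f 1) * sig c z (Pi.single f' 1) = 0 := by
    refine Finset.sum_eq_zero fun z hz => ?_
    by_contra hne
    have hr : sig c z (Pi.single f 1) ≠ 0 := fun h0 => hne (by rw [h0, zero_mul])
    have hr' : sig c z (Pi.single f' 1) ≠ 0 := fun h0 => hne (by rw [h0, mul_zero])
    have a1 := sig_near (by omega) T hT f z hz hr
    have a2 := sig_near (by omega) T hT f' z hz hr'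
    have a3 := Alg.idist_triangle c f.1 z f'.1
    rw [Alg.idist_comm c f.1 z] at a3
    omega
  rw [h1, h2]; ring

theorem Arem_local {c : Grid G} (hc : Whole c) (hn : 16 ≤ c.n) (T T' : Top c) (hT : T.Ok) (hT' : T'.Ok) (a : ℝ) (v : ℤ × ℤ → ℝ) (f f' : Face c)
    (h : ∀ i ∈ T.disc T', 8 ≤ c.idist i f.1 ∧ 8 ≤ c.idist i f'.1) : Arem T a v f f' = Arem T' a v f f' := by
  unfold Arem
  rw [rho_local hc hn T T' hT hT' a v f (fun i hi => (h i hi).1), rho_local hc hn T T' hT hT' a v f' (fun i hi => (h i hi).2),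
    sigsum_local (by omega) T T' hT hT' f f' (fun i hi => by have := (h i hi).1; omega)]

/-! #### M3: decay of the correction (`ct_decay`, `ϱ = rad c (fbase c f)`, `R0 = 6`, `D1 = idist - 14`) -/

theorem cN_nonneg (a Cv : ℝ) (ha : 0 < a) : 0 ≤ cN a Cv := by
  unfold cN
  have : (0 : ℝ) < max a 1 := lt_max_of_lt_left ha
  positivity

theorem rho_Lives {c : Grid G} (hc : Whole c) (hn : 16 ≤ c.n) (T : Top c) (hT : T.Ok) (a : ℝ) (v : ℤ × ℤ → ℝ) (f : Face c) :
    Lives (T.Lc a) (rho T a v f) fun x => rad c (fbase c f) x ≤ 6 :=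
  fun r x hr hx => rho_lives hc hn T hT a v f r hr x (Lc_sten T a r x hx)

theorem X_crude {c : Grid G} (hc : Whole c) (hn : 16 ≤ c.n) (T : Top c) (hT : T.Ok) (a : ℝ) (ha : 0 < a) {Cv : ℝ} {v : ℤ × ℤ → ℝ}
    (hv : BoxField Cv (8 * c.m) v) (f f' : Face c) (ξ ξ' : G.V → ℝ)
    (h : Sol (T.Lc a) (rho T a v f) ξ) (h' : Sol (T.Lc a) (rho T a v f') ξ') : |bf (T.Lc a) ξ ξ'| ≤ cN a Cv := by
  have hN := cN_nonneg a Cv ha
  refine abs_le_of_sq_le_sq ?_ hN
  refine (bf_cs _ _ _).trans ?_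
  rw [sq (cN a Cv)]
  exact mul_le_mul (sol_energy _ _ _ _ hN h (rho_dual hc hn T hT a ha hv f)) (sol_energy _ _ _ _ hN h' (rho_dual hc hn T hT a ha hv f'))
    (bf_self_nonneg _ _) hN

theorem X_decay {c : Grid G} (hc : Whole c) (hn : 16 ≤ c.n) (T : Top c) (hT : T.Ok) (a : ℝ) (ha : 0 < a) {Cv : ℝ} {v : ℤ × ℤ → ℝ}
    (hv : BoxField Cv (8 * c.m) v) (f f' : Face c) (ξ ξ' : G.V → ℝ)
    (h : Sol (T.Lc a) (rho T a v f) ξ) (h' : Sol (T.Lc a) (rho T a v f') ξ') :
    |bf (T.Lc a) ξ ξ'| ≤ 2 * cN a Cv * Real.exp (14 * lamF a) * Real.exp (-lamF a * c.idist f.1 f'.1) := by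
  have hN := cN_nonneg a Cv ha
  obtain ⟨hl0, hl1, hl2, hP⟩ := lamF_facts a ha
  have hexp : Real.exp (14 * lamF a) * Real.exp (-lamF a * c.idist f.1 f'.1) = Real.exp (-(lamF a * ((c.idist f.1 f'.1 : ℝ) - 14))) := by
    rw [← Real.exp_add]; congr 1; ring
  rw [mul_assoc, hexp]
  by_cases hd : 14 ≤ c.idist f.1 f'.1
  · have hD : (0 : ℝ) ≤ (c.idist f.1 f'.1 : ℝ) - 14 := by
      have : ((14 : ℕ) : ℝ) ≤ (c.idist f.1 f'.1 : ℝ) := by exact_mod_cast hd
      push_cast at this; linarith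
    have hl₂ : Lives (T.Lc a) (rho T a v f') fun x => 6 + ((c.idist f.1 f'.1 : ℝ) - 14) ≤ rad c (fbase c f) x := by
      intro r x hr hx
      have hs := Lc_sten T a r x hx
      have a1 := rho_near hc hn T hT a v f' r hr x hs
      have a2 := idist_le_rad_fbase hc f x
      have a3 := Alg.idist_triangle c f.1 (c.blk x) f'.1
      rw [Alg.idist_comm c f.1 (c.blk x)] at a3
      have a4 : (c.idist f.1 f'.1 : ℝ) ≤ (c.idist (c.blk x) f.1 : ℝ) + 7 := by
        have : c.idist f.1 f'.1 ≤ c.idist (c.blk x) f.1 + 7 := by omega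
        exact_mod_cast this
      show 6 + ((c.idist f.1 f'.1 : ℝ) - 14) ≤ rad c (fbase c f) x
      linarith
    have key := ct_decay (T.Lc a) (tsc c) (tsc_mem hc) (cP a) (coer_Lc hc T a ha) (rad c (fbase c f)) (radr c (fbase c f))
      (slow_rad hc T a _) (lamF a) hl0.le hl1 hl2 6 ((c.idist f.1 f'.1 : ℝ) - 14) hD (rho T a v f) (rho T a v f') ξ ξ'
      (cN a Cv) (cN a Cv) hN hN (rho_Lives hc hn T hT a v f) hl₂ (rho_dual hc hn T hT a ha hv f) (rho_dual hc hn T hT a ha hv f') h h'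
    refine abs_le_of_sq_le_sq (key.trans ?_) (by positivity)
    have e : Real.exp (-(2 * lamF a * ((c.idist f.1 f'.1 : ℝ) - 14))) = Real.exp (-(lamF a * ((c.idist f.1 f'.1 : ℝ) - 14))) ^ 2 := by
      rw [← Real.exp_nat_mul]; congr 1; push_cast; ring
    rw [e, mul_pow, mul_pow]
    have : 0 ≤ cN a Cv ^ 2 * Real.exp (-(lamF a * ((c.idist f.1 f'.1 : ℝ) - 14))) ^ 2 := by positivity
    nlinarith
  · have hd' : (c.idist f.1 f'.1 : ℝ) - 14 ≤ 0 := by
      have : c.idist f.1 f'.1 ≤ 14 := by omega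
      have : (c.idist f.1 f'.1 : ℝ) ≤ ((14 : ℕ) : ℝ) := by exact_mod_cast this
      push_cast at this; linarith
    have h1 : 1 ≤ Real.exp (-(lamF a * ((c.idist f.1 f'.1 : ℝ) - 14))) := by
      rw [← Real.exp_zero]
      exact Real.exp_le_exp.mpr (by nlinarith)
    have := X_crude hc hn T hT a ha hv f f' ξ ξ' h h'
    nlinarith


/-! #### M4: locality of the correction (`ct_local`, `ϱ = rad c (fbase c f')`, `R0 = 6`, `D1 = D - 12`) -/

theorem X_local {c : Grid G} (hc : Whole c) (hn : 16 ≤ c.n) (T T' : Top c) (hT : T.Ok) (hT' : T'.Ok) (a : ℝ) (ha : 0 < a) {Cv : ℝ} {v : ℤ × ℤ → ℝ}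
    (hv : BoxField Cv (8 * c.m) v) (f f' : Face c) (D : ℕ) (hD : 12 ≤ D)
    (hdisc : ∀ i ∈ T.disc T', D ≤ c.idist i f.1 ∧ D ≤ c.idist i f'.1) (ξ₁ ξ₂ ξ₁' ξ₂' : G.V → ℝ)
    (h₁ : Sol (T.Lc a) (rho T a v f) ξ₁) (h₂ : Sol (T.Lc a) (rho T a v f') ξ₂)
    (h₁' : Sol (T'.Lc a) (rho T' a v f) ξ₁') (h₂' : Sol (T'.Lc a) (rho T' a v f') ξ₂') :
    |bf (T.Lc a) ξ₁ ξ₂ - bf (T'.Lc a) ξ₁' ξ₂'| ≤ 8 * (1 + cP a) * cN a Cv * Real.exp (12 * lamF a) * Real.exp (-lamF a * D) := by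
  have hN := cN_nonneg a Cv ha
  obtain ⟨hl0, hl1, hl2, hP⟩ := lamF_facts a ha
  have h8 : ∀ i ∈ T.disc T', 8 ≤ c.idist i f.1 := fun i hi => by have := (hdisc i hi).1; omega
  have h8' : ∀ i ∈ T.disc T', 8 ≤ c.idist i f'.1 := fun i hi => by have := (hdisc i hi).2; omega
  have e1 := rho_local hc hn T T' hT hT' a v f h8
  have e2 := rho_local hc hn T T' hT hT' a v f' h8'
  rw [← e1] at h₁'
  rw [← e2] at h₂'
  have hd₁' : DualB (T'.Lc a) (rho T a v f) (cN a Cv) := by rw [e1]; exact rho_dual hc hn T' hT' a ha hv f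
  have hDr : (0 : ℝ) ≤ (D : ℝ) - 12 := by
    have : ((12 : ℕ) : ℝ) ≤ (D : ℝ) := by exact_mod_cast hD
    push_cast at this; linarith
  have hag : ∀ r x, (T.Lc a r x ≠ 0 ∨ T'.Lc a r x ≠ 0) → rad c (fbase c f') x < 6 + ((D : ℝ) - 12) + 4 → T.Lc a r = T'.Lc a r := by
    intro r x hx hlt
    have hs : Sten c r x := hx.elim (Lc_sten T a r x) (Lc_sten T' a r x)
    refine Lc_agree T T' a r fun y hy hmem => ?_
    have a1 := abs_le.mp (rad_sten2 hc (fbase c f') r y x hy hs)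
    have a2 := idist_le_rad_fbase hc f' y
    have a3 : (D : ℝ) ≤ (c.idist (c.blk y) f'.1 : ℝ) := by exact_mod_cast (hdisc _ hmem).2
    linarith [a1.2]
  have key := ct_local (T.Lc a) (T'.Lc a) (tsc c) (tsc_mem hc) (cP a) hP (coer_Lc hc T a ha) (coer_Lc hc T' a ha)
    (rad c (fbase c f')) (radr c (fbase c f')) (slow_rad hc T a _) (lamF a) hl0.le hl1 hl2 6 ((D : ℝ) - 12) hDr hag
    (rho T a v f) (rho T a v f') ξ₁ ξ₂ ξ₁' ξ₂' (cN a Cv) (cN a Cv) hN hN (rho_Lives hc hn T hT a v f')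
    (rho_rows hc hn T T' hT a v f h8) (rho_rows hc hn T T' hT a v f' h8')
    (rho_dual hc hn T hT a ha hv f) hd₁' (rho_dual hc hn T hT a ha hv f') h₁ h₂ h₁' h₂'
  have hexp : Real.exp (12 * lamF a) * Real.exp (-lamF a * D) = Real.exp (-(lamF a * ((D : ℝ) - 12))) := by
    rw [← Real.exp_add]; congr 1; ring
  rw [mul_assoc, hexp]
  refine abs_le_of_sq_le_sq (key.trans ?_) (by positivity)
  have e : Real.exp (-(2 * lamF a * ((D : ℝ) - 12))) = Real.exp (-(lamF a * ((D : ℝ) - 12))) ^ 2 := by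
    rw [← Real.exp_nat_mul]; congr 1; push_cast; ring
  rw [e, mul_pow, mul_pow, mul_pow]
  have h3 : 0 ≤ cN a Cv ^ 2 * Real.exp (-(lamF a * ((D : ℝ) - 12))) ^ 2 := by positivity
  have h4 : cP a ≤ (1 + cP a) ^ 2 := by nlinarith
  calc 64 * cP a * cN a Cv * cN a Cv * Real.exp (-(lamF a * ((D : ℝ) - 12))) ^ 2
      = 64 * cP a * (cN a Cv ^ 2 * Real.exp (-(lamF a * ((D : ℝ) - 12))) ^ 2) := by ring
    _ ≤ 64 * (1 + cP a) ^ 2 * (cN a Cv ^ 2 * Real.exp (-(lamF a * ((D : ℝ) - 12))) ^ 2) := by gcongr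
    _ = _ := by ring

/-! #### M5: the three conclusions for one topology, with `D_s = a⁻¹ angE v s` -/

/-- the constant of (ent:face-matrix-bounds) -/
def cH (a Cv : ℝ) : ℝ := 2 * (cA a Cv + 8 * (1 + cP a) * cN a Cv) * Real.exp (26 * lamF a)


theorem cA_nonneg (a Cv : ℝ) (ha : 0 < a) : 0 ≤ cA a Cv := by
  unfold cA; positivity

theorem Hm_decay {c : Grid G} (hc : Whole c) (hn : 16 ≤ c.n) (T : Top c) (hT : T.Ok) (a : ℝ) (ha : 0 < a) {Cv : ℝ} {v : ℤ × ℤ → ℝ}
    (hv : BoxField Cv (8 * c.m) v) (f f' : Face c) :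
    |T.Hm a (a⁻¹ * angE v c.m) f f'| ≤ cH a Cv / 2 * Real.exp (-lamF a * c.idist f.1 f'.1) := by
  have hN := cN_nonneg a Cv ha
  have hA := cA_nonneg a Cv ha
  obtain ⟨hl0, hl1, hl2, hP⟩ := lamF_facts a ha
  obtain ⟨ξ, hξ⟩ := sol_exists (T.Lc a) (rho T a v f)
  obtain ⟨ξ', hξ'⟩ := sol_exists (T.Lc a) (rho T a v f')
  rw [Hm_formula T a ha v f f' ξ ξ' hξ hξ']
  have h1 := X_decay hc hn T hT a ha hv f f' ξ ξ' hξ hξ'
  set E := Real.exp (-lamF a * c.idist f.1 f'.1) with hE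
  have hE0 : 0 < E := Real.exp_pos _
  have h2 : |Arem T a v f f'| ≤ cA a Cv * Real.exp (14 * lamF a) * E := by
    by_cases hd : 14 < c.idist f.1 f'.1
    · rw [Arem_far hc hn T hT a v f f' hd, abs_zero]; positivity
    · have hd' : (c.idist f.1 f'.1 : ℝ) ≤ 14 := by
        have : c.idist f.1 f'.1 ≤ 14 := by omega
        have : (c.idist f.1 f'.1 : ℝ) ≤ ((14 : ℕ) : ℝ) := by exact_mod_cast this
        simpa using this
      have h3 : 1 ≤ Real.exp (14 * lamF a) * E := by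
        rw [hE, ← Real.exp_add, ← Real.exp_zero]
        exact Real.exp_le_exp.mpr (by nlinarith)
      have := Arem_bound hc hn T hT a ha hv f f'
      rw [mul_assoc]
      nlinarith
  have h26 : Real.exp (14 * lamF a) ≤ Real.exp (26 * lamF a) := Real.exp_le_exp.mpr (by linarith)
  have h14 : 0 < Real.exp (14 * lamF a) := Real.exp_pos _
  calc |Arem T a v f f' - bf (T.Lc a) ξ ξ'| ≤ |Arem T a v f f'| + |bf (T.Lc a) ξ ξ'| := abs_sub _ _
    _ ≤ cA a Cv * Real.exp (14 * lamF a) * E + 2 * cN a Cv * Real.exp (14 * lamF a) * E := add_le_add h2 h1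
    _ = (cA a Cv + 2 * cN a Cv) * Real.exp (14 * lamF a) * E := by ring
    _ ≤ (cA a Cv + 8 * (1 + cP a) * cN a Cv) * Real.exp (26 * lamF a) * E := by
        have : cA a Cv + 2 * cN a Cv ≤ cA a Cv + 8 * (1 + cP a) * cN a Cv := by nlinarith
        gcongr
    _ = cH a Cv / 2 * E := by unfold cH; ring

theorem cH_nonneg (a Cv : ℝ) (ha : 0 < a) : 0 ≤ cH a Cv := by
  have hN := cN_nonneg a Cv ha
  have hA := cA_nonneg a Cv ha
  have hP := (lamF_facts a ha).2.2.2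
  unfold cH; positivity

theorem Hm_local {c : Grid G} (hc : Whole c) (hn : 16 ≤ c.n) (T T' : Top c) (hT : T.Ok) (hT' : T'.Ok) (a : ℝ) (ha : 0 < a) {Cv : ℝ} {v : ℤ × ℤ → ℝ}
    (hv : BoxField Cv (8 * c.m) v) (f f' : Face c) (D : ℕ) (hdisc : ∀ i ∈ T.disc T', D ≤ c.idist i f.1 ∧ D ≤ c.idist i f'.1) :
    |T.Hm a (a⁻¹ * angE v c.m) f f' - T'.Hm a (a⁻¹ * angE v c.m) f f'|
      ≤ cH a Cv * min (Real.exp (-lamF a * c.idist f.1 f'.1)) (Real.exp (-lamF a * D)) := by
  have hN := cN_nonneg a Cv ha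
  have hA := cA_nonneg a Cv ha
  have hH := cH_nonneg a Cv ha
  obtain ⟨hl0, hl1, hl2, hP⟩ := lamF_facts a ha
  have d1 := Hm_decay hc hn T hT a ha hv f f'
  have d2 := Hm_decay hc hn T' hT' a ha hv f f'
  have hfirst : |T.Hm a (a⁻¹ * angE v c.m) f f' - T'.Hm a (a⁻¹ * angE v c.m) f f'| ≤ cH a Cv * Real.exp (-lamF a * c.idist f.1 f'.1) := by
    calc _ ≤ _ + _ := abs_sub _ _
      _ ≤ cH a Cv / 2 * Real.exp (-lamF a * c.idist f.1 f'.1) + cH a Cv / 2 * Real.exp (-lamF a * c.idist f.1 f'.1) := add_le_add d1 d2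
      _ = _ := by ring
  have hsecond : |T.Hm a (a⁻¹ * angE v c.m) f f' - T'.Hm a (a⁻¹ * angE v c.m) f f'| ≤ cH a Cv * Real.exp (-lamF a * D) := by
    by_cases hD : 12 ≤ D
    · obtain ⟨ξ₁, h₁⟩ := sol_exists (T.Lc a) (rho T a v f)
      obtain ⟨ξ₂, h₂⟩ := sol_exists (T.Lc a) (rho T a v f')
      obtain ⟨ξ₁', h₁'⟩ := sol_exists (T'.Lc a) (rho T' a v f)
      obtain ⟨ξ₂', h₂'⟩ := sol_exists (T'.Lc a) (rho T' a v f')
      rw [Hm_formula T a ha v f f' ξ₁ ξ₂ h₁ h₂, Hm_formula T' a ha v f f' ξ₁' ξ₂' h₁' h₂',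
        Arem_local hc hn T T' hT hT' a v f f' (fun i hi => by have := hdisc i hi; omega)]
      have := X_local hc hn T T' hT hT' a ha hv f f' D hD hdisc ξ₁ ξ₂ ξ₁' ξ₂' h₁ h₂ h₁' h₂'
      have e : Arem T' a v f f' - bf (T.Lc a) ξ₁ ξ₂ - (Arem T' a v f f' - bf (T'.Lc a) ξ₁' ξ₂')
          = -(bf (T.Lc a) ξ₁ ξ₂ - bf (T'.Lc a) ξ₁' ξ₂') := by ring
      rw [e, abs_neg]
      refine this.trans ?_
      have h26 : Real.exp (12 * lamF a) ≤ Real.exp (26 * lamF a) := Real.exp_le_exp.mpr (by linarith)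
      have hE0 : 0 < Real.exp (-lamF a * D) := Real.exp_pos _
      have h12 : 0 < Real.exp (12 * lamF a) := Real.exp_pos _
      have hle : 8 * (1 + cP a) * cN a Cv * Real.exp (12 * lamF a) ≤ cH a Cv := by
        unfold cH
        have h5 : 0 ≤ 8 * (1 + cP a) * cN a Cv := by positivity
        have h6 : 0 < Real.exp (26 * lamF a) := Real.exp_pos _
        nlinarith [mul_le_mul_of_nonneg_left h26 h5, mul_nonneg hA h6.le, mul_nonneg h5 h6.le]
      exact mul_le_mul_of_nonneg_right hle hE0.le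
    · have hD' : (D : ℝ) ≤ 12 := by
        have : D ≤ 12 := by omega
        have : (D : ℝ) ≤ ((12 : ℕ) : ℝ) := by exact_mod_cast this
        simpa using this
      -- crude bound
      have hcr : ∀ (S : Top c), S.Ok → |S.Hm a (a⁻¹ * angE v c.m) f f'| ≤ (cA a Cv + cN a Cv) := by
        intro S hS
        obtain ⟨ξ, hξ⟩ := sol_exists (S.Lc a) (rho S a v f)
        obtain ⟨ξ', hξ'⟩ := sol_exists (S.Lc a) (rho S a v f')
        rw [Hm_formula S a ha v f f' ξ ξ' hξ hξ']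
        calc _ ≤ _ + _ := abs_sub _ _
          _ ≤ _ := add_le_add (Arem_bound hc hn S hS a ha hv f f') (X_crude hc hn S hS a ha hv f f' ξ ξ' hξ hξ')
      have c1 := hcr T hT
      have c2 := hcr T' hT'
      have h3 : 1 ≤ Real.exp (26 * lamF a) * Real.exp (-lamF a * D) := by
        rw [← Real.exp_add, ← Real.exp_zero]
        exact Real.exp_le_exp.mpr (by nlinarith)
      calc _ ≤ _ + _ := abs_sub _ _
        _ ≤ (cA a Cv + cN a Cv) + (cA a Cv + cN a Cv) := add_le_add c1 c2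
        _ ≤ 2 * (cA a Cv + 8 * (1 + cP a) * cN a Cv) * 1 := by nlinarith
        _ ≤ 2 * (cA a Cv + 8 * (1 + cP a) * cN a Cv) * (Real.exp (26 * lamF a) * Real.exp (-lamF a * D)) := by
            have : 0 ≤ 2 * (cA a Cv + 8 * (1 + cP a) * cN a Cv) := by positivity
            exact mul_le_mul_of_nonneg_left h3 this
        _ = _ := by unfold cH; ring
  rw [mul_min_of_nonneg _ _ hH]
  exact le_min hfirst hsecond


theorem row_sum_le {c : Grid G} (T : Top c) (κ K : ℝ) (hκ : 0 < κ) (hK : 0 ≤ K) (i : c.I) :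
    ∑ f' ∈ T.faces, K / 2 * Real.exp (-κ * c.idist i f'.1) ≤ K * (2 / (1 - Real.exp (-κ / 2))) ^ 2 := by
  calc ∑ f' ∈ T.faces, K / 2 * Real.exp (-κ * c.idist i f'.1)
      ≤ ∑ f' : Face c, K / 2 * Real.exp (-κ * c.idist i f'.1) :=
        Finset.sum_le_sum_of_subset_of_nonneg (Finset.subset_univ _) fun f' _ _ => by positivity
    _ = K * ∑ j : c.I, Real.exp (-κ * c.idist i j) := by
        rw [Fintype.sum_prod_type, Finset.mul_sum]
        refine Finset.sum_congr rfl fun j _ => ?_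
        simp only [Fintype.sum_bool]
        ring
    _ ≤ _ := mul_le_mul_of_nonneg_left (sum_exp_idist κ hκ c i) hK

theorem Qf_trial {c : Grid G} (hc : Whole c) (hn : 16 ≤ c.n) (T : Top c) (hT : T.Ok) (a : ℝ) (ha : 0 < a) {Cv : ℝ} {v : ℤ × ℤ → ℝ}
    (hv : BoxField Cv (8 * c.m) v) (w : Face c → ℝ) :
    T.Qf a w ≤ a⁻¹ * angE v c.m * ∑ z ∈ T.V4, sig c z w ^ 2
      + cH a Cv * (2 / (1 - Real.exp (-lamF a / 2))) ^ 2 * ∑ f ∈ T.faces, w f ^ 2 := by
  have hH := cH_nonneg a Cv ha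
  obtain ⟨hl0, hl1, hl2, hP⟩ := lamF_facts a ha
  rw [face_decomposition T a (a⁻¹ * angE v c.m) ha w]
  refine add_le_add le_rfl ?_
  set B := cH a Cv * (2 / (1 - Real.exp (-lamF a / 2))) ^ 2 with hB
  set K : Face c → Face c → ℝ := fun f f' => cH a Cv / 2 * Real.exp (-lamF a * c.idist f.1 f'.1) with hK
  have hK0 : ∀ f f', 0 ≤ K f f' := fun f f' => by simp only [hK]; positivity
  have hrow : ∀ f, ∑ f' ∈ T.faces, K f f' ≤ B := fun f => row_sum_le T (lamF a) (cH a Cv) hl0 hH f.1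
  have hcol : ∀ f', ∑ f ∈ T.faces, K f f' ≤ B := by
    intro f'
    have : ∀ f, K f f' = K f' f := fun f => by simp only [hK]; rw [Alg.idist_comm]
    rw [Finset.sum_congr rfl fun f _ => this f]
    exact hrow f'
  have hterm : ∀ f f', T.Hm a (a⁻¹ * angE v c.m) f f' * w f * w f' ≤ K f f' * (w f ^ 2 / 2) + K f f' * (w f' ^ 2 / 2) := by
    intro f f'
    have h1 := Hm_decay hc hn T hT a ha hv f f'
    have h2 : T.Hm a (a⁻¹ * angE v c.m) f f' * w f * w f' ≤ |T.Hm a (a⁻¹ * angE v c.m) f f'| * (|w f| * |w f'|) := by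
      rw [mul_assoc, ← abs_mul, ← abs_mul]; exact le_abs_self _
    have h3 : |w f| * |w f'| ≤ w f ^ 2 / 2 + w f' ^ 2 / 2 := by
      have := sq_nonneg (|w f| - |w f'|)
      have e1 := sq_abs (w f)
      have e2 := sq_abs (w f')
      nlinarith
    calc _ ≤ _ := h2
      _ ≤ K f f' * (w f ^ 2 / 2 + w f' ^ 2 / 2) := mul_le_mul h1 h3 (by positivity) (hK0 f f')
      _ = _ := by ring
  calc ∑ f ∈ T.faces, ∑ f' ∈ T.faces, T.Hm a (a⁻¹ * angE v c.m) f f' * w f * w f'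
      ≤ ∑ f ∈ T.faces, ∑ f' ∈ T.faces, (K f f' * (w f ^ 2 / 2) + K f f' * (w f' ^ 2 / 2)) :=
        Finset.sum_le_sum fun f _ => Finset.sum_le_sum fun f' _ => hterm f f'
    _ = ∑ f ∈ T.faces, (∑ f' ∈ T.faces, K f f') * (w f ^ 2 / 2) + ∑ f' ∈ T.faces, (∑ f ∈ T.faces, K f f') * (w f' ^ 2 / 2) := by
        simp only [Finset.sum_add_distrib]
        congr 1
        · exact Finset.sum_congr rfl fun f _ => by rw [Finset.sum_mul]
        · rw [Finset.sum_comm]; exact Finset.sum_congr rfl fun f _ => by rw [Finset.sum_mul]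
    _ ≤ ∑ f ∈ T.faces, B * (w f ^ 2 / 2) + ∑ f' ∈ T.faces, B * (w f' ^ 2 / 2) :=
        add_le_add (Finset.sum_le_sum fun f _ => mul_le_mul_of_nonneg_right (hrow f) (by positivity))
          (Finset.sum_le_sum fun f _ => mul_le_mul_of_nonneg_right (hcol f) (by positivity))
    _ = B * ∑ f ∈ T.faces, w f ^ 2 := by
        rw [← Finset.sum_add_distrib, Finset.mul_sum]
        exact Finset.sum_congr rfl fun f _ => by ring

/-! ### LEAF L-FACE-BOX3: the angular fields, from the killed Green function.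
`n = R + 2`, `F y = Green.gL (2 n) centre (y + (n, n))`, `v = pot (rot true F) (rot false F)` in `InBox n`, `0` outside (`F4a/UnitA.lean`, helper226, sorry-free: `pot_vert`, `pot_horiz`, `rot_div`, `rot_curl`, `pot_bound`).
Inputs (`R285/Green/Top.lean`, helper185, sorry-free): `der_main` (`r = 1`: decay; `r = 2` + `greenD_rev_snd`: the row `0`, `a (i, 0) = π ×` a second difference), `gL_poisson`, `gL_bdry`. -/

/-- **the angular fields** -/
theorem box_field : ∃ Cv : ℝ, ∀ R : ℕ, ∃ v : ℤ × ℤ → ℝ, BoxField Cv R v := by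
  -- the plane branch `vInf` of `F4a/Unit.lean` works for every `R` (helper226)
  refine ⟨5 * f42C3 + 2 * Real.pi, fun _ => ⟨vInf, vInf_bound, fun x _ => ?_, fun x d _ => ?_⟩⟩
  · simp only [etaP_vInf]
    exact aInf_div x
  · rw [etaP_vInf]
    have h := f42_bound0 _ x (aInf_bound d [] (by simp) x)
    have h3 := f42C3_pos
    have hpi := Real.pi_pos
    have s0 := sn_nonneg x
    refine h.trans ?_
    exact mul_le_mul_of_nonneg_right (by linarith) (by positivity)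

/-!
## ROW 285, PK-FACE, part FINAL: the contracts of `R285/F4a/Face.lean`      (architect helper251)
Statements VERBATIM those of the contract file, names `*_pf`.
-/

open scoped ENNReal NNReal
open MeasureTheory ProbabilityTheory Polynomial


/-! ### L-FACE-F1 (PROVED, helper251): `box_field` gives `Cv` and `v_s` (choice); `Ds s = a⁻¹ angE (v_s) s`, `cc = lamF a`, `n1 = 16`, `C = max` of `64 Cv²/a`, `cH`, `cH (2/(1-e^{-λ/2}))²`; then `angE_bound`, `Qf_trial`, `Hm_decay`, `Hm_local` -/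

theorem face_localization_pf (a : ℝ) (ha : 0 < a) : ∃ (C cc : ℝ) (n1 : ℕ) (Ds : ℕ → ℝ), 0 < cc ∧ FaceLoc a C cc n1 Ds := by
  obtain ⟨Cv, hbox⟩ := box_field
  choose vs hvs using fun s : ℕ => hbox (8 * s)
  obtain ⟨hl0, hl1, hl2, hP⟩ := lamF_facts a ha
  have hH := cH_nonneg a Cv ha
  set S : ℝ := (2 / (1 - Real.exp (-lamF a / 2))) ^ 2 with hS
  set C : ℝ := max (64 * Cv ^ 2 / a) (max (cH a Cv) (cH a Cv * S)) with hC
  have hC1 : 64 * Cv ^ 2 / a ≤ C := le_max_left _ _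
  have hC2 : cH a Cv ≤ C := (le_max_left _ _).trans (le_max_right _ _)
  have hC3 : cH a Cv * S ≤ C := (le_max_right _ _).trans (le_max_right _ _)
  refine ⟨C, lamF a, 16, fun s => a⁻¹ * angE (vs s) s, hl0, ?_⟩
  intro s hs
  have hb := angE_bound s hs (hvs s)
  have hlog : 0 ≤ Real.log (2 + s) := Real.log_nonneg (by have : (0 : ℝ) ≤ s := Nat.cast_nonneg s; linarith)
  refine ⟨mul_nonneg (inv_pos.mpr ha).le hb.1, ?_, ?_⟩
  · calc a⁻¹ * angE (vs s) s ≤ a⁻¹ * (64 * Cv ^ 2 * Real.log (2 + s)) := mul_le_mul_of_nonneg_left hb.2 (inv_pos.mpr ha).le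
      _ = 64 * Cv ^ 2 / a * Real.log (2 + s) := by ring
      _ ≤ C * Real.log (2 + s) := mul_le_mul_of_nonneg_right hC1 hlog
  · intro G c hc hm hn T hT
    subst hm
    refine ⟨fun w => ?_, fun f f' => ?_, fun T' hT' f f' D hD => ?_⟩
    · refine (Qf_trial hc hn T hT a ha (hvs c.m) w).trans ?_
      exact add_le_add le_rfl (mul_le_mul_of_nonneg_right hC3 (Finset.sum_nonneg fun f _ => sq_nonneg _))
    · refine (Hm_decay hc hn T hT a ha (hvs c.m) f f').trans ?_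
      exact mul_le_mul_of_nonneg_right (by linarith) (Real.exp_pos _).le
    · refine (Hm_local hc hn T T' hT hT' a ha (hvs c.m) f f' D hD).trans ?_
      exact mul_le_mul_of_nonneg_right hC2 (le_min (Real.exp_pos _).le (Real.exp_pos _).le)

theorem face_energy_upper_pf (a : ℝ) (ha : 0 < a) : ∃ (C : ℝ) (n1 : ℕ), ∀ (G : Geom) (c : Grid G), Whole c → n1 ≤ c.n →
    ∀ T : Top c, T.Ok → ∀ (τ : Face c → ℤ) (y : c.I → ℝ),
      T.Eobs a τ y ≤ C * ∑ f ∈ T.faces, wf c τ y f ^ 2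
        + C * Real.log (2 + c.m) * ∑ z ∈ T.V4, ((τ (z, true) + τ (fnb c (z, true), false) - τ (fnb c (z, false), true) - τ (z, false) : ℤ) : ℝ) ^ 2 := by
  obtain ⟨C, cc, n1, Ds, _, hF⟩ := face_localization_pf a ha
  have hC0 : 0 ≤ C := by
    obtain ⟨h1, h2, _⟩ := hF 1 le_rfl
    have hlog : 0 < Real.log (2 + ((1 : ℕ) : ℝ)) := Real.log_pos (by norm_num)
    by_contra hneg
    have : C * Real.log (2 + ((1 : ℕ) : ℝ)) < 0 := mul_neg_of_neg_of_pos (not_le.mp hneg) hlog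
    linarith
  have hpi : 1 ≤ 4 * Real.pi ^ 2 := by nlinarith [Real.pi_gt_three]
  refine ⟨C * (4 * Real.pi ^ 2), n1, fun G c hc hn T hT τ y => ?_⟩
  obtain ⟨h1, h2, h3⟩ := hF c.m hc.pos
  have h4 := (h3 G c hc rfl hn T hT).1 (wf c τ y)
  rw [Qf_physical hc T hT a τ y] at h4
  refine h4.trans ?_
  have e : ∑ z ∈ T.V4, sig c z (wf c τ y) ^ 2
      = 4 * Real.pi ^ 2 * ∑ z ∈ T.V4, ((τ (z, true) + τ (fnb c (z, true), false) - τ (fnb c (z, false), true) - τ (z, false) : ℤ) : ℝ) ^ 2 := by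
    rw [Finset.mul_sum]
    exact Finset.sum_congr rfl fun z _ => by rw [sig_wf]; ring
  rw [e, add_comm]
  have hs1 : 0 ≤ ∑ f ∈ T.faces, wf c τ y f ^ 2 := Finset.sum_nonneg fun f _ => sq_nonneg _
  have hs2 : 0 ≤ ∑ z ∈ T.V4, ((τ (z, true) + τ (fnb c (z, true), false) - τ (fnb c (z, false), true) - τ (z, false) : ℤ) : ℝ) ^ 2 :=
    Finset.sum_nonneg fun z _ => sq_nonneg _
  refine add_le_add ?_ ?_
  · refine mul_le_mul_of_nonneg_right ?_ hs1
    nlinarith
  · calc Ds c.m * (4 * Real.pi ^ 2 * ∑ z ∈ T.V4, ((τ (z, true) + τ (fnb c (z, true), false) - τ (fnb c (z, false), true) - τ (z, false) : ℤ) : ℝ) ^ 2)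
        ≤ (C * Real.log (2 + c.m)) * (4 * Real.pi ^ 2 * ∑ z ∈ T.V4, ((τ (z, true) + τ (fnb c (z, true), false) - τ (fnb c (z, false), true) - τ (z, false) : ℤ) : ℝ) ^ 2) :=
          mul_le_mul_of_nonneg_right h2 (by positivity)
      _ = _ := by ring

/-! ### L-FACE-F2 (PROVED, helper251): the guarded error.  `m := (r + idist f.1 f'.1 + D) / 5`.  One of three holds (otherwise `r ≤ 3 (m-1)`, `D ≤ m - 1`, `idist ≤ m - 1` by `Alg.idist_triangle`):
(i) `m ≤ idist f.1 f'.1`: four times the first line;  (ii) all of `disc G0 G1` is at distance `≥ m` from `f.1, f'.1`: second line for `(G0, G1)` and `(G0|O, G1|O)` (`disc_restr`);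
(iii) all of `disc G_k (G_k|O)` is at distance `≥ m - 1`: second line for `(G0, G0|O)`, `(G1, G1|O)` (`disc_restr_self`).  `cc' = cc/5`, `C' = 4 C e^{2 cc}`. -/

theorem restr_ok {c : Grid G} (T : Top c) (hT : T.Ok) (O : Finset c.I) : (T.restr O).Ok := by
  classical
  intro f hf
  simp only [Top.restr, Finset.mem_filter] at hf
  obtain ⟨h1, h2, h3⟩ := hT f hf.1
  exact ⟨h1, by simp only [Top.restr]; exact Finset.mem_inter.mpr ⟨h2, hf.2.1⟩, by simp only [Top.restr]; exact Finset.mem_inter.mpr ⟨h3, hf.2.2⟩⟩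

theorem disc_restr {c : Grid G} (T T' : Top c) (O : Finset c.I) : (T.restr O).disc (T'.restr O) ⊆ T.disc T' := by
  classical
  intro i hi
  simp only [Top.disc, Top.restr, Finset.mem_filter, Finset.mem_univ, true_and, Finset.mem_inter] at hi ⊢
  rcases hi with h | ⟨f, hf, h⟩
  · left
    intro hiff
    exact h (by rw [hiff])
  · right
    refine ⟨f, hf, fun hiff => h (by rw [hiff])⟩

theorem disc_restr_self {c : Grid G} (T : Top c) (hT : T.Ok) (O : Finset c.I) (i : c.I) (hi : i ∈ T.disc (T.restr O)) :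
    ∃ j, j ∉ O ∧ c.idist i j ≤ 1 := by
  classical
  simp only [Top.disc, Top.restr, Finset.mem_filter, Finset.mem_univ, true_and, Finset.mem_inter] at hi
  rcases hi with h | ⟨f, hf, h⟩
  · refine ⟨i, fun hO => h ⟨fun hc => ⟨hc, hO⟩, fun hc => hc.1⟩, by rw [Alg.idist_self]; omega⟩
  · have hfT : f ∈ T.faces := by
      by_contra hne
      exact h ⟨fun h1 => absurd h1 hne, fun h1 => h1.1⟩
    have hnO : ¬ (f.1 ∈ O ∧ fnb c f ∈ O) := fun hO => h ⟨fun _ => ⟨hfT, hO⟩, fun _ => hfT⟩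
    have hd := idist_fnb f (hT f hfT).1
    have hd' : c.idist f.1 (fnb c f) ≤ 1 := by rw [Alg.idist_comm]; exact hd
    by_cases h1 : f.1 ∈ O
    · have h2 : fnb c f ∉ O := fun h2 => hnO ⟨h1, h2⟩
      rcases hf with rfl | rfl
      · exact ⟨_, h2, hd'⟩
      · exact ⟨_, h2, by rw [Alg.idist_self]; omega⟩
    · rcases hf with rfl | rfl
      · exact ⟨_, h1, by rw [Alg.idist_self]; omega⟩
      · exact ⟨_, h1, hd⟩

theorem guarded_face_error_pf (a C cc : ℝ) (n1 : ℕ) (Ds : ℕ → ℝ) (hcc : 0 < cc) (h : FaceLoc a C cc n1 Ds) : ∃ (C' cc' : ℝ), 0 < cc' ∧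
    ∀ (G : Geom) (c : Grid G), Whole c → n1 ≤ c.n → ∀ G0 G1 : Top c, G0.Ok → G1.Ok →
      ∀ (O : Finset c.I) (r : ℕ), (∀ i ∈ G0.disc G1, ∀ j, j ∉ O → r ≤ c.idist i j) →
      ∀ (f f' : Face c) (D : ℕ), (∀ i ∈ G0.disc G1, D ≤ c.idist i f.1 ∧ D ≤ c.idist i f'.1) →
        |(G0.Hm a (Ds c.m) f f' - G1.Hm a (Ds c.m) f f') - ((G0.restr O).Hm a (Ds c.m) f f' - (G1.restr O).Hm a (Ds c.m) f f')|
          ≤ C' * Real.exp (-cc' * r - cc' * c.idist f.1 f'.1 - cc' * D) := by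
  refine ⟨4 * C * Real.exp (2 * cc), cc / 5, by positivity, ?_⟩
  intro G c hc hn G0 G1 h0 h1 O r hr f f' D hD
  obtain ⟨_, _, hall⟩ := h c.m hc.pos
  have HT := fun (T : Top c) (hT : T.Ok) => hall G c hc rfl hn T hT
  have h0O := restr_ok G0 h0 O
  have h1O := restr_ok G1 h1 O
  set d := c.idist f.1 f'.1 with hd
  set m := (r + d + D) / 5 with hm
  set H0 := G0.Hm a (Ds c.m) f f'
  set H1 := G1.Hm a (Ds c.m) f f'
  set H0O := (G0.restr O).Hm a (Ds c.m) f f'
  set H1O := (G1.restr O).Hm a (Ds c.m) f f'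
  have hC0 : 0 ≤ C := by
    have := (HT G0 h0).2.1 f f'
    have h2 : 0 ≤ C * Real.exp (-cc * c.idist f.1 f'.1) := (abs_nonneg _).trans this
    exact nonneg_of_mul_nonneg_left h2 (Real.exp_pos _)
  -- the target in terms of `m`
  have hfin : 4 * C * Real.exp (-cc * ((m : ℝ) - 1)) ≤ 4 * C * Real.exp (2 * cc) * Real.exp (-(cc / 5) * r - cc / 5 * d - cc / 5 * D) := by
    rw [mul_assoc (4 * C), ← Real.exp_add]
    refine mul_le_mul_of_nonneg_left (Real.exp_le_exp.mpr ?_) (by positivity)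
    have h5 : r + d + D ≤ 5 * m + 4 := by omega
    have h5' : (r : ℝ) + d + D ≤ 5 * m + 4 := by exact_mod_cast h5
    nlinarith
  refine le_trans ?_ hfin
  have hexpm : ∀ t : ℕ, m - 1 ≤ t → Real.exp (-cc * (t : ℝ)) ≤ Real.exp (-cc * ((m : ℝ) - 1)) := by
    intro t ht
    refine Real.exp_le_exp.mpr ?_
    have : (m : ℝ) - 1 ≤ t := by
      have : m ≤ t + 1 := by omega
      have : (m : ℝ) ≤ (t : ℝ) + 1 := by exact_mod_cast this
      linarith
    nlinarith
  set E := Real.exp (-cc * ((m : ℝ) - 1)) with hE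
  have hE0 : 0 < E := Real.exp_pos _
  by_cases c1 : m ≤ d
  · -- four times the first line
    have b := hexpm d (by omega)
    have e0 := ((HT G0 h0).2.1 f f').trans (mul_le_mul_of_nonneg_left b hC0)
    have e1 := ((HT G1 h1).2.1 f f').trans (mul_le_mul_of_nonneg_left b hC0)
    have e2 := ((HT _ h0O).2.1 f f').trans (mul_le_mul_of_nonneg_left b hC0)
    have e3 := ((HT _ h1O).2.1 f f').trans (mul_le_mul_of_nonneg_left b hC0)
    have a0 := abs_le.mp e0
    have a1 := abs_le.mp e1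
    have a2 := abs_le.mp e2
    have a3 := abs_le.mp e3
    rw [abs_le]
    constructor <;> linarith [a0.1, a0.2, a1.1, a1.2, a2.1, a2.2, a3.1, a3.2]
  by_cases c2 : ∀ i ∈ G0.disc G1, m ≤ c.idist i f.1 ∧ m ≤ c.idist i f'.1
  · have b := hexpm m (by omega)
    have e0 := ((HT G0 h0).2.2 G1 h1 f f' m c2).trans
      (mul_le_mul_of_nonneg_left ((min_le_right _ _).trans b) hC0)
    have e1 := ((HT _ h0O).2.2 _ h1O f f' m (fun i hi => c2 i (disc_restr G0 G1 O hi))).trans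
      (mul_le_mul_of_nonneg_left ((min_le_right _ _).trans b) hC0)
    have a0 := abs_le.mp e0
    have a1 := abs_le.mp e1
    have hCE : 0 ≤ C * E := by positivity
    rw [abs_le]
    constructor <;> linarith [a0.1, a0.2, a1.1, a1.2]
  by_cases c3 : (∀ i ∈ G0.disc (G0.restr O), m - 1 ≤ c.idist i f.1 ∧ m - 1 ≤ c.idist i f'.1) ∧
      (∀ i ∈ G1.disc (G1.restr O), m - 1 ≤ c.idist i f.1 ∧ m - 1 ≤ c.idist i f'.1)
  · have b := hexpm (m - 1) le_rfl
    have e0 := ((HT G0 h0).2.2 _ h0O f f' (m - 1) c3.1).trans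
      (mul_le_mul_of_nonneg_left ((min_le_right _ _).trans b) hC0)
    have e1 := ((HT G1 h1).2.2 _ h1O f f' (m - 1) c3.2).trans
      (mul_le_mul_of_nonneg_left ((min_le_right _ _).trans b) hC0)
    have a0 := abs_le.mp e0
    have a1 := abs_le.mp e1
    have hCE : 0 ≤ C * E := by positivity
    rw [abs_le]
    constructor <;> linarith [a0.1, a0.2, a1.1, a1.2]
  -- contradiction
  exfalso
  push Not at c2
  obtain ⟨i0, hi0, hi0'⟩ := c2
  have hj : ∃ j0 j1, j1 ∉ O ∧ c.idist j0 j1 ≤ 1 ∧ ¬ (m - 1 ≤ c.idist j0 f.1 ∧ m - 1 ≤ c.idist j0 f'.1) := by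
    by_contra hno
    push Not at hno
    refine c3 ⟨fun i hi => ?_, fun i hi => ?_⟩
    · obtain ⟨j, hjO, hij⟩ := disc_restr_self G0 h0 O i hi
      by_contra hne
      rw [not_and] at hne
      have := hno i j hjO hij
      exact hne this.1 this.2
    · obtain ⟨j, hjO, hij⟩ := disc_restr_self G1 h1 O i hi
      by_contra hne
      rw [not_and] at hne
      have := hno i j hjO hij
      exact hne this.1 this.2
  obtain ⟨j0, j1, hj1, hj01, hjn⟩ := hj
  have hrr := hr i0 hi0 j1 hj1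
  have hDD := hD i0 hi0
  have t1 := Alg.idist_triangle c i0 j0 j1
  have t2 := Alg.idist_triangle c i0 f.1 j0
  have t3 := Alg.idist_triangle c i0 f'.1 j0
  have t4 := Alg.idist_triangle c f.1 f'.1 j0
  have t5 := Alg.idist_triangle c f'.1 f.1 j0
  have k1 := Alg.idist_comm c f.1 j0
  have k2 := Alg.idist_comm c f'.1 j0
  have k3 := Alg.idist_comm c f'.1 f.1
  have hm5 : 5 * m ≤ r + d + D := by omega
  have hi0'' : c.idist i0 f.1 < m ∨ c.idist i0 f'.1 < m := by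
    by_cases hh : m ≤ c.idist i0 f.1
    · exact Or.inr (hi0' hh)
    · exact Or.inl (by omega)
  have hjn' : c.idist j0 f.1 + 1 < m ∨ c.idist j0 f'.1 + 1 < m := by
    by_contra hh
    push Not at hh
    exact hjn ⟨by omega, by omega⟩
  rw [← hd] at t4
  rw [k3, ← hd] at t5
  omega

/-! ### LEAF L-FACE-F3 : the contract form of the cell Poincaré inequality (`cell_poincare`; every inner bond `(x, d)` occurs in `bondE` from both ends, `C = max a 1`) -/

open Classical in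
theorem bondE_ge {c : Grid G} (hc : Whole c) (i : c.I) (ξ : G.V → ℝ) :
    (∑ e : G.V × Bool, if stp e.1 e.2 ≠ e.1 ∧ c.blk e.1 = i ∧ c.blk (stp e.1 e.2) = i then (ξ (stp e.1 e.2) - ξ e.1) ^ 2 else 0)
      ≤ bondE (c.sites {i}) ξ := by
  rw [enc_bondE]
  refine Finset.sum_le_sum fun e _ => ?_
  have hs : ∀ v : G.V, v ∈ c.sites {i} ↔ c.blk v = i := fun v => by
    unfold Grid.sites
    simp
  simp only [hs]
  by_cases h : c.blk e.1 = i ∧ c.blk (stp e.1 e.2) = i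
  · rw [if_pos h]
    split_ifs
    · exact le_rfl
    · exact sq_nonneg _
  · rw [if_neg h, if_neg (fun h' => h h'.2)]

theorem cell_coercivity_pf (a : ℝ) (ha : 0 < a) : ∃ C : ℝ, ∀ (G : Geom) (c : Grid G), Whole c → ∀ (i : c.I) (ξ : G.V → ℝ),
    ((c.m : ℝ) ^ 2)⁻¹ * ∑ x ∈ c.sites {i}, ξ x ^ 2 ≤ C * (a⁻¹ * bondE (c.sites {i}) ξ + avg c ξ i ^ 2) := by
  classical
  refine ⟨max a 1, fun G c hc i ξ => ?_⟩
  have h1 := cell_poincare hc i ξ
  have h2 := bondE_ge hc i ξ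
  have h0 : 0 ≤ bondE (c.sites {i}) ξ := by
    rw [enc_bondE]
    refine Finset.sum_nonneg fun e _ => ?_
    split_ifs
    · exact sq_nonneg _
    · exact le_rfl
  have h3 : bondE (c.sites {i}) ξ ≤ max a 1 * (a⁻¹ * bondE (c.sites {i}) ξ) := by
    have h4 : bondE (c.sites {i}) ξ = a * (a⁻¹ * bondE (c.sites {i}) ξ) := by
      rw [← mul_assoc, mul_inv_cancel₀ ha.ne', one_mul]
    calc bondE (c.sites {i}) ξ = a * (a⁻¹ * bondE (c.sites {i}) ξ) := h4
      _ ≤ max a 1 * (a⁻¹ * bondE (c.sites {i}) ξ) :=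
        mul_le_mul_of_nonneg_right (le_max_left _ _) (mul_nonneg (inv_pos.2 ha).le h0)
  have h5 : avg c ξ i ^ 2 ≤ max a 1 * avg c ξ i ^ 2 := by
    have : (1 : ℝ) ≤ max a 1 := le_max_right _ _
    nlinarith [sq_nonneg (avg c ξ i)]
  rw [mul_add]
  linarith

end

end Claimed.Agent.R285.F4a
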